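import Vale.Agent.P042.S.QuadA

/-! # P042 S/Quad (TASK; helper names end with _qu; the plan also covers a sibling file): weights at one prime for a quadratic polynomial.
`X n = 2 α n + β`, `4 α g(n) = X n ^ 2 - Δ`.  `good`: `D = X ρ` in `ZMod p`, `ω n = p / |con D| * #{z ∈ con D | z.1 = X n}`; `n ↦ X n` is a bijection from `range p` to `ZMod p`; `ph g a p n = ψ (b (X n ^ 2 - D ^ 2))`, `b = a / (4 α)`
(`ZMod.stdAddChar_coe`); `conic`, `|con D| ≥ p / 2`, fibres have at most two points.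
`kill_quad`: `av_kill` with `m = p ^ (j + 1)`: `g (n + m t) ≡ g n + X n m t` modulo `p ^ (j + 2)`, `sum_ee`.
`good2`: `ε = 16 p ^ (-1 / 4) ≤ 1`, `ω' = (1 - ε) ω + ε * (if p ∣ n - ρ then p else 0)`; `av_dvd`; `p ∤ X n` if `p ∣ n - ρ`.
`bad`: for `j ≤ u` all phases are trivial (`ph_congr`, `av_const`); for `j = u + 1 + i` use `av_kill` with `m = p ^ i` and `p` shifts, or `av_shift` with `s = p ^ i`: the mean is multiplied by `ee (a l / p) ≠ 1`. -/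

namespace Vale.Agent.P042.S

open Finset Polynomial

variable {g : ℤ[X]} {α β γ : ℤ} {p : ℕ}

theorem phase_qu {a n n' : ℤ} {q r : ℕ} (c : ℤ) (hq : q = p * r) (hp : p ≠ 0) (hr : r ≠ 0)
    (H : (q : ℤ) ∣ a * g.eval n' - a * g.eval n - r * c) :
    ph g a q n' = ph g a q n * ee ((c : ℝ) / p) := by
  obtain ⟨k, hk⟩ := H
  have h1 : a * g.eval n' = a * g.eval n + r * c + q * k := by linear_combination hk
  have h2 : (p : ℝ) ≠ 0 := by exact_mod_cast hp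
  have h3 : (r : ℝ) ≠ 0 := by exact_mod_cast hr
  unfold ph
  rw [← ee_add, ← ee_add_int (_ + _) k, h1, hq]
  congr 1
  push_cast
  field_simp

theorem one_qu {a n : ℤ} {q : ℕ} (H : (q : ℤ) ∣ a * g.eval n) : ph g a q n = 1 := by
  have h1 : ph g a q n = ph 0 0 q 0 := ph_congr (by simpa using H)
  rw [h1]
  simp [ph, ee_zero]

theorem sum_qu (hp : p.Prime) {a x : ℤ} (ha : IsCoprime a p) (hx : ¬ (p : ℤ) ∣ x) :
    ∑ t ∈ range p, ee ((((t : ℤ) * (a * x) : ℤ) : ℝ) / p) = 0 := by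
  have h1 := sum_ee hp.pos (a * x)
  rw [if_neg fun h => hx (ha.symm.dvd_of_dvd_mul_left h)] at h1
  rw [← h1]
  refine sum_congr rfl fun t _ => ?_
  congr 1
  push_cast
  ring

theorem kill_quad (hg : ∀ n, g.eval n = α * n ^ 2 + β * n + γ) (hp : p.Prime) {ω : ℤ → ℝ}
    (hω : Function.Periodic ω (p : ℤ)) (h0 : ∀ n, (p : ℤ) ∣ 2 * α * n + β → ω n = 0) (j : ℕ) {a : ℤ}
    (ha : IsCoprime a p) : (av (p ^ (j + 2)) fun n => ω n * ph g a (p ^ (j + 2)) n) = 0 := by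
  have hω' : ∀ n k : ℤ, ω (n + k * p) = ω n := fun n k => hω.int_mul k n
  refine av_kill (fun n => ?_) hp.pos ((p : ℤ) ^ (j + 1)) fun n => ?_
  · have h1 : n + ((p ^ (j + 2) : ℕ) : ℤ) = n + (p : ℤ) ^ (j + 1) * p := by
      push_cast
      ring
    rw [ph_per g a (p ^ (j + 2)) n, h1, hω']
  · have h1 : ∀ t ∈ range p, (ω (n + (p : ℤ) ^ (j + 1) * t) : ℂ) *
        ph g a (p ^ (j + 2)) (n + (p : ℤ) ^ (j + 1) * t) = ω n * ph g a (p ^ (j + 2)) n *
          ee ((((t : ℤ) * (a * (2 * α * n + β)) : ℤ) : ℝ) / p) := by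
      intro t _
      have h2 : n + (p : ℤ) ^ (j + 1) * t = n + ((p : ℤ) ^ j * t) * p := by ring
      rw [phase_qu (n := n) (r := p ^ (j + 1)) (t * (a * (2 * α * n + β))) (pow_succ' _ _) hp.ne_zero
        (pow_ne_zero _ hp.ne_zero) ⟨a * α * p ^ j * t ^ 2, by rw [hg, hg]; push_cast; ring⟩, h2,
        hω', ← mul_assoc]
    rw [sum_congr rfl h1, ← mul_sum]
    by_cases hx : (p : ℤ) ∣ 2 * α * n + β
    · rw [h0 n hx]
      simp
    · rw [sum_qu hp ha hx, mul_zero]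

theorem good2 (hg : ∀ n, g.eval n = α * n ^ 2 + β * n + γ) (hp : p.Prime) (h16 : 65536 ≤ p)
    (hα : ¬ (p : ℤ) ∣ α) (hΔ : ¬ (p : ℤ) ∣ β ^ 2 - 4 * α * γ) {ρ : ℤ} (hρ : (p : ℤ) ∣ g.eval ρ) :
    ∃ ω : ℤ → ℝ, Function.Periodic ω (p : ℤ) ∧ ∑ t ∈ range p, ω t = p ∧
      (∀ n, 0 ≤ ω n ∧ ω n ≤ p) ∧ ∀ (j : ℕ) (a : ℤ), IsCoprime a p → ∃ κ : ℝ, 0 ≤ κ ∧
        κ ≤ 32 * ((p ^ (j + 1) : ℕ) : ℝ) ^ (-(1 / 4) : ℝ) ∧
        (av (p ^ (j + 1)) fun n => ω n * ph g a (p ^ (j + 1)) n) = κ := by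
  obtain ⟨ω, hper, hsum, hb, h0, hκ⟩ := good hg hp (by omega) hα hΔ hρ
  have hp0 : (65536 : ℝ) ≤ p := by exact_mod_cast h16
  obtain ⟨ε, hε⟩ : ∃ ε : ℝ, ε = 16 * (p : ℝ) ^ (-(1 / 4) : ℝ) := ⟨_, rfl⟩
  have hε0 : 0 ≤ ε := by rw [hε]; positivity
  have hε1 : ε ≤ 1 := by
    have h1 : (p : ℝ) ^ (-(1 / 4) : ℝ) ≤ (65536 : ℝ) ^ (-(1 / 4) : ℝ) :=
      Real.rpow_le_rpow_of_nonpos (by norm_num) hp0 (by norm_num)
    have h2 : (65536 : ℝ) ^ (-(1 / 4) : ℝ) = 1 / 16 := by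
      rw [show (65536 : ℝ) = 16 ^ (4 : ℝ) by norm_num, ← Real.rpow_mul (by norm_num)]
      norm_num
    rw [hε]
    linarith
  obtain ⟨δ, hδ⟩ : ∃ δ : ℤ → ℝ, δ = fun n => if (p : ℤ) ∣ n - ρ then (p : ℝ) else 0 := ⟨_, rfl⟩
  have hδc : ∀ n, (δ n : ℂ) = if (p : ℤ) ∣ n - ρ then (p : ℂ) else 0 := by
    intro n
    rw [hδ]
    dsimp only
    split_ifs <;> simp
  have hδp : Function.Periodic δ (p : ℤ) := by
    intro n
    have h1 : n + p - ρ = n - ρ + p := by ring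
    simp only [hδ, h1, dvd_add_self_right]
  have hδb : ∀ n, 0 ≤ δ n ∧ δ n ≤ p := by
    intro n
    rw [hδ]
    dsimp only
    split_ifs <;> constructor <;> linarith
  have hδs : ∑ t ∈ range p, δ t = p := by
    have h1 := av_dvd (f := fun _ => (1 : ℂ)) (q := p) (fun _ => rfl) hp.pos dvd_rfl ρ
    rw [av_const hp.pos] at h1
    simp only [← hδc, mul_one, av] at h1
    have h2 : (p : ℂ) ≠ 0 := by exact_mod_cast hp.ne_zero
    rw [div_eq_one_iff_eq h2] at h1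
    exact_mod_cast h1
  have hper' : Function.Periodic (fun n => (1 - ε) * ω n + ε * δ n) (p : ℤ) := fun n => by
    simp only [hper n, hδp n]
  refine ⟨fun n => (1 - ε) * ω n + ε * δ n, hper', ?_, fun n => ?_, fun j a ha => ?_⟩
  · rw [sum_add_distrib, ← mul_sum, ← mul_sum, hsum, hδs]
    ring
  · obtain ⟨h1, h2⟩ := hb n
    obtain ⟨h3, h4⟩ := hδb n
    have h5 : (1 - ε) * ω n ≤ (1 - ε) * p := mul_le_mul_of_nonneg_left (by linarith) (by linarith)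
    have h6 : ε * δ n ≤ ε * p := mul_le_mul_of_nonneg_left h4 hε0
    have h7 : 0 ≤ (1 - ε) * ω n := mul_nonneg (by linarith) h1
    have h8 : 0 ≤ ε * δ n := mul_nonneg hε0 h3
    constructor <;> linarith
  · rcases j with _ | j
    · obtain ⟨κ, hk, he⟩ := hκ a ha
      rw [← hε] at hk
      obtain ⟨hk1, hk2⟩ := abs_le.1 hk
      have h1 := av_dvd (ph_per g a p) hp.pos dvd_rfl ρ
      have h2 : ∀ n : ℤ, ph g a p (ρ + p * n) = 1 := fun n => one_qu (Dvd.dvd.mul_left (by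
        obtain ⟨k, hk⟩ := hρ
        rw [hg] at hk
        exact ⟨k + α * (2 * ρ * n + p * n ^ 2) + β * n, by rw [hg]; linear_combination hk⟩) a)
      simp only [h2, av_const hp.pos, ← hδc] at h1
      refine ⟨(1 - ε) * κ + ε, by nlinarith, ?_, ?_⟩
      · rw [zero_add, pow_one]
        nlinarith
      · rw [zero_add, pow_one]
        have h3 : (av p fun n => (((1 - ε) * ω n + ε * δ n : ℝ) : ℂ) * ph g a p n) =
            (1 - ε) * (av p fun n => ω n * ph g a p n) + ε * av p fun n => δ n * ph g a p n := by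
          simp only [av, ← mul_div_assoc, ← add_div, mul_sum, ← sum_add_distrib]
          congr 1
          exact sum_congr rfl fun t _ => by push_cast; ring
        rw [h3, he, h1]
        push_cast
        ring
    · refine ⟨0, le_rfl, by positivity, ?_⟩
      rw [Complex.ofReal_zero]
      refine kill_quad hg hp hper' (fun n hn => ?_) j ha
      have h1 : ¬ (p : ℤ) ∣ n - ρ := by
        rintro ⟨k, hk⟩
        obtain ⟨k₁, hk₁⟩ := hn
        obtain ⟨k₂, hk₂⟩ := hρ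
        rw [hg] at hk₂
        have h2 : 2 * α * ρ + β = p * (k₁ - 2 * α * k) := by linear_combination hk₁ - 2 * α * hk
        exact hΔ ⟨(2 * α * ρ + β) * (k₁ - 2 * α * k) - 4 * α * k₂, by
          linear_combination (2 * α * ρ + β) * h2 - 4 * α * hk₂⟩
      simp only [h0 n hn, hδ, if_neg h1, mul_zero, add_zero]

theorem bad (hp : p.Prime) {u : ℕ} {l : ℤ} (hg : ∀ n, g.eval n = α * n ^ 2 + p ^ u * l * n + γ)
    (hl : ¬ (p : ℤ) ∣ l) (hα : (p : ℤ) ^ (u + 1) ∣ α) (hγ : (p : ℤ) ^ u ∣ γ) (j : ℕ) {a : ℤ}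
    (ha : IsCoprime a p) : NN (av (p ^ j) (ph g a (p ^ j))) := by
  obtain ⟨α', rfl⟩ := hα
  obtain ⟨γ', rfl⟩ := hγ
  rcases le_or_gt j u with hj | hj
  · obtain ⟨i, rfl⟩ := Nat.exists_eq_add_of_le hj
    have h1 : ph g a (p ^ j) = fun _ => 1 := funext fun n => one_qu
      ⟨a * p ^ i * (p * α' * n ^ 2 + l * n + γ'), by rw [hg]; push_cast; ring⟩
    exact ⟨1, zero_le_one, by rw [h1, av_const (pow_pos hp.pos _), Complex.ofReal_one]⟩
  · obtain ⟨i, rfl⟩ := Nat.exists_eq_add_of_lt hj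
    refine ⟨0, le_rfl, ?_⟩
    rw [Complex.ofReal_zero]
    refine av_kill (ph_per g a _) hp.pos ((p : ℤ) ^ i) fun n => ?_
    have h1 : ∀ t ∈ range p, ph g a (p ^ (u + i + 1)) (n + (p : ℤ) ^ i * t) =
        ph g a (p ^ (u + i + 1)) n * ee ((((t : ℤ) * (a * l) : ℤ) : ℝ) / p) := fun t _ =>
      phase_qu (r := p ^ (u + i)) (t * (a * l)) (pow_succ' _ _) hp.ne_zero
        (pow_ne_zero _ hp.ne_zero)
        ⟨a * α' * (2 * n * t + p ^ i * t ^ 2), by rw [hg, hg]; push_cast; ring⟩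
    rw [sum_congr rfl h1, ← mul_sum, sum_qu hp ha hl, mul_zero]

end Vale.Agent.P042.S
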