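import Vale.Agent.P042.S.QLocA
import Vale.Agent.P042.S.Quad

/-! # P042 S/QLoc (TASK; helper names end with _ql; the plan also covers a sibling file): local weights for a quadratic polynomial.
`loc_of`: choose `ω p` for the primes of the second kind (`ω p = 1` otherwise); `D p 0 = 1`, `D p 1 = ω p - 1`, `D p (i + 2) = 0`; `mart` by `sum_perm` (real and complex casts) or directly; decay from `hua_lead 2`:
the sum is at most `2 ‖G‖ + κ`; exponent `min c (1 / 4)`.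
`loc_quad`: `α, β, γ` the coefficients (`eval_eq_sum_range`), `Δ ≠ 0`; `m > 0` divisible by `α Δ` and by all numbers up to `65536` (a factorial, keep it abstract with `obtain`); `r ≥ 0` with `m ^ 4 ∣ h(r)` (`Int.emod`, `Polynomial.sub_dvd_eval_sub`), `Q = m ^ 2`,
`g(n) = α m ^ 4 n ^ 2 + X m ^ 2 n + h(r)`, `X = 2 α r + β`, `X ^ 2 = 4 α h(r) + Δ`.  If `p ∣ m`, `v = v_p(m)`: `p ^ (v + 1) ∤ X` (else it divides `Δ ∣ m`), so `X m ^ 2 = p ^ u l` with `u + 1 ≤ 4 v`; `bad`.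
If `p ∤ m`: the discriminant of `g` is `m ^ 4 Δ`, a root `ρ` solves `r + m ^ 2 ρ ≡ t` (`IsCoprime`), `good2`. -/

namespace Vale.Agent.P042.S

open Finset Polynomial

theorem big_ql {a : ℤ} (ha : a ≠ 0) : ∃ m : ℕ, 0 < m ∧ a ∣ m ∧ ∀ k : ℕ, 0 < k → k ≤ 65536 → k ∣ m := by
  obtain ⟨F, hF, hF'⟩ : ∃ F : ℕ, 0 < F ∧ ∀ k : ℕ, 0 < k → k ≤ 65536 → k ∣ F :=
    ⟨_, Nat.factorial_pos _, fun k h1 h2 => Nat.dvd_factorial h1 h2⟩
  refine ⟨a.natAbs * F, Nat.mul_pos (Int.natAbs_pos.2 ha) hF, ?_,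
    fun k h1 h2 => (hF' k h1 h2).mul_left _⟩
  rw [Nat.cast_mul]
  exact (Int.dvd_natAbs.2 dvd_rfl).mul_right _

theorem root_ql {h : ℤ[X]} {q : ℕ} (hq : 0 < q) {t : ℤ} (ht : (q : ℤ) ∣ h.eval t) :
    ∃ r : ℕ, (q : ℤ) ∣ h.eval (r : ℤ) := by
  have h0 : (q : ℤ) ≠ 0 := by exact_mod_cast hq.ne'
  refine ⟨(t % q).toNat, ?_⟩
  rw [Int.toNat_of_nonneg (Int.emod_nonneg _ h0)]
  have h1 : (q : ℤ) ∣ t - t % q := Int.dvd_self_sub_emod
  have h2 := h1.trans (sub_dvd_eval_sub t (t % q) h)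
  exact (dvd_iff_dvd_of_dvd_sub h2).1 ht

theorem loc_quad {h : ℤ[X]} (hk : h.natDegree = 2)
    (hint : ∀ q : ℕ, 1 ≤ q → ∃ t : ℤ, (q : ℤ) ∣ h.eval t)
    (hΔ : discrim (h.coeff 2) (h.coeff 1) (h.coeff 0) ≠ 0) :
    ∃ r Q : ℕ, 0 < Q ∧ ∃ C' c D, 0 < c ∧ Loc (h.comp (C (Q : ℤ) * X + C (r : ℤ))) C' c D := by
  obtain ⟨α, hα⟩ : ∃ α, α = h.coeff 2 := ⟨_, rfl⟩
  obtain ⟨β, hβ⟩ : ∃ β, β = h.coeff 1 := ⟨_, rfl⟩
  obtain ⟨γ, hγ⟩ : ∃ γ, γ = h.coeff 0 := ⟨_, rfl⟩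
  have hev : ∀ n, h.eval n = α * n ^ 2 + β * n + γ := by
    intro n
    rw [eval_eq_sum_range, hk, sum_range_succ, sum_range_succ, sum_range_one, hα, hβ, hγ]
    ring
  have hα0 : α ≠ 0 := by
    rw [hα, ← hk]
    refine leadingCoeff_ne_zero.2 fun h0 => ?_
    rw [h0, natDegree_zero] at hk
    exact absurd hk (by norm_num)
  rw [← hα, ← hβ, ← hγ, discrim] at hΔ
  obtain ⟨Δ, hD⟩ : ∃ Δ, Δ = β ^ 2 - 4 * α * γ := ⟨_, rfl⟩
  rw [← hD] at hΔ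
  obtain ⟨m, hm, hm1, hm2⟩ := big_ql (mul_ne_zero hα0 hΔ)
  have hmα : α ∣ m := (dvd_mul_right _ _).trans hm1
  have hmΔ : Δ ∣ m := (dvd_mul_left _ _).trans hm1
  have hm0 : (m : ℤ) ≠ 0 := by exact_mod_cast hm.ne'
  obtain ⟨t, ht⟩ := hint (m ^ 4) (pow_pos hm 4)
  obtain ⟨r, hr⟩ := root_ql (pow_pos hm 4) ht
  rw [Nat.cast_pow] at hr
  refine ⟨r, m ^ 2, pow_pos hm 2, ?_⟩
  obtain ⟨g, hg⟩ : ∃ g, g = h.comp (C ((m ^ 2 : ℕ) : ℤ) * X + C (r : ℤ)) := ⟨_, rfl⟩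
  rw [← hg]
  have hdeg : g.natDegree = 2 := by
    rw [hg, natDegree_comp, hk, natDegree_linear (by exact_mod_cast (pow_pos hm 2).ne')]
  have hg1 : ∀ n, g.eval n = h.eval ((m : ℤ) ^ 2 * n + r) := by
    intro n
    rw [hg, eval_comp]
    simp
  obtain ⟨Y, hY⟩ : ∃ Y, Y = 2 * α * r + β := ⟨_, rfl⟩
  have hg2 : ∀ n, g.eval n = α * (m : ℤ) ^ 4 * n ^ 2 + Y * (m : ℤ) ^ 2 * n + h.eval (r : ℤ) := by
    intro n
    rw [hg1, hev, hev, hY]
    ring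
  have hY2 : Δ = Y ^ 2 - 4 * α * h.eval (r : ℤ) := by
    rw [hev, hY, hD]
    ring
  refine loc_of (by omega) hdeg.le fun p hp => ?_
  have hp' : Prime (p : ℤ) := Nat.prime_iff_prime_int.1 hp
  by_cases hpm : (p : ℤ) ∣ m
  · left
    obtain ⟨v, m', hm', e1⟩ := WfDvdMonoid.max_power_factor' hm0 hp'.not_isUnit
    have hv : 1 ≤ v := by
      refine Nat.pos_of_ne_zero fun h0 => hm' ?_
      rwa [e1, h0, pow_zero, one_mul] at hpm
    have hp4 : ∀ u, u ≤ 4 * v → (p : ℤ) ^ u ∣ (m : ℤ) ^ 4 := by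
      intro u hu
      rw [e1, mul_pow, ← pow_mul]
      exact (pow_dvd_pow _ (by omega)).mul_right _
    have hnd : ¬ (p : ℤ) ^ (v + 1) ∣ Y := by
      intro hd
      have h3 : (p : ℤ) ^ (v + 1) ∣ Δ := by
        rw [hY2]
        exact dvd_sub (hd.trans (dvd_pow_self Y two_ne_zero))
          (((hp4 _ (by omega)).trans hr).mul_left _)
      have h4 := h3.trans hmΔ
      rw [e1, pow_succ] at h4
      exact hm' ((mul_dvd_mul_iff_left (pow_ne_zero v hp'.ne_zero)).1 h4)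
    have hY0 : Y ≠ 0 := fun h0 => hnd (h0 ▸ dvd_zero _)
    obtain ⟨w, Y', hY', e2⟩ := WfDvdMonoid.max_power_factor' hY0 hp'.not_isUnit
    have hw : w ≤ v := by
      by_contra hlt
      refine hnd ?_
      rw [e2]
      exact (pow_dvd_pow _ (by omega)).mul_right _
    intro j a ha
    refine bad (α := α * (m : ℤ) ^ 4) (γ := h.eval (r : ℤ)) hp (u := w + 2 * v) (l := Y' * m' ^ 2)
      (fun n => ?_) (fun hd => ?_) ((hp4 _ (by omega)).mul_left _)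
      ((hp4 _ (by omega)).trans hr) j ha
    · have e3 : Y * (m : ℤ) ^ 2 = (p : ℤ) ^ (w + 2 * v) * (Y' * m' ^ 2) := by
        rw [e2, e1]
        ring
      rw [hg2, e3]
    · rcases hp'.dvd_or_dvd hd with h3 | h3
      · exact hY' h3
      · exact hm' (hp'.dvd_of_dvd_pow h3)
  · right
    have h16 : 65536 ≤ p := by
      by_contra hlt
      exact hpm (Int.natCast_dvd_natCast.2 (hm2 p hp.pos (by omega)))
    obtain ⟨s, hs⟩ := hint p hp.one_le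
    have hc : IsCoprime ((m : ℤ) ^ 2) p := (hp'.coprime_iff_not_dvd.2 hpm).symm.pow_left
    obtain ⟨x, y, hxy⟩ := hc
    refine good2 hg2 hp h16 (fun hd => ?_) (fun hd => ?_) (ρ := x * (s - r)) ?_
    · rcases hp'.dvd_or_dvd hd with h3 | h3
      · exact hpm (h3.trans hmα)
      · exact hpm (hp'.dvd_of_dvd_pow h3)
    · have e3 : (Y * (m : ℤ) ^ 2) ^ 2 - 4 * (α * (m : ℤ) ^ 4) * h.eval (r : ℤ) =
          (m : ℤ) ^ 4 * Δ := by
        rw [hY2]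
        ring
      rw [e3] at hd
      rcases hp'.dvd_or_dvd hd with h3 | h3
      · exact hpm (hp'.dvd_of_dvd_pow h3)
      · exact hpm (h3.trans hmΔ)
    · rw [hg1]
      have h3 : (p : ℤ) ∣ (m : ℤ) ^ 2 * (x * (s - r)) + r - s :=
        ⟨-(y * (s - r)), by linear_combination (s - r) * hxy⟩
      exact (dvd_iff_dvd_of_dvd_sub (h3.trans (sub_dvd_eval_sub _ _ h))).2 hs

end Vale.Agent.P042.S
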