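import Vale.Agent.P042.S.AvA

/-! # P042 S/Av (TASK; helper names end with _av; the plan also covers a sibling file): means of periodic functions.
`sum_perm`: `ZMod q` (`NeZero q`): `∑ t ∈ range q, g t = ∑ x : ZMod q, g x.val` (`Finset.sum_range`, `ZMod.finEquiv`, or `Finset.sum_nbij`),
`f n = f (n : ZMod q).val` by periodicity (`Function.Periodic.int_mul`, `ZMod.val_intCast`, `Int.emod_add_mul_ediv`), and `x ↦ n + m x` is a bijection (`ZMod.unitOfCoprime`, or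
injectivity on `range q` of `t ↦ ((n + m t) % q).toNat` and `Finset.sum_bij`).  `av_mul`: induction on `m`, `Finset.sum_range_add` or `Finset.sum_range_succ_mul_comm`-like, and `av_shift`.
`av_kill`: `p * av L F = ∑ t, av L (F (· + m t)) = av L (∑ t, ..)`.  `av_crt`: average `f₁ f₂` over the shifts `n + q₁ t`, `t < q₂` (`av_shift`, `sum_perm`), then `av_mul`.
`av_prog`: `av q f = av (q * s) f`, write `n = r + s n'` (`Finset.sum_range` of a product: `Nat.sum_range_mul`-like induction on `q`).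
`ph_split`: Bezout `u q₁ + v q₂ = 1`, `a₁ = a v`, `a₂ = a u`. `ph_congr`, `ph_per`: `Polynomial.sub_dvd_eval_sub`, `ee_add_int`. -/

namespace Vale.Agent.P042.S

open Finset Polynomial

theorem sum_av (L : ℕ) (T : Finset ℕ) (F : ℕ → ℤ → ℂ) :
    (av L fun n => ∑ t ∈ T, F t n) = ∑ t ∈ T, av L (F t) := by
  simp only [av]
  rw [sum_comm, sum_div]

theorem mul_av (L : ℕ) (f : ℤ → ℂ) (c : ℂ) : (av L fun n => f n * c) = av L f * c := by
  simp only [av]
  rw [← sum_mul, mul_div_right_comm]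

theorem range_mul_av (g : ℕ → ℂ) (s q : ℕ) :
    ∑ n ∈ range (q * s), g n = ∑ r ∈ range s, ∑ n ∈ range q, g (r + s * n) := by
  induction q with
  | zero => simp
  | succ q ih =>
    rw [Nat.succ_mul, sum_range_add, ih, ← sum_add_distrib]
    refine sum_congr rfl fun r _ => ?_
    rw [sum_range_succ, add_comm (q * s), mul_comm q]

theorem av_crt {f₁ f₂ : ℤ → ℂ} {q₁ q₂ : ℕ} (h₁ : Function.Periodic f₁ (q₁ : ℤ))
    (h₂ : Function.Periodic f₂ (q₂ : ℤ)) (h : q₁.Coprime q₂) (hq₁ : 0 < q₁) (hq₂ : 0 < q₂) :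
    (av (q₁ * q₂) fun n => f₁ n * f₂ n) = av q₁ f₁ * av q₂ f₂ := by
  have hF : Function.Periodic (fun n => f₁ n * f₂ n) ((q₁ * q₂ : ℕ) : ℤ) := fun n => by
    have a1 := h₁.int_mul q₂ n
    have a2 := h₂.int_mul q₁ n
    simp only [Int.cast_id] at a1 a2
    rw [mul_comm] at a1
    simp only [Nat.cast_mul, a1, a2]
  have c2 : (q₂ : ℂ) ≠ 0 := Nat.cast_ne_zero.2 hq₂.ne'
  have e1 : ∑ t ∈ range q₂, (av (q₁ * q₂) fun n => f₁ (n + q₁ * t) * f₂ (n + q₁ * t)) =
      q₂ * av (q₁ * q₂) fun n => f₁ n * f₂ n := by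
    rw [sum_congr rfl fun t _ => av_shift hF (q₁ * (t : ℕ)), sum_const, card_range, nsmul_eq_mul]
  have e2 : ∀ n : ℤ, ∑ t ∈ range q₂, f₁ (n + q₁ * t) * f₂ (n + q₁ * t) =
      f₁ n * ∑ t ∈ range q₂, f₂ t := fun n => by
    rw [← sum_perm h₂ (Nat.isCoprime_iff_coprime.2 h) n, mul_sum]
    refine sum_congr rfl fun t _ => ?_
    have a1 := h₁.int_mul t n
    simp only [Int.cast_id] at a1
    rw [mul_comm (q₁ : ℤ), a1]
  rw [← sum_av] at e1
  simp only [e2] at e1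
  rw [mul_av, av_mul h₁ hq₂] at e1
  refine mul_left_cancel₀ c2 ?_
  rw [← e1, av, av]
  field_simp

theorem av_prog {f : ℤ → ℂ} {q s : ℕ} (hf : Function.Periodic f (q : ℤ)) (hs : 0 < s) :
    av q f = (∑ r ∈ range s, av q fun n => f (r + s * n)) / s := by
  rw [← av_mul hf hs]
  simp only [av]
  rw [range_mul_av (fun n => f n), ← sum_div, div_div]
  push_cast
  rfl

/-- The mean over the multiples of `e`. -/
theorem av_dvd {f : ℤ → ℂ} {q e : ℕ} (hf : Function.Periodic f (q : ℤ)) (he : 0 < e) (heq : e ∣ q)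
    (r : ℤ) : (av q fun n => (if (e : ℤ) ∣ n - r then (e : ℂ) else 0) * f n) =
      av q fun n => f (r + e * n) := by
  have hG : Function.Periodic (fun n => (if (e : ℤ) ∣ n - r then (e : ℂ) else 0) * f n)
      (q : ℤ) := fun n => by
    have : (e : ℤ) ∣ n + q - r ↔ (e : ℤ) ∣ n - r := by
      rw [show n + q - r = n - r + q by ring]
      exact dvd_add_left (Int.natCast_dvd_natCast.2 heq)
    simp only [this, hf n]
  have c : (e : ℂ) ≠ 0 := Nat.cast_ne_zero.2 he.ne'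
  rw [← av_shift hG r, av_prog (hG.add_const r) he, sum_eq_single 0]
  · have h1 : ∀ n : ℤ, (e : ℤ) ∣ ((0 : ℕ) : ℤ) + e * n + r - r := fun n => ⟨n, by push_cast; ring⟩
    simp only [h1, if_true, mul_comm (e : ℂ)]
    rw [mul_av, mul_div_cancel_right₀ _ c]
    congr 1
    funext n
    congr 1
    push_cast
    ring
  · intro b hb b0
    have h1 : ∀ n : ℤ, ¬(e : ℤ) ∣ (b : ℤ) + e * n + r - r := fun n hn => by
      rw [add_sub_cancel_right, dvd_add_left (dvd_mul_right _ _), Int.natCast_dvd_natCast] at hn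
      exact absurd (Nat.le_of_dvd (Nat.pos_of_ne_zero b0) hn) (not_le.2 (mem_range.1 hb))
    simp only [h1, if_false, zero_mul, av, sum_const_zero, zero_div]
  · intro h0
    exact absurd (mem_range.2 he) h0

theorem ph_congr {h h' : ℤ[X]} {a a' n n' : ℤ} {q : ℕ}
    (H : (q : ℤ) ∣ a * h.eval n - a' * h'.eval n') : ph h a q n = ph h' a' q n' := by
  obtain ⟨k, hk⟩ := H
  rw [ph, ph, sub_eq_iff_eq_add'.1 hk]
  rcases Nat.eq_zero_or_pos q with rfl | hq
  · simp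
  have c : (q : ℝ) ≠ 0 := Nat.cast_ne_zero.2 hq.ne'
  rw [← ee_add_int (((a' * h'.eval n' : ℤ) : ℝ) / q) k]
  congr 1
  push_cast
  field_simp

theorem ph_per (h : ℤ[X]) (a : ℤ) (q : ℕ) : Function.Periodic (ph h a q) (q : ℤ) := by
  intro n
  refine ph_congr ?_
  have := sub_dvd_eval_sub (n + q) n h
  rw [add_sub_cancel_left] at this
  rw [← mul_sub]
  exact this.mul_left a

theorem ph_split (h : ℤ[X]) {q₁ q₂ : ℕ} (hq : q₁.Coprime q₂) (hq₁ : 0 < q₁) (hq₂ : 0 < q₂) {a : ℤ}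
    (ha : IsCoprime a ((q₁ * q₂ : ℕ) : ℤ)) : ∃ a₁ a₂ : ℤ, IsCoprime a₁ q₁ ∧ IsCoprime a₂ q₂ ∧
      ∀ n, ph h a (q₁ * q₂) n = ph h a₁ q₁ n * ph h a₂ q₂ n := by
  obtain ⟨u, v, huv⟩ : IsCoprime (q₁ : ℤ) q₂ := Nat.isCoprime_iff_coprime.2 hq
  rw [Nat.cast_mul] at ha
  refine ⟨a * v, a * u, ha.of_mul_right_left.mul_left ⟨q₂, u, by linarith⟩,
    ha.of_mul_right_right.mul_left ⟨q₁, v, by linarith⟩, fun n => ?_⟩
  have c1 : (q₁ : ℝ) ≠ 0 := Nat.cast_ne_zero.2 hq₁.ne'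
  have c2 : (q₂ : ℝ) ≠ 0 := Nat.cast_ne_zero.2 hq₂.ne'
  have e : (u : ℝ) * q₁ + v * q₂ = 1 := by exact_mod_cast huv
  rw [ph, ph, ph, ← ee_add]
  congr 1
  push_cast
  field_simp
  linear_combination (-(a : ℝ) * ((h.eval n : ℤ) : ℝ)) * e

end Vale.Agent.P042.S
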