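import Vale.Agent.P042.S.Conic
import Vale.Agent.P042.S.Av

/-! # P042 S/QuadA (TASK; helper names end with _qa; the plan also covers a sibling file): weights at one prime for a quadratic polynomial.
`X n = 2 α n + β`, `4 α g(n) = X n ^ 2 - Δ`.  `good`: `D = X ρ` in `ZMod p`, `ω n = p / |con D| * #{z ∈ con D | z.1 = X n}`; `n ↦ X n` is a bijection from `range p` to `ZMod p`; `ph g a p n = ψ (b (X n ^ 2 - D ^ 2))`, `b = a / (4 α)`
(`ZMod.stdAddChar_coe`); `conic`, `|con D| ≥ p / 2`, fibres have at most two points.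
`kill_quad`: `av_kill` with `m = p ^ (j + 1)`: `g (n + m t) ≡ g n + X n m t` modulo `p ^ (j + 2)`, `sum_ee`.
`good2`: `ε = 16 p ^ (-1 / 4) ≤ 1`, `ω' = (1 - ε) ω + ε * (if p ∣ n - ρ then p else 0)`; `av_dvd`; `p ∤ X n` if `p ∣ n - ρ`.
`bad`: for `j ≤ u` all phases are trivial (`ph_congr`, `av_const`); for `j = u + 1 + i` use `av_kill` with `m = p ^ i` and `p` shifts, or `av_shift` with `s = p ^ i`: the mean is multiplied by `ee (a l / p) ≠ 1`. -/

namespace Vale.Agent.P042.S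

open Finset Polynomial

variable {g : ℤ[X]} {α β γ : ℤ} {p : ℕ}

theorem sum_qa {M : Type} [AddCommMonoid M] [Fact p.Prime] (F : ZMod p → M) {c : ZMod p}
    (hc : c ≠ 0) (d : ZMod p) : ∑ t ∈ range p, F (c * (t : ZMod p) + d) = ∑ x, F x := by
  have h1 : ∑ t ∈ range p, F (c * (t : ZMod p) + d) = ∑ x : ZMod p, F (c * x + d) := by
    refine Finset.sum_nbij' (fun t : ℕ => (t : ZMod p)) (fun x => x.val) (fun _ _ => mem_univ _)
      (fun x _ => mem_range.mpr (ZMod.val_lt x))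
      (fun t ht => ZMod.val_cast_of_lt (mem_range.mp ht)) (fun x _ => ZMod.natCast_zmod_val x)
      (fun _ _ => rfl)
  rw [h1]
  exact Equiv.sum_comp ((Equiv.mulLeft₀ c hc).trans (Equiv.addRight d)) F

theorem fib_qa [Fact p.Prime] (D x : ZMod p) : ((con D).filter fun z => z.1 = x).card ≤ 2 := by
  rcases ((con D).filter fun z => z.1 = x).eq_empty_or_nonempty with h | ⟨z0, hz0⟩
  · rw [h]
    simp
  · have hsub : ((con D).filter fun z => z.1 = x) ⊆ {(x, z0.2), (x, -z0.2)} := by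
      intro z hz
      simp only [con, circ, mem_filter, mem_univ, true_and] at hz hz0
      obtain ⟨⟨h1, -⟩, h2⟩ := hz
      obtain ⟨⟨h3, -⟩, h4⟩ := hz0
      rw [h2] at h1
      rw [h4] at h3
      have h5 : z.2 ^ 2 = z0.2 ^ 2 := by linear_combination h1 - h3
      rw [mem_insert, mem_singleton]
      rcases sq_eq_sq_iff_eq_or_eq_neg.mp h5 with h6 | h6
      · exact Or.inl (Prod.ext h2 h6)
      · exact Or.inr (Prod.ext h2 h6)
    exact (card_le_card hsub).trans card_le_two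

theorem ph_qa [Fact p.Prime] (g : ℤ[X]) (a n : ℤ) :
    ph g a p n = ZMod.stdAddChar ((a * g.eval n : ℤ) : ZMod p) := by
  rw [ZMod.stdAddChar_coe, ph, ee]
  congr 1
  push_cast
  ring

theorem fsum_qa [Fact p.Prime] (S : Finset (ZMod p × ZMod p)) (F : ZMod p → ℂ) :
    ∑ x, (((S.filter fun z => z.1 = x).card : ℝ) : ℂ) * F x = ∑ z ∈ S, F z.1 := by
  rw [← Finset.sum_fiberwise S (fun z => z.1) (fun z => F z.1)]
  refine sum_congr rfl fun x _ => ?_
  rw [sum_congr rfl (g := fun _ => F x) (fun z hz => by rw [(mem_filter.mp hz).2])]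
  simp

theorem pow_qa {x c κ : ℝ} (hx : 0 < x) (hc : x / 2 ≤ c) (hκ : |κ| ≤ 8 * x ^ (3 / 4 : ℝ)) :
    |κ / c| ≤ 16 * x ^ (-(1 / 4) : ℝ) := by
  have hc0 : 0 < c := by linarith
  have h1 : x ^ (3 / 4 : ℝ) = x ^ (-(1 / 4) : ℝ) * x := by
    rw [← Real.rpow_add_one hx.ne']
    norm_num
  have h2 : 0 < x ^ (-(1 / 4) : ℝ) := Real.rpow_pos_of_pos hx _
  rw [abs_div, abs_of_pos hc0, div_le_iff₀ hc0]
  rw [h1] at hκ
  nlinarith

theorem good (hg : ∀ n, g.eval n = α * n ^ 2 + β * n + γ) (hp : p.Prime) (h12 : 12 ≤ p)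
    (hα : ¬ (p : ℤ) ∣ α) (hΔ : ¬ (p : ℤ) ∣ β ^ 2 - 4 * α * γ) {ρ : ℤ} (hρ : (p : ℤ) ∣ g.eval ρ) :
    ∃ ω : ℤ → ℝ, Function.Periodic ω (p : ℤ) ∧ ∑ t ∈ range p, ω t = p ∧
      (∀ n, 0 ≤ ω n ∧ ω n ≤ 4) ∧ (∀ n, (p : ℤ) ∣ 2 * α * n + β → ω n = 0) ∧
      ∀ a : ℤ, IsCoprime a p → ∃ κ : ℝ, |κ| ≤ 16 * (p : ℝ) ^ (-(1 / 4) : ℝ) ∧
        (av p fun n => ω n * ph g a p n) = κ := by
  have : Fact p.Prime := ⟨hp⟩
  have hp2 : p ≠ 2 := by omega
  have hα' : (α : ZMod p) ≠ 0 := fun h => hα ((ZMod.intCast_zmod_eq_zero_iff_dvd _ _).mp h)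
  have h2 : (2 : ZMod p) ≠ 0 := by
    intro h
    have h3 : ((2 : ℕ) : ZMod p) = 0 := by exact_mod_cast h
    have := Nat.le_of_dvd (by norm_num) ((ZMod.natCast_eq_zero_iff _ _).mp h3)
    omega
  have hΔ' : (β : ZMod p) ^ 2 - 4 * α * γ ≠ 0 := by
    intro h
    refine hΔ ((ZMod.intCast_zmod_eq_zero_iff_dvd _ _).mp ?_)
    push_cast
    exact h
  have hρ' : (α : ZMod p) * ρ ^ 2 + β * ρ + γ = 0 := by
    have := (ZMod.intCast_zmod_eq_zero_iff_dvd _ _).mpr hρ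
    rw [hg] at this
    push_cast at this
    exact this
  obtain ⟨D, hD⟩ : ∃ D : ZMod p, D = 2 * α * ρ + β := ⟨_, rfl⟩
  have hD2 : D ^ 2 = (β : ZMod p) ^ 2 - 4 * α * γ := by
    rw [hD]
    linear_combination (4 * (α : ZMod p)) * hρ'
  have hD0 : D ≠ 0 := by
    intro h
    rw [h] at hD2
    exact hΔ' (by rw [← hD2]; simp)
  obtain ⟨hcard, hsum⟩ := conic hp2 hD0
  obtain ⟨c, hc⟩ : ∃ c : ℝ, c = (con D).card := ⟨_, rfl⟩
  have hpR : (12 : ℝ) ≤ p := by exact_mod_cast h12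
  have hcp : (p : ℝ) / 2 ≤ c := by
    have : (p : ℝ) ≤ (con D).card + 6 := by exact_mod_cast hcard
    rw [hc]
    linarith
  have hc0 : 0 < c := by linarith
  have h2α : (2 * α : ZMod p) ≠ 0 := mul_ne_zero h2 hα'
  obtain ⟨Nf, hN⟩ : ∃ Nf : ZMod p → ℝ,
      Nf = fun x => (((con D).filter fun z => z.1 = x).card : ℝ) := ⟨_, rfl⟩
  refine ⟨fun n => p / c * Nf (2 * (α : ZMod p) * (n : ZMod p) + (β : ZMod p)), ?_, ?_, ?_, ?_, ?_⟩
  · intro n
    simp
  · have e1 : ∑ t ∈ range p, Nf (2 * (α : ZMod p) * (t : ZMod p) + (β : ZMod p)) = ∑ x, Nf x := sum_qa Nf h2α _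
    have e2 : ∑ x, Nf x = c := by
      rw [hN, hc, card_eq_sum_card_fiberwise (f := fun z : ZMod p × ZMod p => z.1)
        (t := univ) (fun _ _ => mem_coe.mpr (mem_univ _))]
      push_cast
      rfl
    simp only [Int.cast_natCast]
    rw [← mul_sum, e1, e2]
    field_simp
  · intro n
    have e1 : Nf (2 * (α : ZMod p) * (n : ZMod p) + (β : ZMod p)) ≤ 2 := by
      rw [hN]
      exact Nat.cast_le_ofNat.mpr (fib_qa D _)
    have e0 : 0 ≤ Nf (2 * (α : ZMod p) * (n : ZMod p) + (β : ZMod p)) := by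
      rw [hN]
      exact Nat.cast_nonneg _
    have e2 : (p : ℝ) / c ≤ 2 := by
      rw [div_le_iff₀ hc0]
      linarith
    have e3 : 0 ≤ (p : ℝ) / c := by positivity
    exact ⟨mul_nonneg e3 e0, by nlinarith⟩
  · intro n hn
    have e1 : (2 * (α : ZMod p) * (n : ZMod p) + (β : ZMod p)) = 0 := by
      have := (ZMod.intCast_zmod_eq_zero_iff_dvd _ _).mpr hn
      push_cast at this
      exact this
    have e2 : Nf 0 = 0 := by
      rw [hN]
      have : ((con D).filter fun z => z.1 = 0) = ∅ := by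
        refine filter_eq_empty_iff.mpr fun z hz => ?_
        exact (mem_filter.mp hz).2.1
      simp only [this, card_empty, Nat.cast_zero]
    simp only [e1, e2, mul_zero]
  · intro a ha
    have ha' : (a : ZMod p) ≠ 0 := by
      intro h
      have h1 := (ZMod.intCast_zmod_eq_zero_iff_dvd _ _).mp h
      have h3 := ha.isUnit_of_dvd' h1 dvd_rfl
      rw [Int.isUnit_iff] at h3
      omega
    have h4 : (4 * α : ZMod p) ≠ 0 := by
      have : (4 * α : ZMod p) = 2 * (2 * α) := by ring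
      rw [this]
      exact mul_ne_zero h2 h2α
    obtain ⟨b, hb⟩ : ∃ b : ZMod p, b = a / (4 * α) := ⟨_, rfl⟩
    have hb4 : b * (4 * α) = a := by
      rw [hb]
      exact div_mul_cancel₀ _ h4
    obtain ⟨κ, hκ, hs⟩ := hsum b (by rw [hb]; exact div_ne_zero ha' h4)
    refine ⟨κ / c, pow_qa (by linarith) hcp hκ, ?_⟩
    have e1 : ∀ n : ℤ, ph g a p n =
        ZMod.stdAddChar (b * ((2 * (α : ZMod p) * (n : ZMod p) + (β : ZMod p)) ^ 2 - D ^ 2)) := by
      intro n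
      rw [ph_qa, hg]
      congr 1
      push_cast
      rw [hD2, ← hb4]
      ring
    obtain ⟨F, hF⟩ : ∃ F : ZMod p → ℂ,
        F = fun x => ((Nf x : ℝ) : ℂ) * ZMod.stdAddChar (b * (x ^ 2 - D ^ 2)) := ⟨_, rfl⟩
    have e2 : ∑ t ∈ range p, F (2 * (α : ZMod p) * (t : ZMod p) + (β : ZMod p)) = κ := by
      rw [sum_qa F h2α, hF, hN, ← hs]
      exact fsum_qa (con D) fun x => ZMod.stdAddChar (b * (x ^ 2 - D ^ 2))
    have hpC : (p : ℂ) ≠ 0 := by exact_mod_cast hp.ne_zero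
    have hcC : (c : ℂ) ≠ 0 := by exact_mod_cast hc0.ne'
    have e3 : ∀ t ∈ range p,
        ((p / c * Nf (2 * (α : ZMod p) * ((t : ℤ) : ZMod p) + (β : ZMod p)) : ℝ) : ℂ) *
          ph g a p (t : ℤ) = (p / c : ℂ) * F (2 * (α : ZMod p) * (t : ZMod p) + (β : ZMod p)) := by
      intro t _
      rw [e1, hF]
      push_cast
      ring
    unfold av
    rw [sum_congr rfl e3, ← mul_sum, e2]
    push_cast
    field_simp

end Vale.Agent.P042.S
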