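import Vale.Agent.P042.S.GlobA

/-! # P042 S/Glob (TASK; helper names end with _gl; the plan also covers a sibling file): from local to global weights.
`gw D d n = ∏ p ∈ d.primeFactors, D p (d.factorization p) n` (a `Finsupp.prod`: `d.factorization.prod fun p i => D p i n`), multiplicative in `d` (`Nat.factorization_mul_of_coprime`, `Finsupp.prod_add_index_of_disjoint`).
`gw_van`: there is a prime `p` with `v_p(q) < v_p(d) = i + 1` (`Nat.factorization_le_iff_dvd`, `Nat.factorization_prime_le_iff_dvd`); `d = p ^ (i + 1) d'`, `q = p ^ j q'`, `j ≤ i`; `av_kill` with `m = p ^ i d' q'`: the other factors are `m`-periodic,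
and `t ↦ D p (i + 1) (n + p ^ i t)` is `p`-periodic, so `sum_perm` (with `d' q'` coprime to `p`) and `mart` apply.
`gw_mul`: divisors of a coprime product (`Nat.Coprime.sum_divisors_mul`-like: `Nat.divisors_mul`, `Nat.Coprime.mul_injOn_divisors`, or `Nat.Coprime.sum_divisors_mul_of_...`), `ph_split`, `av_crt`.
`Loc.glob`: induction `Nat.recOnPosPrimePosCoprime` (`Nat.sum_divisors_prime_pow`) gives positivity and the bound `∏ p ∈ q.primeFactors, max C 1` times `q ^ (-c)`; `prod_const_le` absorbs the product. -/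

namespace Vale.Agent.P042.S

open Finset Polynomial

variable {h : ℤ[X]} {C c : ℝ} {D : ℕ → ℕ → ℤ → ℝ}

theorem prod_const_le (C : ℝ) {ε : ℝ} (hε : 0 < ε) : ∃ C' : ℝ, ∀ q : ℕ, 0 < q →
    (max C 1) ^ q.primeFactors.card ≤ C' * (q : ℝ) ^ ε := by
  set B := max C 1 with hB
  have hB1 : 1 ≤ B := le_max_right _ _
  obtain ⟨N, hN⟩ := exists_nat_ge (B ^ ε⁻¹)
  refine ⟨B ^ N, fun q hq => ?_⟩
  have h1 : ∀ p ∈ q.primeFactors, B ≤ (if p < N then B else 1) * (p : ℝ) ^ ε := fun p hp => by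
    have hp1 : (1 : ℝ) ≤ p := by exact_mod_cast (Nat.prime_of_mem_primeFactors hp).one_le
    split_ifs with h
    · exact le_mul_of_one_le_right (by linarith) (Real.one_le_rpow hp1 hε.le)
    · rw [one_mul, ← Real.rpow_inv_rpow (by linarith : 0 ≤ B) hε.ne']
      refine Real.rpow_le_rpow (by positivity) (hN.trans ?_) hε.le
      exact_mod_cast not_lt.1 h
  have h2 : ∏ p ∈ q.primeFactors, (if p < N then B else 1) ≤ B ^ N := by
    rw [prod_ite, prod_const, prod_const_one, mul_one]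
    refine pow_le_pow_right₀ hB1 ((card_le_card (t := range N) fun p hp => ?_).trans_eq (card_range N))
    exact mem_range.2 (mem_filter.1 hp).2
  have h3 : ∏ p ∈ q.primeFactors, (p : ℝ) ^ ε ≤ (q : ℝ) ^ ε := by
    rw [Real.finsetProd_rpow _ _ fun _ _ => Nat.cast_nonneg _, ← Nat.cast_prod]
    refine Real.rpow_le_rpow (Nat.cast_nonneg _) ?_ hε.le
    exact_mod_cast Nat.le_of_dvd hq (Nat.prod_primeFactors_dvd q)
  rw [← prod_const]
  refine (prod_le_prod (fun _ _ => by linarith) h1).trans ?_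
  rw [prod_mul_distrib]
  exact mul_le_mul h2 h3 (prod_nonneg fun _ _ => by positivity) (by positivity)

theorem sum_div_gl {M : Type} [AddCommMonoid M] {m n : ℕ} (hmn : m.Coprime n) (f : ℕ → M) :
    ∑ d ∈ (m * n).divisors, f d = ∑ a ∈ m.divisors, ∑ b ∈ n.divisors, f (a * b) := by
  rw [Nat.divisors_mul, mul_def, sum_image hmn.mul_injOn_divisors, sum_product]

theorem per_dvd_gl {f : ℤ → ℝ} {d q : ℕ} (hf : Function.Periodic f (d : ℤ)) (hd : d ∣ q) :
    Function.Periodic f (q : ℤ) := by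
  obtain ⟨e, rfl⟩ := hd
  simpa [mul_comm] using hf.nat_mul e

theorem split_gl (hL : Loc h C c D) {q₁ q₂ : ℕ} (hq : q₁.Coprime q₂) (h₁ : 0 < q₁) (h₂ : 0 < q₂)
    {a a₁ a₂ : ℤ} (H : ∀ n, ph h a (q₁ * q₂) n = ph h a₁ q₁ n * ph h a₂ q₂ n) {d₁ d₂ : ℕ}
    (hd₁ : d₁ ∈ q₁.divisors) (hd₂ : d₂ ∈ q₂.divisors) :
    (av (q₁ * q₂) fun n => gw D (d₁ * d₂) n * ph h a (q₁ * q₂) n) =
      (av q₁ fun n => gw D d₁ n * ph h a₁ q₁ n) * av q₂ fun n => gw D d₂ n * ph h a₂ q₂ n := by
  have e₁ := Nat.dvd_of_mem_divisors hd₁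
  have e₂ := Nat.dvd_of_mem_divisors hd₂
  rw [← av_crt (fun n => by rw [per_dvd_gl (gw_per hL d₁) e₁ n, ph_per h a₁ q₁ n])
    (fun n => by rw [per_dvd_gl (gw_per hL d₂) e₂ n, ph_per h a₂ q₂ n]) hq h₁ h₂]
  congr 1
  funext n
  rw [H, gw_coprime (Nat.Coprime.coprime_dvd_right e₂ (Nat.Coprime.coprime_dvd_left e₁ hq))]
  push_cast
  ring

theorem both_gl (hL : Loc h C c D) (q : ℕ) : 0 < q → ∀ a : ℤ, IsCoprime a q →
    NN (∑ d ∈ q.divisors, av q fun n => gw D d n * ph h a q n) ∧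
    ∑ d ∈ q.divisors, ‖av q fun n => gw D d n * ph h a q n‖ ≤
      (max C 1) ^ q.primeFactors.card * (q : ℝ) ^ (-c) := by
  induction q using Nat.recOnPosPrimePosCoprime with
  | prime_pow p j hp hj =>
    intro _ a ha
    have ha' : IsCoprime a p := by
      rw [Nat.cast_pow] at ha
      exact (IsCoprime.pow_right_iff hj).1 ha
    simp only [Nat.sum_divisors_prime_pow hp, gw_pow hL hp]
    refine ⟨hL.pos p hp j a ha', (hL.dec p hp j a ha').trans ?_⟩
    rw [Nat.primeFactors_prime_pow hj.ne' hp, card_singleton, pow_one]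
    exact mul_le_mul_of_nonneg_right (le_max_left _ _) (by positivity)
  | zero => intro h0; exact absurd h0 (lt_irrefl 0)
  | one =>
    intro _ a _
    have e : (av 1 fun n => (gw D 1 n : ℂ) * ph h a 1 n) = 1 := by
      simp only [av, gw, ph, range_one, sum_singleton, Nat.factorization_one,
        Finsupp.prod_zero_index, Nat.cast_one, div_one, ee_int]
      simp
    simp only [Nat.divisors_one, sum_singleton, e]
    exact ⟨⟨1, zero_le_one, by simp⟩, by simp⟩
  | coprime q₁ q₂ h₁ h₂ hq ih₁ ih₂ =>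
    intro _ a ha
    have p₁ : 0 < q₁ := by omega
    have p₂ : 0 < q₂ := by omega
    obtain ⟨a₁, a₂, c₁, c₂, H⟩ := ph_split h hq p₁ p₂ ha
    obtain ⟨n₁, b₁⟩ := ih₁ p₁ a₁ c₁
    obtain ⟨n₂, b₂⟩ := ih₂ p₂ a₂ c₂
    rw [sum_div_gl hq, sum_div_gl hq]
    constructor
    · rw [sum_congr rfl fun d₁ hd₁ => sum_congr rfl fun d₂ hd₂ => split_gl hL hq p₁ p₂ H hd₁ hd₂,
        ← sum_mul_sum]
      exact n₁.mul n₂
    · rw [sum_congr rfl fun d₁ hd₁ => sum_congr rfl fun d₂ hd₂ => by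
        rw [split_gl hL hq p₁ p₂ H hd₁ hd₂, norm_mul], ← sum_mul_sum, hq.primeFactors_mul,
        card_union_of_disjoint hq.disjoint_primeFactors, pow_add, Nat.cast_mul,
        Real.mul_rpow (Nat.cast_nonneg _) (Nat.cast_nonneg _), mul_mul_mul_comm]
      exact mul_le_mul b₁ b₂ (sum_nonneg fun _ _ => norm_nonneg _) (by positivity)

theorem Loc.glob (hL : Loc h C c D) (hc : 0 < c) : ∃ C' : ℝ, Glob h C' (c / 2) (gw D) := by
  obtain ⟨C', hC⟩ := prod_const_le C (half_pos hc)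
  refine ⟨C', fun n => by simp [gw], gw_per hL, fun d hd => gw_bd hL hd,
    fun d q hd hq hdq => gw_van hL hd hq hdq, fun q hq a ha => (both_gl hL q hq a ha).1,
    fun q hq a ha => (both_gl hL q hq a ha).2.trans ?_⟩
  have h0 : (0 : ℝ) < q := by exact_mod_cast hq
  refine (mul_le_mul_of_nonneg_right (hC q hq) (by positivity)).trans_eq ?_
  rw [mul_assoc, ← Real.rpow_add h0]
  congr 2
  ring

end Vale.Agent.P042.S
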