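import Vale.Agent.P042.S.Defs

/-! # P042 S/OddR (TASK; helper names end with _or; the plan also covers a sibling file): local weights for an odd polynomial.
`U p i n = if p ^ i ∣ n then p ^ i else 0`, `ε = p ^ (-c₀)`, `D p 0 = 1`, `D p (i + 1) = ε ^ (i + 1) * (U p (i + 1) - U p i)`.  `G i = av (p ^ j) fun n => ph h a (p ^ j) (p ^ i * n)` is the mean of `U p i * ph` for `i ≤ j` (`av_dvd`, `r = 0`).
`odd_G` collects what is needed about `G`: it is real (`av_neg`, `ee_neg`); `h.coeff 0 = 0`; `J = Nat.find` of `∀ l ≥ 1, p ^ j ∣ h.coeff l * p ^ (J l)` (true for `J = j`); for `i ≥ J` all phases are trivial;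
for `i < J` apply `hua` to `P = C a * h.comp (C (p ^ i) * X)`, `t = p ^ (J - i)`: if `p ^ j ∤ h.coeff l * p ^ ((J - 1) l)` and `p ^ j ∣ s a h.coeff l p ^ (i l)` then `p ^ (J - i) ∣ s` (valuations: `padicValInt`, `emultiplicity`, or write `s = p ^ v s'`).
`loc_odd`: `∑ i ≤ j` of the means is `ε ^ J + ∑ i < J, (1 - ε) ε ^ i G i` (induction; telescoping), `|G i| ε ^ i ≤ 2 ε ^ J ρ ^ (J - i)`, `ρ = p ^ (c₀ - c) ≤ p ^ (-c / 2) ≤ 2 ^ (-c / 2)`, `1 - ε ≤ c₀ log p ≤ (2 c₀ / c) p ^ (c / 2)`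
(`Real.add_one_le_exp`, `Real.log_le_rpow_div`); take `c₀ = c (1 - 2 ^ (-c / 2)) / 4`.  Decay: the terms vanish for `i > J`, the sum is at most `C ε ^ J`, and `p ^ j ≤ |lead| p ^ (J k)` gives `ε ^ J ≤ |lead| (p ^ j) ^ (-c₀ / k)`. -/

namespace Vale.Agent.P042.S

open Finset Polynomial

theorem tele_or (ε : ℝ) (G : ℕ → ℝ) (m : ℕ) :
    G 0 + ∑ i ∈ range m, ε ^ (i + 1) * (G (i + 1) - G i) =
      ε ^ m * G m + ∑ i ∈ range m, (1 - ε) * (ε ^ i * G i) := by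
  induction m with
  | zero => simp
  | succ m ih =>
    rw [sum_range_succ, sum_range_succ]
    linear_combination ih

theorem abs_or {ε ρ κ : ℝ} (e0 : 0 < ε) (e1 : ε ≤ 1) (r0 : 0 ≤ ρ) (k0 : 0 < κ) (r1 : κ ≤ 1 - ρ)
    (hk : 2 * ((1 - ε) * ρ) ≤ κ) {J j : ℕ} {G : ℕ → ℝ} (hj : J ≤ j) (h1 : ∀ i, J ≤ i → G i = 1)
    (h2 : ∀ i, i ≤ J → |G i| ≤ 2 * (ρ * ε) ^ (J - i)) :
    0 ≤ G 0 + ∑ i ∈ range j, ε ^ (i + 1) * (G (i + 1) - G i) ∧
      |G 0| + ∑ i ∈ range j, |ε ^ (i + 1) * (G (i + 1) - G i)| ≤ (2 + 4 / κ) * ε ^ J := by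
  have z : ∀ i ∈ range j, i ∉ range J → ε ^ (i + 1) * (G (i + 1) - G i) = 0 := fun i _ hi => by
    have : J ≤ i := not_lt.1 fun k => hi (mem_range.2 k)
    rw [h1 i this, h1 (i + 1) (by omega), sub_self, mul_zero]
  have eJ : 0 < ε ^ J := pow_pos e0 J
  have a1 : ∀ i, i ≤ J → |ε ^ i * G i| ≤ 2 * ε ^ J * ρ ^ (J - i) := fun i hi => by
    obtain ⟨d, rfl⟩ := Nat.exists_eq_add_of_le hi
    have := h2 i hi
    rw [Nat.add_sub_cancel_left] at this ⊢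
    rw [abs_mul, abs_of_pos (pow_pos e0 i)]
    refine (mul_le_mul_of_nonneg_left this (pow_pos e0 i).le).trans_eq ?_
    ring
  obtain ⟨T, hT⟩ : ∃ T, T = ∑ i ∈ range J, ρ ^ (J - 1 - i) := ⟨_, rfl⟩
  have T0 : 0 ≤ T := hT ▸ sum_nonneg fun i _ => pow_nonneg r0 _
  have T1 : κ * T ≤ 1 := by
    refine (mul_le_mul_of_nonneg_right r1 T0).trans ?_
    rw [hT, sum_range_reflect (fun i => ρ ^ i), mul_neg_geom_sum]
    exact sub_le_self _ (pow_nonneg r0 _)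
  have a2 : ∀ i ∈ range J, |ε ^ i * G i| ≤ 2 * ε ^ J * ρ * ρ ^ (J - 1 - i) := fun i hi => by
    have hi' := mem_range.1 hi
    refine (a1 i hi'.le).trans_eq ?_
    rw [show J - i = J - 1 - i + 1 by omega]
    ring
  constructor
  · rw [← sum_subset (range_mono hj) z, tele_or, h1 J le_rfl, mul_one]
    have b1 : ∑ i ∈ range J, -((1 - ε) * (2 * ε ^ J * ρ) * ρ ^ (J - 1 - i)) ≤
        ∑ i ∈ range J, (1 - ε) * (ε ^ i * G i) := sum_le_sum fun i hi => by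
      have := mul_le_mul_of_nonneg_left (neg_le_of_abs_le (a2 i hi)) (sub_nonneg.2 e1)
      linarith
    rw [sum_neg_distrib, ← mul_sum, ← hT] at b1
    have b2 := mul_le_mul_of_nonneg_left ((mul_le_mul_of_nonneg_right hk T0).trans T1) eJ.le
    linarith
  · rw [← sum_subset (range_mono hj) fun i k k' => by rw [z i k k', abs_zero]]
    have b0 := a1 0 J.zero_le
    rw [pow_zero, one_mul] at b0
    have b1 : ρ ^ (J - 0) ≤ 1 := pow_le_one₀ r0 (by linarith)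
    have b2 : ∑ i ∈ range J, |ε ^ (i + 1) * (G (i + 1) - G i)| ≤
        ∑ i ∈ range J, 4 * ε ^ J * ρ ^ (J - 1 - i) := sum_le_sum fun i hi => by
      have c1 := a1 (i + 1) (mem_range.1 hi)
      have c2 := a2 i hi
      have c3 : 0 ≤ ε ^ J * ρ ^ (J - 1 - i) := mul_nonneg eJ.le (pow_nonneg r0 _)
      rw [show J - (i + 1) = J - 1 - i by omega] at c1
      rw [show ε ^ (i + 1) * (G (i + 1) - G i) = ε ^ (i + 1) * G (i + 1) - ε * (ε ^ i * G i) by ring]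
      refine (abs_sub _ _).trans ?_
      rw [abs_mul ε, abs_of_pos e0]
      have c4 := mul_le_of_le_one_left (abs_nonneg (ε ^ i * G i)) e1
      have c5 := mul_le_of_le_one_left c3 (by linarith : ρ ≤ 1)
      linarith
    rw [← mul_sum, ← hT] at b2
    have b3 : T ≤ 1 / κ := by rw [le_div_iff₀ k0]; linarith
    have b4 := mul_le_mul_of_nonneg_left b3 eJ.le
    have b5 := mul_le_mul_of_nonneg_left b1 eJ.le
    rw [show (2 + 4 / κ) * ε ^ J = 2 * ε ^ J + 4 * (ε ^ J * (1 / κ)) by ring]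
    linarith

/-- The real inequalities. -/
theorem odd_real {c : ℝ} (hc : 0 < c) (hc1 : c ≤ 1) : ∃ c₀ C : ℝ, 0 < c₀ ∧ c₀ ≤ 1 ∧ 0 ≤ C ∧
    ∀ p : ℝ, 2 ≤ p → ∀ (J j : ℕ) (G : ℕ → ℝ), J ≤ j → (∀ i, J ≤ i → G i = 1) →
      (∀ i, i ≤ J → |G i| ≤ 2 * (p ^ (-c)) ^ (J - i)) →
      0 ≤ G 0 + ∑ i ∈ range j, (p ^ (-c₀)) ^ (i + 1) * (G (i + 1) - G i) ∧
      |G 0| + ∑ i ∈ range j, |(p ^ (-c₀)) ^ (i + 1) * (G (i + 1) - G i)| ≤
        C * (p ^ (-c₀)) ^ J := by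
  obtain ⟨κ, hκ⟩ : ∃ κ : ℝ, κ = 1 - 2 ^ (-(c / 2)) := ⟨_, rfl⟩
  have k0 : 0 < κ := hκ ▸ sub_pos.2 (Real.rpow_lt_one_of_one_lt_of_neg one_lt_two (by linarith))
  have k1 : κ ≤ 1 := hκ ▸ sub_le_self _ (by positivity)
  have k2 : c * κ ≤ c := mul_le_of_le_one_right hc.le k1
  have k3 : 0 < c * κ := mul_pos hc k0
  refine ⟨c * κ / 4, 2 + 4 / κ, by linarith, by linarith, by positivity,
    fun p hp J j G hj h1 h2 => ?_⟩
  have p0 : 0 < p := by linarith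
  have p1 : 1 ≤ p := by linarith
  have r1 : p ^ (c * κ / 4 - c) ≤ p ^ (-(c / 2)) :=
    Real.rpow_le_rpow_of_exponent_le p1 (by linarith)
  have r2 : p ^ (-(c / 2)) ≤ 2 ^ (-(c / 2)) :=
    Real.rpow_le_rpow_of_nonpos two_pos hp (by linarith)
  have e1 : p ^ (-(c * κ / 4)) ≤ 1 := Real.rpow_le_one_of_one_le_of_nonpos p1 (by linarith)
  refine abs_or (ρ := p ^ (c * κ / 4 - c)) (by positivity) e1 (by positivity) k0 (by linarith) ?_
    hj h1 fun i hi => ?_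
  · have a1 : 1 - p ^ (-(c * κ / 4)) ≤ c * κ / 4 * Real.log p := by
      have := Real.add_one_le_exp (Real.log p * -(c * κ / 4))
      rw [Real.rpow_def_of_pos p0]
      linarith
    have a2 := Real.log_le_rpow_div p0.le (half_pos hc)
    have a3 : c * κ / 4 * Real.log p ≤ κ / 2 * p ^ (c / 2) := by
      refine (mul_le_mul_of_nonneg_left a2 (by linarith)).trans_eq ?_
      field_simp
      ring
    have a4 := mul_le_mul (a1.trans a3) r1 (by positivity) (by positivity)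
    rw [mul_assoc, ← Real.rpow_add p0, add_neg_cancel, Real.rpow_zero] at a4
    linarith
  · rw [← Real.rpow_add p0, show c * κ / 4 - c + -(c * κ / 4) = -c by ring]
    exact h2 i hi

end Vale.Agent.P042.S
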