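import Vale.Agent.P042.S.OddG
import Vale.Agent.P042.S.OddR

/-! # P042 S/Odd (TASK; helper names end with _od; the plan also covers a sibling file): local weights for an odd polynomial.
`U p i n = if p ^ i ∣ n then p ^ i else 0`, `ε = p ^ (-c₀)`, `D p 0 = 1`, `D p (i + 1) = ε ^ (i + 1) * (U p (i + 1) - U p i)`.  `G i = av (p ^ j) fun n => ph h a (p ^ j) (p ^ i * n)` is the mean of `U p i * ph` for `i ≤ j` (`av_dvd`, `r = 0`).
`odd_G` collects what is needed about `G`: it is real (`av_neg`, `ee_neg`); `h.coeff 0 = 0`; `J = Nat.find` of `∀ l ≥ 1, p ^ j ∣ h.coeff l * p ^ (J l)` (true for `J = j`); for `i ≥ J` all phases are trivial;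
for `i < J` apply `hua` to `P = C a * h.comp (C (p ^ i) * X)`, `t = p ^ (J - i)`: if `p ^ j ∤ h.coeff l * p ^ ((J - 1) l)` and `p ^ j ∣ s a h.coeff l p ^ (i l)` then `p ^ (J - i) ∣ s` (valuations: `padicValInt`, `emultiplicity`, or write `s = p ^ v s'`).
`loc_odd`: `∑ i ≤ j` of the means is `ε ^ J + ∑ i < J, (1 - ε) ε ^ i G i` (induction; telescoping), `|G i| ε ^ i ≤ 2 ε ^ J ρ ^ (J - i)`, `ρ = p ^ (c₀ - c) ≤ p ^ (-c / 2) ≤ 2 ^ (-c / 2)`, `1 - ε ≤ c₀ log p ≤ (2 c₀ / c) p ^ (c / 2)`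
(`Real.add_one_le_exp`, `Real.log_le_rpow_div`); take `c₀ = c (1 - 2 ^ (-c / 2)) / 4`.  Decay: the terms vanish for `i > J`, the sum is at most `C ε ^ J`, and `p ^ j ≤ |lead| p ^ (J k)` gives `ε ^ J ≤ |lead| (p ^ j) ^ (-c₀ / k)`. -/

namespace Vale.Agent.P042.S

open Finset Polynomial

/-- The normalised indicator of the multiples of `p ^ i`. -/
noncomputable def U_od (p i : ℕ) (n : ℤ) : ℝ :=
  if ((p ^ i : ℕ) : ℤ) ∣ n then ((p ^ i : ℕ) : ℝ) else 0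

/-- The martingale differences. -/
noncomputable def D_od (c₀ : ℝ) (p : ℕ) : ℕ → ℤ → ℝ
  | 0, _ => 1
  | i + 1, n => ((p : ℝ) ^ (-c₀)) ^ (i + 1) * (U_od p (i + 1) n - U_od p i n)

theorem U_add_od (p i : ℕ) (n : ℤ) {m : ℤ} (hm : ((p ^ i : ℕ) : ℤ) ∣ m) :
    U_od p i (n + m) = U_od p i n := by
  simp only [U_od, dvd_add_left hm]

theorem U_nonneg_od (p i : ℕ) (n : ℤ) : 0 ≤ U_od p i n := by
  unfold U_od
  split_ifs
  · positivity
  · exact le_rfl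

theorem U_le_od (p i : ℕ) (n : ℤ) : U_od p i n ≤ ((p ^ i : ℕ) : ℝ) := by
  unfold U_od
  split_ifs
  · exact le_rfl
  · positivity

theorem U_sum_od {p : ℕ} (hp : 0 < p) (i : ℕ) (n : ℤ) :
    ∑ t ∈ range p, U_od p (i + 1) (n + ((p ^ i : ℕ) : ℤ) * t) = p * U_od p i n := by
  have hp' : (0 : ℤ) < p := by exact_mod_cast hp
  have hq : ((p ^ i : ℕ) : ℤ) ≠ 0 := by exact_mod_cast (pow_pos hp i).ne'
  by_cases hn : ((p ^ i : ℕ) : ℤ) ∣ n
  · obtain ⟨m, rfl⟩ := hn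
    have h1 : ∀ t : ℕ, ((p ^ (i + 1) : ℕ) : ℤ) ∣ ((p ^ i : ℕ) : ℤ) * m + ((p ^ i : ℕ) : ℤ) * t ↔
        (p : ℤ) ∣ m + t := fun t => by
      rw [← mul_add, pow_succ, Nat.cast_mul, mul_dvd_mul_iff_left hq]
    have h2 := Int.emod_nonneg (-m) hp'.ne'
    have h3 := Int.emod_lt_of_pos (-m) hp'
    have h4 : (((-m) % p).toNat : ℤ) = (-m) % p := Int.toNat_of_nonneg h2
    have h5 : (p : ℤ) ∣ m + (-m) % p := by
      have := Int.emod_add_mul_ediv (-m) p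
      exact ⟨-((-m) / p), by linarith⟩
    rw [sum_eq_single ((-m) % p).toNat]
    · rw [U_od, U_od, if_pos ((h1 _).2 (by rw [h4]; exact h5)), if_pos (dvd_mul_right _ _)]
      push_cast
      ring
    · intro t ht hne
      rw [U_od, if_neg]
      rw [h1]
      intro h6
      have h7 := dvd_sub h6 h5
      have h8 : (t : ℤ) < p := by exact_mod_cast mem_range.1 ht
      have h9 := Int.eq_zero_of_abs_lt_dvd h7 (abs_lt.2 ⟨by omega, by omega⟩)
      omega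
    · intro hne
      exact absurd (mem_range.2 (by omega)) hne
  · rw [U_od, if_neg hn, mul_zero]
    refine sum_eq_zero fun t _ => ?_
    rw [U_od, if_neg]
    intro h1
    have h2 : ((p ^ i : ℕ) : ℤ) ∣ ((p ^ (i + 1) : ℕ) : ℤ) :=
      Int.natCast_dvd_natCast.2 (pow_dvd_pow p (Nat.le_succ i))
    exact hn ((dvd_add_left (dvd_mul_right _ _)).1 (h2.trans h1))

theorem av_U_od (h : ℤ[X]) (a : ℤ) {p i j : ℕ} (hp : 0 < p) (hij : i ≤ j) :
    (av (p ^ j) fun n => U_od p i n * ph h a (p ^ j) n) =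
      av (p ^ j) fun n => ph h a (p ^ j) (((p ^ i : ℕ) : ℤ) * n) := by
  have h1 := av_dvd (ph_per h a (p ^ j)) (pow_pos hp i) (pow_dvd_pow p hij) 0
  simp only [sub_zero, zero_add] at h1
  rw [← h1]
  congr 1
  funext n
  unfold U_od
  split_ifs <;> simp

theorem av_D_od (h : ℤ[X]) (a : ℤ) (c₀ : ℝ) {p i j : ℕ} (hp : 0 < p) (hij : i < j) {G : ℕ → ℝ}
    (hG : ∀ i, (av (p ^ j) fun n => ph h a (p ^ j) (((p ^ i : ℕ) : ℤ) * n)) = G i) :
    (av (p ^ j) fun n => D_od c₀ p (i + 1) n * ph h a (p ^ j) n) =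
      ((((p : ℝ) ^ (-c₀)) ^ (i + 1) * (G (i + 1) - G i) : ℝ) : ℂ) := by
  rw [Complex.ofReal_mul, Complex.ofReal_sub, ← hG, ← hG, ← av_U_od h a hp hij,
    ← av_U_od h a hp hij.le]
  simp only [av, D_od]
  rw [← sub_div, ← mul_div_assoc, ← sum_sub_distrib, mul_sum]
  congr 1
  refine sum_congr rfl fun n _ => ?_
  rw [Complex.ofReal_mul, Complex.ofReal_sub]
  ring

theorem av_D0_od (h : ℤ[X]) (a : ℤ) (c₀ : ℝ) {p j : ℕ} {G : ℕ → ℝ}
    (hG : ∀ i, (av (p ^ j) fun n => ph h a (p ^ j) (((p ^ i : ℕ) : ℤ) * n)) = G i) :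
    (av (p ^ j) fun n => D_od c₀ p 0 n * ph h a (p ^ j) n) = (G 0 : ℂ) := by
  rw [← hG]
  simp [D_od]

theorem pow_dec_od {p q L c₀ : ℝ} {k J : ℕ} (hp : 0 < p) (hq : 0 < q) (hL : 0 < L) (hc : 0 < c₀)
    (hk : 1 ≤ k) (h : q ≤ L * (p ^ J) ^ k) :
    (p ^ (-c₀)) ^ J ≤ L ^ (c₀ / k) * q ^ (-(c₀ / k)) := by
  have hk' : (0 : ℝ) < k := by exact_mod_cast hk
  have hx : 0 < p ^ J := pow_pos hp J
  have h1 : (L * (p ^ J) ^ k) ^ (-(c₀ / k)) ≤ q ^ (-(c₀ / k)) :=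
    Real.rpow_le_rpow_of_nonpos hq h (neg_nonpos.2 (div_pos hc hk').le)
  have h2 : ((p ^ J) ^ k) ^ (-(c₀ / k)) = (p ^ (-c₀)) ^ J := by
    rw [← Real.rpow_natCast (p ^ J) k, ← Real.rpow_mul hx.le, ← Real.rpow_natCast p J,
      ← Real.rpow_mul hp.le, ← Real.rpow_natCast (p ^ (-c₀)) J, ← Real.rpow_mul hp.le]
    congr 1
    field_simp
  rw [Real.mul_rpow hL.le (pow_pos hx k).le, h2] at h1
  have h3 : L ^ (c₀ / k) * L ^ (-(c₀ / k)) = 1 := by
    rw [← Real.rpow_add hL, add_neg_cancel, Real.rpow_zero]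
  calc (p ^ (-c₀)) ^ J = L ^ (c₀ / k) * (L ^ (-(c₀ / k)) * (p ^ (-c₀)) ^ J) := by
        rw [← mul_assoc, h3, one_mul]
    _ ≤ _ := mul_le_mul_of_nonneg_left h1 (Real.rpow_nonneg hL.le _)

theorem loc_odd {h : ℤ[X]} (hodd : ∀ n : ℤ, h.eval (-n) = -h.eval n) (hk : 1 ≤ h.natDegree) :
    ∃ C c D, 0 < c ∧ Loc h C c D := by
  obtain ⟨c, hc, hc1, hG⟩ := odd_G hodd hk
  obtain ⟨c₀, C, hc₀, -, hC, hR⟩ := odd_real hc hc1
  have hk' : (0 : ℝ) < h.natDegree := by exact_mod_cast hk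
  have hL : (0 : ℝ) < |(h.leadingCoeff : ℝ)| := by
    refine abs_pos.2 (Int.cast_ne_zero.2 (leadingCoeff_ne_zero.2 ?_))
    rintro rfl
    simp at hk
  refine ⟨C * |(h.leadingCoeff : ℝ)| ^ (c₀ / h.natDegree), c₀ / h.natDegree, D_od c₀,
    div_pos hc₀ hk', fun _ _ => rfl, ?_, ?_, ?_, ?_, ?_⟩
  · rintro p (_ | i) n
    · rfl
    · simp only [D_od]
      rw [U_add_od p (i + 1) n dvd_rfl,
        U_add_od p i n (Int.natCast_dvd_natCast.2 (pow_dvd_pow p (Nat.le_succ i)))]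
  · intro p hp i n
    simp only [D_od]
    rw [← mul_sum, sum_sub_distrib, U_sum_od hp.pos,
      sum_congr rfl fun t _ => U_add_od p i n (dvd_mul_right _ _)]
    simp
  · rintro p hp (_ | i) n
    · simp [D_od]
    · simp only [D_od]
      have h1 : (1 : ℝ) ≤ p := by exact_mod_cast hp.one_le
      have h2 : ((p : ℝ) ^ (-c₀)) ^ (i + 1) ≤ 1 :=
        pow_le_one₀ (by positivity) (Real.rpow_le_one_of_one_le_of_nonpos h1 (by linarith))
      have h3 : ((p ^ i : ℕ) : ℝ) ≤ ((p ^ (i + 1) : ℕ) : ℝ) :=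
        Nat.cast_le.2 (Nat.pow_le_pow_right hp.pos (Nat.le_succ i))
      have h4 : |U_od p (i + 1) n - U_od p i n| ≤ ((p ^ (i + 1) : ℕ) : ℝ) :=
        abs_le.2 ⟨by linarith [U_nonneg_od p (i + 1) n, U_le_od p i n],
          by linarith [U_nonneg_od p i n, U_le_od p (i + 1) n]⟩
      rw [abs_mul, abs_of_nonneg (by positivity)]
      exact (mul_le_of_le_one_left (abs_nonneg _) h2).trans h4
  · intro p hp j a ha
    obtain ⟨J, G, hJ, -, h1, h2, h3⟩ := hG p hp j a ha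
    refine ⟨_, (hR p (by exact_mod_cast hp.two_le) J j G hJ h2 h3).1, ?_⟩
    rw [sum_range_succ', av_D0_od h a c₀ h1,
      sum_congr rfl fun i hi => av_D_od h a c₀ hp.pos (mem_range.1 hi) h1, Complex.ofReal_add,
      Complex.ofReal_sum, add_comm]
  · intro p hp j a ha
    obtain ⟨J, G, hJ, h0, h1, h2, h3⟩ := hG p hp j a ha
    have h4 := (hR p (by exact_mod_cast hp.two_le) J j G hJ h2 h3).2
    have hp0 : (0 : ℝ) < p := by exact_mod_cast hp.pos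
    have h5 := pow_dec_od hp0 (by exact_mod_cast pow_pos hp.pos j) hL hc₀ hk h0
    rw [sum_range_succ', av_D0_od h a c₀ h1, sum_congr rfl fun i hi => by
      rw [av_D_od h a c₀ hp.pos (mem_range.1 hi) h1, Complex.norm_real, Real.norm_eq_abs],
      Complex.norm_real, Real.norm_eq_abs, add_comm, mul_assoc]
    exact h4.trans (mul_le_mul_of_nonneg_left h5 hC)

end Vale.Agent.P042.S
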