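import Vale.Agent.P042.S.Ee

/-! # P042 S/Del (TASK; helper names end with _de; the plan also covers a sibling file): partial summation, Fejer, Delsarte.
`abel`: with `G m = ∑ n ∈ Ico a m, g n`, induction (`Nat.le_induction`, `sum_Ico_succ_top`) gives `∑ n ∈ Ico a b, g n * F n = G b * F b - ∑ n ∈ Ico a b, G (n + 1) * (F (n + 1) - F n)`.
`per_partial`: strong induction on `b - a`: a block of `m` consecutive terms sums to zero (`sum_perm` with multiplier `1`, `sum_Ico_eq_sum_range`, `sum_Ico_consecutive`), a remainder has fewer than `m` terms of norm at most `2 B` (`norm_av_le`).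
`fejer`: `2 N * re (∑ u < N, (1 - u / N) ee (β u)) = N + ‖∑ u < N, ee (β u)‖ ^ 2`; induction on `N` for the form without division: `2 * re (∑ u < N, (N - u) ee (β u)) = N + normSq (..)`, using
`re (conj (∑ u < N, ee (β u)) * ee (β N)) = re (∑ u < N, ee (β (u + 1)))` (`sum_range_reflect`).
`delsarte`: `m = 2 N`, `a ξ = ∑ x ∈ A, ee (ξ x / m)`; `∑ ξ < m, ‖a ξ‖ ^ 2 ee (ξ s / m) = m * #{(x, y) : m ∣ x - y + s}` (`sum_ee`), zero for `s = s n` (`0 < |x - y + s| < m`) and `m |A|` for `s = 0`;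
all terms `‖a ξ‖ ^ 2 (re T + δ)` are nonnegative, keep `ξ = 0`. -/

namespace Vale.Agent.P042.S

open Finset Polynomial

theorem refl_de (N : ℕ) (β : ℝ) :
    (∑ u ∈ range N, ee (β * u)) * (starRingEnd ℂ) (ee (β * N)) =
      (starRingEnd ℂ) (∑ u ∈ range N, ee (β * ((u + 1 : ℕ) : ℝ))) := by
  rw [map_sum, ← sum_range_reflect (fun u => (starRingEnd ℂ) (ee (β * ((u + 1 : ℕ) : ℝ)))), sum_mul]
  refine sum_congr rfl fun u hu => ?_
  have h1 : N - 1 - u + 1 + u = N := by have := mem_range.1 hu; omega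
  have h2 : ((N - 1 - u + 1 : ℕ) : ℝ) = N - u := by
    rw [eq_sub_iff_add_eq, ← Nat.cast_add, h1]
  rw [h2, ← ee_neg, ← ee_neg, ← ee_add]
  congr 1
  ring

theorem sq_de (N : ℕ) (β : ℝ) :
    2 * (∑ u ∈ range N, (((N : ℝ) - u : ℝ) : ℂ) * ee (β * u)).re =
      N + Complex.normSq (∑ u ∈ range N, ee (β * u)) := by
  induction N with
  | zero => simp
  | succ N ih =>
    have e1 : ∑ u ∈ range (N + 1), ((((N + 1 : ℕ) : ℝ) - u : ℝ) : ℂ) * ee (β * u) =
        ∑ u ∈ range N, (((N : ℝ) - u : ℝ) : ℂ) * ee (β * u) + ∑ u ∈ range (N + 1), ee (β * u) := by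
      rw [sum_range_succ, sum_range_succ, ← add_assoc, ← sum_add_distrib]
      congr 1
      · refine sum_congr rfl fun u _ => ?_
        push_cast
        ring
      · push_cast
        ring
    have e2 : (∑ u ∈ range (N + 1), ee (β * u)).re =
        (∑ u ∈ range N, ee (β * ((u + 1 : ℕ) : ℝ))).re + 1 := by
      rw [sum_range_succ', Nat.cast_zero, mul_zero, ee_zero, Complex.add_re, Complex.one_re]
    have e3 : Complex.normSq (ee (β * N)) = 1 := by
      rw [Complex.normSq_eq_norm_sq, norm_ee, one_pow]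
    rw [e1, Complex.add_re, mul_add, ih, e2, sum_range_succ (fun u => ee (β * u)),
      Complex.normSq_add, e3, refl_de, Complex.conj_re]
    push_cast
    ring

theorem fejer (N : ℕ) (β : ℝ) :
    0 ≤ (∑ u ∈ range N, ((1 - (u : ℝ) / N : ℝ) : ℂ) * ee (β * u)).re := by
  rcases Nat.eq_zero_or_pos N with rfl | hN
  · simp
  have h0 : (0 : ℝ) < N := Nat.cast_pos.2 hN
  have e : ∑ u ∈ range N, (((N : ℝ) - u : ℝ) : ℂ) * ee (β * u) =
      ((N : ℝ) : ℂ) * ∑ u ∈ range N, ((1 - (u : ℝ) / N : ℝ) : ℂ) * ee (β * u) := by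
    rw [mul_sum]
    refine sum_congr rfl fun u _ => ?_
    rw [← mul_assoc, ← Complex.ofReal_mul, mul_sub, mul_one, mul_div_cancel₀ _ h0.ne']
  have h := sq_de N β
  rw [e, Complex.re_ofReal_mul] at h
  have h1 := Complex.normSq_nonneg (∑ u ∈ range N, ee (β * u))
  by_contra hc
  nlinarith [mul_pos h0 (neg_pos.2 (not_le.1 hc))]

theorem key_de {m : ℕ} (hm : 0 < m) (A : Finset ℕ) (σ : ℤ) :
    ∑ ξ ∈ range m, ((Complex.normSq (∑ x ∈ A, ee ((ξ : ℝ) / m * x)) : ℝ) : ℂ) *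
        ee ((ξ : ℝ) / m * σ) =
      ∑ x ∈ A, ∑ y ∈ A, if (m : ℤ) ∣ (x : ℤ) - y + σ then (m : ℂ) else 0 := by
  simp only [← sum_ee hm, ← Complex.mul_conj, map_sum, sum_mul_sum]
  simp only [sum_mul]
  rw [sum_comm]
  refine sum_congr rfl fun x _ => ?_
  rw [sum_comm]
  refine sum_congr rfl fun y _ => sum_congr rfl fun ξ _ => ?_
  rw [← ee_neg, ← ee_add, ← ee_add]
  congr 1
  push_cast
  ring

theorem delsarte {N : ℕ} {A S : Finset ℕ} (hA : A ⊆ Icc 1 N) (W : ℕ → ℝ) (s : ℕ → ℤ)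
    (hs : ∀ n ∈ S, 0 < s n ∧ s n ≤ N) (hf : ∀ a ∈ A, ∀ b ∈ A, ∀ n ∈ S, (a : ℤ) - b ≠ s n) {δ : ℝ}
    (hδ : 0 ≤ δ) (hT : ∀ θ : ℝ, -δ ≤ (∑ n ∈ S, (W n : ℂ) * ee (θ * s n)).re) :
    A.card * ∑ n ∈ S, W n ≤ 2 * N * δ := by
  rcases A.eq_empty_or_nonempty with rfl | hne
  · rw [card_empty, Nat.cast_zero, zero_mul]
    positivity
  have hc : (0 : ℝ) < A.card := Nat.cast_pos.2 hne.card_pos
  have hN : 0 < 2 * N := by
    obtain ⟨a, ha⟩ := hne
    have := mem_Icc.1 (hA ha)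
    omega
  obtain ⟨P, hP⟩ : ∃ P : ℕ → ℝ, P = fun ξ : ℕ =>
    Complex.normSq (∑ x ∈ A, ee ((ξ : ℝ) / (2 * N : ℕ) * x)) := ⟨_, rfl⟩
  have hk : ∀ σ : ℤ, ∑ ξ ∈ range (2 * N), (P ξ : ℂ) * ee ((ξ : ℝ) / (2 * N : ℕ) * σ) =
      ∑ x ∈ A, ∑ y ∈ A, if ((2 * N : ℕ) : ℤ) ∣ (x : ℤ) - y + σ then ((2 * N : ℕ) : ℂ) else 0 :=
    fun σ => by rw [hP]; exact key_de hN A σ
  have h1 : ∀ n ∈ S, ∑ ξ ∈ range (2 * N), (P ξ : ℂ) * ee ((ξ : ℝ) / (2 * N : ℕ) * s n) = 0 := by
    intro n hn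
    rw [hk]
    refine sum_eq_zero fun x hx => sum_eq_zero fun y hy => if_neg fun hd => ?_
    have a1 := mem_Icc.1 (hA hx)
    have a2 := mem_Icc.1 (hA hy)
    have a3 := hs n hn
    have a4 := hf y hy x hx n hn
    have a5 := Int.eq_zero_of_abs_lt_dvd hd (by rw [abs_lt]; push_cast; omega)
    omega
  have h2 : ∑ ξ ∈ range (2 * N), P ξ = A.card * (2 * N) := by
    have := hk 0
    simp only [Int.cast_zero, mul_zero, ee_zero, mul_one, add_zero] at this
    have e : ∀ x ∈ A, (∑ y ∈ A, if ((2 * N : ℕ) : ℤ) ∣ (x : ℤ) - y then ((2 * N : ℕ) : ℂ) else 0) =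
        ((2 * N : ℕ) : ℂ) := fun x hx => by
      rw [sum_eq_single x (fun y hy hyx => if_neg fun hd => ?_) (fun h => (h hx).elim), sub_self,
        if_pos (dvd_zero _)]
      have a1 := mem_Icc.1 (hA hx)
      have a2 := mem_Icc.1 (hA hy)
      have a5 := Int.eq_zero_of_abs_lt_dvd hd (by rw [abs_lt]; push_cast; omega)
      omega
    rw [sum_congr rfl e, sum_const, nsmul_eq_mul] at this
    exact_mod_cast this
  have h3 : ∑ ξ ∈ range (2 * N),
      P ξ * (∑ n ∈ S, (W n : ℂ) * ee ((ξ : ℝ) / (2 * N : ℕ) * s n)).re = 0 := by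
    simp only [← Complex.re_ofReal_mul]
    rw [← Complex.re_sum]
    simp only [mul_sum]
    rw [sum_comm, sum_eq_zero, Complex.zero_re]
    intro n hn
    simp only [mul_left_comm _ (W n : ℂ)]
    rw [← mul_sum, h1 n hn, mul_zero]
  have h4 : P 0 = A.card * A.card := by
    rw [hP]
    simp only [Nat.cast_zero, zero_div, zero_mul, ee_zero, sum_const, nsmul_eq_mul, mul_one,
      Complex.normSq_natCast]
  have h5 := single_le_sum (f := fun ξ : ℕ => P ξ *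
    ((∑ n ∈ S, (W n : ℂ) * ee ((ξ : ℝ) / (2 * N : ℕ) * s n)).re + δ))
    (fun ξ _ => mul_nonneg (by rw [hP]; exact Complex.normSq_nonneg _)
      (by linarith [hT ((ξ : ℝ) / (2 * N : ℕ))])) (mem_range.2 hN)
  simp only [mul_add, sum_add_distrib, ← sum_mul, h2, h3, h4, Nat.cast_zero, zero_div, zero_mul,
    ee_zero, mul_one, ← Complex.ofReal_sum, Complex.ofReal_re] at h5
  refine le_of_mul_le_mul_left ?_ hc
  nlinarith [mul_nonneg (mul_nonneg hc.le hc.le) hδ]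

end Vale.Agent.P042.S
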