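import Vale.Agent.P042.S.Defs

/-! # P042 S/Gro (TASK; helper names end with _gr; the plan also covers a sibling file): the archimedean place.
`gro_poly`: for `p : ℤ[X]` with `natDegree ≤ j` and positive coefficient at `j` there are `n₀, B` with `n ^ j ≤ B p(n)` and `p(n) ≤ B n ^ j` for `n ≥ n₀` (`eval_eq_sum_range'`: `|p(n) - c n ^ j| ≤ K n ^ (j - 1)`, or `Polynomial.isEquivalent_atTop_lead`);
apply it to `h`, `Δ h = taylor 1 h - h` (degree at most `k - 1`, coefficient `k c`), `Δ Δ h` (`taylor_coeff`, `hasseDeriv_coeff`).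
Write `a n = H (n + 1) - H n`, `φ u = (1 - u / H M) ee (β u)`, `‖φ u‖ ≤ 1` on `[0, H M]`, `‖φ u - φ v‖ ≤ (1 / H M + 7 |β|) |u - v|` (`ee_lip`), `Fw n = a n * φ (H n)`, `H` and `a` increase, `a n ≤ a M ≤ B M ^ (k - 1)`.
`fw_var`: `Fw M = 0`, `‖Fw (n + 1) - Fw n‖ ≤ (a (n + 1) - a n) + a M * Lip * (H (n + 1) - H n)`, telescope (`Finset.sum_Ico_sub`-like induction).
`fw_re`: `∑ n ∈ Ico n₀ M, a n φ (H n)` differs from `∑ u ∈ Ico (H n₀) (H M), φ u` (blocks `Ico (H n) (H (n + 1))`, induction on the upper end) by at most `Lip * a M * H M`; the terms `u < H n₀` cost `H n₀ ≤ B n₀ ^ k`; `fejer`.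
`fw_zero`: the same with `β = 0` and `∑ u < N, (1 - u / N) = (N + 1) / 2`. -/

namespace Vale.Agent.P042.S

open Finset Polynomial

theorem key_gr (p : ℤ[X]) (j : ℕ) (hd : p.natDegree ≤ j) (hc : 0 < p.coeff j) :
    ∃ m : ℕ, ∀ n : ℕ, m ≤ n →
      (n : ℤ) ^ j ≤ 2 * p.eval (n : ℤ) ∧ p.eval (n : ℤ) ≤ (p.coeff j + 1) * (n : ℤ) ^ j := by
  obtain ⟨K, hK⟩ : ∃ K : ℕ, (K : ℤ) = ∑ i ∈ range j, |p.coeff i| :=
    Int.eq_ofNat_of_zero_le (sum_nonneg fun i _ => abs_nonneg _) |>.imp fun _ h => h.symm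
  refine ⟨2 * K + 1, fun n hn => ?_⟩
  have hn1 : (1 : ℤ) ≤ n := by exact_mod_cast (by omega : 1 ≤ n)
  have hn2 : 2 * (K : ℤ) ≤ n := by exact_mod_cast (by omega : 2 * K ≤ n)
  have he : p.eval (n : ℤ) =
      ∑ i ∈ range j, p.coeff i * (n : ℤ) ^ i + p.coeff j * (n : ℤ) ^ j := by
    rw [eval_eq_sum_range' (Nat.lt_succ_of_le hd), sum_range_succ]
  set r : ℤ := ∑ i ∈ range j, p.coeff i * (n : ℤ) ^ i with hr
  have hpow : (0 : ℤ) < (n : ℤ) ^ j := by positivity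
  have h1 : (n : ℤ) * |r| ≤ K * (n : ℤ) ^ j := by
    calc (n : ℤ) * |r| ≤ n * ∑ i ∈ range j, |p.coeff i * (n : ℤ) ^ i| :=
          mul_le_mul_of_nonneg_left (abs_sum_le_sum_abs _ _) (by omega)
      _ = ∑ i ∈ range j, |p.coeff i| * (n : ℤ) ^ (i + 1) := by
          rw [mul_sum]
          refine sum_congr rfl fun i _ => ?_
          rw [abs_mul, abs_of_nonneg (by positivity : (0 : ℤ) ≤ (n : ℤ) ^ i)]
          ring
      _ ≤ ∑ i ∈ range j, |p.coeff i| * (n : ℤ) ^ j := by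
          refine sum_le_sum fun i hi => mul_le_mul_of_nonneg_left ?_ (abs_nonneg _)
          exact pow_le_pow_right₀ hn1 (mem_range.mp hi)
      _ = K * (n : ℤ) ^ j := by rw [hK, sum_mul]
  have h2 : 2 * |r| ≤ (n : ℤ) ^ j := by
    have : (n : ℤ) * (2 * |r|) ≤ n * (n : ℤ) ^ j := by nlinarith
    exact le_of_mul_le_mul_left this (by omega)
  have h3 := le_abs_self r
  have h4 := neg_abs_le r
  have h5 := abs_nonneg r
  have h6 : (n : ℤ) ^ j ≤ p.coeff j * (n : ℤ) ^ j := by nlinarith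
  rw [he]
  constructor
  · linarith
  · nlinarith

theorem tay_gr (p : ℤ[X]) (m : ℕ) (hd : p.natDegree ≤ m + 1) :
    (taylor 1 p - p).coeff m = (m + 1) * p.coeff (m + 1) := by
  have h1 : (hasseDeriv m p).natDegree < 2 :=
    lt_of_le_of_lt (natDegree_hasseDeriv_le p m) (by omega)
  rw [coeff_sub, taylor_coeff, eval_eq_sum_range' h1]
  simp only [sum_range_succ, sum_range_zero, hasseDeriv_coeff, one_pow, mul_one, zero_add,
    Nat.choose_self, Nat.cast_one, one_mul]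
  rw [add_comm 1 m, Nat.choose_succ_self_right]
  push_cast
  ring

theorem dif_gr (p : ℤ[X]) (j : ℕ) (hd : p.natDegree ≤ j + 1) (hc : 0 < p.coeff (j + 1)) :
    (taylor 1 p - p).natDegree ≤ j ∧ 0 < (taylor 1 p - p).coeff j := by
  refine ⟨natDegree_le_iff_coeff_eq_zero.mpr fun m hm => ?_, ?_⟩
  · rw [tay_gr p m (by omega), coeff_eq_zero_of_natDegree_lt (by omega), mul_zero]
  · rw [tay_gr p j hd]
    positivity

theorem ev_gr (p : ℤ[X]) (x : ℤ) : (taylor 1 p - p).eval x = p.eval (x + 1) - p.eval x := by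
  rw [eval_sub, taylor_eval]

theorem gro_poly {h : ℤ[X]} (hk : 2 ≤ h.natDegree) (hl : 0 < h.leadingCoeff) (n₁ : ℕ) :
    ∃ n₀ B, n₁ ≤ n₀ ∧ Gro (val h) h.natDegree n₀ B := by
  obtain ⟨j, hj⟩ : ∃ j, h.natDegree = j + 2 := ⟨h.natDegree - 2, by omega⟩
  have hc : 0 < h.coeff (j + 2) := by rw [← hj]; exact hl
  obtain ⟨d1, c1⟩ := dif_gr h (j + 1) hj.le hc
  obtain ⟨d2, c2⟩ := dif_gr _ j d1 c1
  obtain ⟨m0, h0⟩ := key_gr h (j + 2) hj.le hc
  obtain ⟨m1, h1⟩ := key_gr _ (j + 1) d1 c1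
  obtain ⟨m2, h2⟩ := key_gr _ j d2 c2
  set a : ℤ := h.coeff (j + 2) with ha
  set b : ℤ := (taylor 1 h - h).coeff (j + 1) with hb
  have ha' : (0 : ℝ) < a := by exact_mod_cast hc
  have hb' : (0 : ℝ) < b := by exact_mod_cast c1
  have hv : ∀ n : ℕ, val h (n + 1) = h.eval ((n : ℤ) + 1) := fun n => by
    simp only [val, Nat.cast_add, Nat.cast_one]
  have hv2 : ∀ n : ℕ, val h (n + 2) = h.eval ((n : ℤ) + 1 + 1) := fun n => by
    simp only [val, Nat.cast_add, Nat.cast_ofNat, add_assoc, one_add_one_eq_two]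
  have hp : ∀ n : ℕ, n₁ + m0 + m1 + m2 + 1 ≤ n → ∀ i : ℕ, (0 : ℤ) < (n : ℤ) ^ i := fun n hn i =>
    pow_pos (by exact_mod_cast (by omega : 0 < n)) i
  refine ⟨n₁ + m0 + m1 + m2 + 1, (a : ℝ) + b + 2, by omega, by linarith, by omega,
    fun n hn => ?_, fun n hn => ?_, fun n hn => ?_, fun n hn => ?_, fun n hn => ?_, fun n hn => ?_⟩
  · have := (h0 n (by omega)).1
    have := hp n hn (j + 2)
    unfold val
    omega
  · have := (h1 n (by omega)).1
    have := hp n hn (j + 1)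
    rw [ev_gr] at *
    rw [hv]
    unfold val
    omega
  · have h3 := (h2 n (by omega)).1
    have := hp n hn j
    rw [ev_gr, ev_gr, ev_gr] at h3
    rw [hv, hv2]
    unfold val
    omega
  · have h3 := (h1 n (by omega)).2
    rw [ev_gr] at h3
    rw [hv, hj]
    have h4 : ((h.eval ((n : ℤ) + 1) - val h n : ℤ) : ℝ) ≤ (b + 1) * (n : ℝ) ^ (j + 1) := by
      unfold val
      exact_mod_cast h3
    have h5 : (0 : ℝ) ≤ (n : ℝ) ^ (j + 1) := by positivity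
    rw [show j + 2 - 1 = j + 1 from rfl]
    nlinarith
  · have h3 := (h0 n (by omega)).1
    have h4 : (n : ℝ) ^ (j + 2) ≤ 2 * (val h n : ℝ) := by
      unfold val
      exact_mod_cast h3
    have h5 : (0 : ℝ) ≤ (n : ℝ) ^ (j + 2) := by positivity
    rw [hj]
    nlinarith
  · have h3 := (h0 n (by omega)).2
    have h4 : (val h n : ℝ) ≤ (a + 1) * (n : ℝ) ^ (j + 2) := by
      unfold val
      exact_mod_cast h3
    have h5 : (0 : ℝ) ≤ (n : ℝ) ^ (j + 2) := by positivity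
    rw [hj]
    nlinarith

variable {H : ℕ → ℤ} {k n₀ : ℕ} {B : ℝ}

end Vale.Agent.P042.S
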