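import Vale.Agent.P042.S.Kern
import Vale.Agent.P042.S.Gro
import Vale.Agent.P042.S.Del

/-! # P042 S/Trans (TASK; helper names end with _tr; the plan also covers a sibling file): the transfer theorem.
`kernel`: `K₀` from `dichot`, `D = R ^ 4`, `K = 8 K₀ + 4`, `M = R ^ K ≥ R ≥ n₀`, `c' = min c 1`, `R ^ (-1) ≤ R ^ (-c')`.  Minor case: `minor` with `X = M / D` gives `7 B ^ 2 M ^ k / R`.  Major case: `major` has error at most
`2 R ^ 3 R ^ (4 K₀) * 7 B ^ 2 M ^ (k - 1) * 2 R ^ (4 K₀) ≤ 28 B ^ 2 M ^ k / R`; `sing`, `fw_norm`, `fw_re` (`n₀ ^ k ≤ n₀ ^ k M ^ (k - 1)`, `M ^ (k - 1) R ^ (4 K₀ + 1) ≤ M ^ k`).  At `θ = 0`: `major` with `q = 1`, `a = 0`, `β = 0`, `sing_zero`, `fw_zero`.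
`Glob.sav`: `gro_poly`, `kernel`; for `R ≥ R₀` (with `C' R ^ (-c') ≤ 1 / (4 B)`) and `B (R ^ K) ^ k ≤ N`, `delsarte` gives `|A| ≤ 8 B C' N R ^ (-c')`.  Take `R = ⌊(N / B) ^ (1 / (K k))⌋₊ ≥ (N / B) ^ (1 / (K k)) / 2`;
for small `N` (that is `R < R₀`, `N < B (R₀ ^ K) ^ k`) use `|A| ≤ N`.  Exponent `min c' 1 / (K k)`. -/

namespace Vale.Agent.P042.S

open Finset Polynomial

variable {h : ℤ[X]} {C c B : ℝ} {w : ℕ → ℤ → ℝ} {n₀ : ℕ}

theorem root_tr (hB : 1 ≤ B) {e : ℕ} (he : 0 < e) (N : ℕ) :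
    ∃ R : ℕ, B * (R : ℝ) ^ e ≤ N ∧ (N : ℝ) < B * ((R : ℝ) + 1) ^ e := by
  have hex : ∃ R : ℕ, (N : ℝ) < B * ((R : ℝ) + 1) ^ e := by
    refine ⟨N, ?_⟩
    have h0 : (0 : ℝ) ≤ N := N.cast_nonneg
    have h1 : (N : ℝ) + 1 ≤ ((N : ℝ) + 1) ^ e := le_self_pow₀ (by linarith) he.ne'
    nlinarith
  classical
  refine ⟨Nat.find hex, ?_, Nat.find_spec hex⟩
  rcases h0 : Nat.find hex with _ | r
  · simp [he.ne']
  · have := Nat.find_min hex (m := r) (by omega)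
    push_cast
    exact not_lt.1 this

theorem small_tr {C' c' : ℝ} (hB : 1 ≤ B) (hc' : 0 < c') (n₀ : ℕ) : ∃ R₀ : ℕ, 2 ≤ R₀ ∧ n₀ ≤ R₀ ∧
    ∀ R : ℕ, R₀ ≤ R → C' * (R : ℝ) ^ (-c') ≤ 1 / (4 * B) := by
  have h1 := ((tendsto_rpow_neg_atTop hc').comp tendsto_natCast_atTop_atTop).const_mul C'
  rw [mul_zero] at h1
  have h2 : (0 : ℝ) < 1 / (4 * B) := by positivity
  obtain ⟨R₁, hR₁⟩ := Filter.eventually_atTop.1 (h1.eventually (ge_mem_nhds h2))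
  exact ⟨max (max 2 n₀) R₁, by omega, by omega, fun R hR => hR₁ R (by omega)⟩

theorem Glob.sav (hw : Glob h C c w) (hc : 0 < c) (hk : 2 ≤ h.natDegree) (hl : 0 < h.leadingCoeff)
    (n₁ : ℕ) : Sav h n₁ := by
  obtain ⟨n₀, B, hn, hG⟩ := gro_poly hk hl n₁
  obtain ⟨K, C', c', hK, hC', hc', -, hker⟩ := kernel hw hc hk hl hG
  have hB := hG.one
  have hB0 : 0 < B := by linarith
  obtain ⟨R₀, h2, hn₀, hR₀⟩ := small_tr (C' := C') hB hc' n₀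
  set e := K * h.natDegree with he
  have he0 : 0 < e := Nat.mul_pos hK (by omega)
  have he0' : (0 : ℝ) < e := by exact_mod_cast he0
  set c₀ := c' / e with hc₀
  have hc₀0 : 0 < c₀ := div_pos hc' he0'
  refine ⟨c₀, hc₀0, 8 * B * C' * (B * 2 ^ e) ^ c₀ + (B * (R₀ : ℝ) ^ e) ^ c₀, fun N A hA hf => ?_⟩
  have hp1 : 0 ≤ 8 * B * C' * (B * 2 ^ e) ^ c₀ := by positivity
  have hp2 : 0 ≤ (B * (R₀ : ℝ) ^ e) ^ c₀ := by positivity
  have hcard : (A.card : ℝ) ≤ N := by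
    have := card_le_card hA
    rw [Nat.card_Icc] at this
    exact_mod_cast (by omega : A.card ≤ N)
  rcases Nat.eq_zero_or_pos N with rfl | hN
  · refine hcard.trans ?_
    rw [Nat.cast_zero]
    positivity
  have hN' : (0 : ℝ) < N := by exact_mod_cast hN
  have hsplit : (N : ℝ) = (N : ℝ) ^ c₀ * (N : ℝ) ^ (1 - c₀) := by
    rw [← Real.rpow_add hN']
    simp
  have hq : 0 ≤ (N : ℝ) ^ (1 - c₀) := by positivity
  obtain ⟨R, hR1, hR2⟩ := root_tr hB he0 N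
  rcases lt_or_ge R R₀ with hlt | hge
  · have h1 : (R : ℝ) + 1 ≤ R₀ := by exact_mod_cast hlt
    have h3 : (N : ℝ) ≤ B * (R₀ : ℝ) ^ e := hR2.le.trans (by gcongr)
    have h4 : (N : ℝ) ^ c₀ ≤ (B * (R₀ : ℝ) ^ e) ^ c₀ := Real.rpow_le_rpow hN'.le h3 hc₀0.le
    calc (A.card : ℝ) ≤ N := hcard
      _ = (N : ℝ) ^ c₀ * (N : ℝ) ^ (1 - c₀) := hsplit
      _ ≤ _ := mul_le_mul_of_nonneg_right (by linarith) hq
  obtain ⟨hk1, hk2⟩ := hker R (by omega) (by omega)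
  have hR' : (1 : ℝ) ≤ R := by exact_mod_cast (by omega : 1 ≤ R)
  have hR0 : (0 : ℝ) < R := by linarith
  set X := ((R : ℝ) ^ K) ^ h.natDegree with hX
  have hX0 : 0 < X := by positivity
  have hXe : X = (R : ℝ) ^ e := by rw [hX, ← pow_mul]
  have hd := delsarte (S := Ico n₀ (R ^ K)) hA
    (fun n => Wt (val h) (R ^ K) n * ∑ d ∈ Icc 1 R, w d n) (val h) (fun n hn' => ?_)
    (fun a ha b hb n hn' hab => ?_) (δ := C' * (R : ℝ) ^ (-c') * X) (by positivity) hk1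
  rotate_left
  · obtain ⟨h1, h3⟩ := mem_Ico.1 hn'
    refine ⟨hG.pos n h1, ?_⟩
    have h4 : (n : ℝ) ≤ (R : ℝ) ^ K := by exact_mod_cast h3.le
    have h5 : (val h n : ℝ) ≤ N := (hG.up n h1).trans (le_trans (by rw [← hXe, hX]; gcongr) hR1)
    exact_mod_cast h5
  · have h1 := (mem_Ico.1 hn').1
    have h3 := hf a ha b hb n (hn.trans h1) hab
    have h4 := hG.pos n h1
    rw [← hab, h3, sub_self] at h4
    exact lt_irrefl _ h4
  have h0 : (Tk h w n₀ (R ^ K) R 0).re =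
      ∑ n ∈ Ico n₀ (R ^ K), Wt (val h) (R ^ K) n * ∑ d ∈ Icc 1 R, w d n := by
    unfold Tk
    simp only [zero_mul, ee_zero, mul_one]
    rw [← Complex.ofReal_sum, Complex.ofReal_re]
  rw [← h0] at hd
  have h5 := hR₀ R hge
  have h6 : 1 / (4 * B) * X ≤ (Tk h w n₀ (R ^ K) R 0).re := by
    refine le_trans (mul_le_mul_of_nonneg_right ?_ hX0.le) hk2
    have : 1 / (2 * B) = 1 / (4 * B) + 1 / (4 * B) := by
      field_simp
      ring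
    linarith
  have h7 : (A.card : ℝ) * (1 / (4 * B)) * X ≤ 2 * N * (C' * (R : ℝ) ^ (-c')) * X := by
    have := mul_le_mul_of_nonneg_left h6 (A.card.cast_nonneg (α := ℝ))
    nlinarith
  have h8 : (A.card : ℝ) ≤ 8 * B * C' * (N * (R : ℝ) ^ (-c')) := by
    have := le_of_mul_le_mul_right h7 hX0
    rw [mul_one_div, div_le_iff₀ (by positivity)] at this
    linarith
  have h9 : (N : ℝ) ≤ B * 2 ^ e * (R : ℝ) ^ e := by
    rw [mul_assoc, ← mul_pow]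
    exact hR2.le.trans (by gcongr; linarith)
  have h10 : (N : ℝ) ^ c₀ ≤ (B * 2 ^ e) ^ c₀ * (R : ℝ) ^ c' := by
    refine (Real.rpow_le_rpow hN'.le h9 hc₀0.le).trans_eq ?_
    rw [Real.mul_rpow (by positivity) (by positivity), ← Real.rpow_natCast (R : ℝ) e,
      ← Real.rpow_mul hR0.le, hc₀, mul_div_cancel₀ _ he0'.ne']
  have h11 : (N : ℝ) * (R : ℝ) ^ (-c') ≤ (B * 2 ^ e) ^ c₀ * (N : ℝ) ^ (1 - c₀) := by
    rw [Real.rpow_neg hR0.le, ← div_eq_mul_inv, div_le_iff₀ (by positivity)]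
    calc (N : ℝ) = (N : ℝ) ^ c₀ * (N : ℝ) ^ (1 - c₀) := hsplit
      _ ≤ (B * 2 ^ e) ^ c₀ * (R : ℝ) ^ c' * (N : ℝ) ^ (1 - c₀) := by gcongr
      _ = _ := by ring
  calc (A.card : ℝ) ≤ 8 * B * C' * ((B * 2 ^ e) ^ c₀ * (N : ℝ) ^ (1 - c₀)) :=
        h8.trans (by gcongr)
    _ = 8 * B * C' * (B * 2 ^ e) ^ c₀ * (N : ℝ) ^ (1 - c₀) := by ring
    _ ≤ _ := mul_le_mul_of_nonneg_right (by linarith) hq

end Vale.Agent.P042.S
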