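import Vale.Agent.P042.S.QLoc
import Vale.Agent.P042.S.Odd
import Vale.Agent.P042.S.Glob
import Vale.Agent.P042.S.Trans

/-! # P042 S/Main: assembly. -/

namespace Vale.Agent.P042.S

open Finset Polynomial

theorem main (h : ℤ[X]) (hdeg : 2 ≤ h.natDegree) (hlead : 0 < h.leadingCoeff)
    (hint : ∀ q : ℕ, 1 ≤ q → ∃ t : ℤ, (q : ℤ) ∣ h.eval t)
    (hcase : (∃ s : ℤ, ∀ x : ℤ, h.eval (s - x) = -h.eval (s + x)) ∨
      (h.natDegree = 2 ∧ discrim (h.coeff 2) (h.coeff 1) (h.coeff 0) ≠ 0)) : Sav h 1 := by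
  rcases hcase with ⟨s, hs⟩ | ⟨h2, hΔ⟩
  · obtain ⟨C, c, D, hc, hL⟩ := loc_odd (h := taylor s h) (fun n => by
      rw [taylor_eval, taylor_eval, add_comm, ← sub_eq_add_neg, hs, add_comm])
      (by rw [natDegree_taylor]; omega)
    obtain ⟨C', hw⟩ := hL.glob hc
    obtain ⟨c', hc', C'', H⟩ := hw.sav (half_pos hc) (by rwa [natDegree_taylor])
      (by rwa [leadingCoeff_taylor]) (s.natAbs + 1)
    refine ⟨c', hc', C'', fun N A hA hf => H N A hA fun a ha b hb n hn e => ?_⟩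
    refine hf a ha b hb (n + s).toNat (by omega) ?_
    rw [e, taylor_eval, Int.toNat_of_nonneg (by omega)]
  · obtain ⟨r, Q, hQ, C', c, D, hc, hL⟩ := loc_quad h2 hint hΔ
    obtain ⟨C'', hw⟩ := hL.glob hc
    have hQ' : (Q : ℤ) ≠ 0 := by positivity
    have h1 : (C (Q : ℤ) * X + C (r : ℤ)).natDegree = 1 := natDegree_linear hQ'
    obtain ⟨c', hc', C₃, H⟩ := hw.sav (half_pos hc) (by rw [natDegree_comp, h1]; omega)
      (by rw [leadingCoeff_comp (by omega), leadingCoeff_linear hQ']; positivity) 1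
    refine ⟨c', hc', C₃, fun N A hA hf => H N A hA fun a ha b hb n hn e => ?_⟩
    refine hf a ha b hb (Q * n + r) (by nlinarith) ?_
    rw [e, eval_comp]
    simp

end Vale.Agent.P042.S
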