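import Vale.Agent.P042.S.Weyl

/-! # P042 S/Dich (TASK; helper names end with _di; the plan also covers a sibling file): major and minor arcs.
`tk_eq`: `Tk θ = ∑ d ∈ Icc 1 R, ∑ n ∈ Ico n₀ M, (w d n * ee (θ₀ H n)) * Fw β n` for `θ = θ₀ + β` (`ee_add`, `sum_comm`).
`major`: for each `d`, `g = w d * ph h a q` has period `d q` and norm at most `d`; `abel` for `g - av (d q) g` with `per_partial`; `∑ d ≤ R, 2 d d q ≤ 2 R ^ 3 q`.
`sing`: terms with `¬ d ∣ q` vanish (`van`), for `d ∣ q` use `av_mul`; if `q ≤ R` the sum is the sum over all divisors (`pos`, `dec`, `q ^ (-c) ≤ 1`), else take `s = 0` and `dec`, `q ^ (-c) ≤ R ^ (-c)`; `0 ≤ C` from `dec` at `q = 1`.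
`minor`: `w d n = ∑ r < d, w d r * (d⁻¹ ∑ b < d, ee (b (n - r) / d))` (`sum_ee`, periodicity), so the partial sums of `w d n * ee (θ H n)` are at most `d * d * X`; `abel` with `Fw 0`.
`dichot`: if some sum is large apply `weyl (k - 1)` and `pd_poly` to `C θ * h.map (Int.castRingHom ℝ) + C η * X` (coefficient `θ lead` at `k ≥ 2`; `Ico` of naturals versus integers: `Finset.sum_nbij'` or `Nat.cast` image);
`q₀ = q₁ k! lead`, `a₀ = round (..)`, reduce the fraction (`Rat.num`, `Rat.den` of `a₀ / q₀`, `Rat.reduced`, `Rat.den_dvd`); `k! lead ≤ 2 ^ (k! lead) ≤ D ^ (k! lead)`. -/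

namespace Vale.Agent.P042.S

open Finset Polynomial

variable {h : ℤ[X]} {C c B : ℝ} {w : ℕ → ℤ → ℝ} {k n₀ : ℕ}

theorem sum_di (f : ℤ → ℂ) (x y : ℕ) :
    ∑ n ∈ Ico (x : ℤ) (y : ℤ), f n = ∑ n ∈ Ico x y, f n := by
  symm
  refine sum_nbij' (fun n : ℕ => (n : ℤ)) Int.toNat ?_ ?_ ?_ ?_ ?_
  · intro n hn
    simp only [mem_Ico] at hn ⊢
    omega
  · intro n hn
    simp only [mem_Ico] at hn ⊢
    omega
  · intro n _
    simp
  · intro n hn
    simp only [mem_Ico] at hn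
    omega
  · intro n _
    rfl

theorem dichot (hk : 2 ≤ h.natDegree) (hl : 0 < h.leadingCoeff) : ∃ K : ℕ, ∀ (n₀ M : ℕ) (D θ : ℝ),
    0 < M → 2 ≤ D →
      (∀ (η : ℝ) (m : ℕ), m ≤ M → ‖∑ n ∈ Ico n₀ m, ee (θ * val h n + η * n)‖ ≤ M / D) ∨
      ∃ (q : ℕ) (a : ℤ) (β : ℝ), 0 < q ∧ IsCoprime a q ∧ (q : ℝ) ≤ D ^ K ∧
        |β| * (M : ℝ) ^ h.natDegree ≤ D ^ K ∧ θ = a / q + β := by
  obtain ⟨k, hk1⟩ : ∃ k, h.natDegree = k + 1 := ⟨h.natDegree - 1, by omega⟩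
  obtain ⟨K, hK⟩ := weyl k
  obtain ⟨l, hl1⟩ : ∃ l : ℕ, h.leadingCoeff = l := ⟨h.leadingCoeff.toNat, by omega⟩
  have hl0 : 0 < l := by omega
  obtain ⟨L, hL⟩ : ∃ L : ℕ, L = (k + 1).factorial * l := ⟨_, rfl⟩
  have hL0 : 0 < L := hL ▸ Nat.mul_pos (Nat.factorial_pos _) hl0
  refine ⟨K + L, fun n₀ M D θ hM hD => ?_⟩
  rw [or_iff_not_imp_left]
  intro hn
  push Not at hn
  obtain ⟨η, m, hm, hS⟩ := hn
  have hD0 : 0 < D := by linarith
  have hD1 : 1 ≤ D := by linarith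
  have hM0 : (0 : ℝ) < M := Nat.cast_pos.2 hM
  obtain ⟨p, hp⟩ : ∃ p : ℝ[X], p = Polynomial.C θ * h.map (Int.castRingHom ℝ) +
    Polynomial.C η * X := ⟨_, rfl⟩
  have p1 : p.natDegree ≤ k + 1 := by
    rw [hp]
    refine (natDegree_add_le _ _).trans (max_le ?_ ?_)
    · exact (natDegree_C_mul_le _ _).trans (natDegree_map_le.trans hk1.le)
    · exact (natDegree_C_mul_le _ _).trans (natDegree_X_le.trans (by omega))
  have p2 : ((k + 1).factorial : ℝ) * p.coeff (k + 1) = L * θ := by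
    have e : h.coeff (k + 1) = l := by rw [← hk1, ← hl1, leadingCoeff]
    rw [hp, coeff_add, coeff_C_mul, coeff_C_mul, coeff_map, e, coeff_X, if_neg (by omega), hL]
    simp only [eq_intCast, Int.cast_natCast, Nat.cast_mul]
    ring
  have p3 : ∀ n : ℕ, p.eval ((n : ℤ) : ℝ) = θ * val h n + η * n := fun n => by
    rw [hp, eval_add, eval_mul, eval_mul, eval_C, eval_C, eval_X, eval_intCast_map]
    simp [val]
  have hpd := pd_poly (k + 1) p p1
  rw [p2] at hpd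
  obtain ⟨q₁, hq₁, hq₁D, hq₁a⟩ := hK _ _ hpd M n₀ m D hM (by omega) hD (by
    rw [sum_di fun n => ee (p.eval (n : ℝ))]
    simp only [p3]
    rw [div_lt_iff₀' hD0] at hS
    exact hS.le)
  rw [← mul_assoc, ← Nat.cast_mul] at hq₁a
  generalize round (((q₁ * L : ℕ) : ℝ) * θ) = a₀ at hq₁a
  have hq₀ : 0 < q₁ * L := Nat.mul_pos hq₁ hL0
  have hq₀' : (1 : ℝ) ≤ (q₁ * L : ℕ) := Nat.one_le_cast.2 hq₀
  obtain ⟨r, hr⟩ : ∃ r : ℚ, r = Rat.divInt a₀ (q₁ * L : ℕ) := ⟨_, rfl⟩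
  have r1 : (r.num : ℝ) / r.den = a₀ / (q₁ * L : ℕ) := by
    rw [← Rat.cast_def, hr, Rat.cast_divInt, Int.cast_natCast]
  have r2 : r.den ≤ q₁ * L := by
    have h1 := Rat.den_dvd a₀ (q₁ * L : ℕ)
    rw [← hr] at h1
    exact Nat.le_of_dvd hq₀ (Int.natCast_dvd_natCast.1 h1)
  refine ⟨r.den, r.num, θ - r.num / r.den, r.den_pos, Rat.isCoprime_num_den r, ?_, ?_, by ring⟩
  · have h1 : (L : ℝ) ≤ D ^ L :=
      le_trans (by exact_mod_cast Nat.lt_two_pow_self.le) (pow_le_pow_left₀ zero_le_two hD L)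
    rw [pow_add]
    refine (Nat.cast_le.2 r2).trans ?_
    rw [Nat.cast_mul]
    exact mul_le_mul hq₁D h1 (Nat.cast_nonneg _) (by positivity)
  · rw [hk1, ← le_div_iff₀ (by positivity), r1]
    have h1 : θ - a₀ / (q₁ * L : ℕ) = ((q₁ * L : ℕ) * θ - a₀) / (q₁ * L : ℕ) := by
      field_simp
    rw [h1, abs_div, Nat.abs_cast]
    refine (div_le_self (abs_nonneg _) hq₀').trans (hq₁a.trans ?_)
    exact div_le_div_of_nonneg_right (pow_le_pow_right₀ hD1 (Nat.le_add_right _ _)) (by positivity)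

end Vale.Agent.P042.S
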