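import Vale.Agent.P042.S.HuaA

/-! # P042 S/Hua (TASK; helper names end with _hu; the plan also covers a sibling file): complete sums.
`hua_top`: apply `weyl k` and `pd_poly` to `p = C (1 / q) * P.map (Int.castRingHom ℝ)` on `Ico 0 (q m)`, `M = q m` (`av_mul`, `ph_per`) with `m > D ^ C`; the distance of `q₁ (k+1)! c / q` to `ℤ` is less than `1 / q`, so
`q ∣ q₁ (k+1)! c`; `(k+1)! ≤ 2 ^ (k+1)! ≤ D ^ (k+1)!`.
`hua_inv`: induction on `k`; with `s₁` from `hua_top`, `av_prog` gives `r` with `1 ≤ D * ‖av q fun n => ph P 1 q (r + s₁ n)‖`; `P' = (taylor r P).comp (C s₁ * X)` minus its monomial of degree `k + 1`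
(coefficient divisible by `q`, `ph_congr`; `comp_C_mul_X_coeff`) has degree at most `k`; so `q ∣ s₂ s₁ ^ (k+1) (taylor r P).coeff l` for `l ≥ 1`; go back with `taylor (-r)`
(`C q ∣ C s * T - C c`, `C_dvd_iff_dvd_coeff`, `taylor_taylor`, `taylor_C`; `taylor` is an algebra map `taylorAlgHom`).
`hua`: take `D = max 2 ‖av‖⁻¹`, `c = 1 / (C + 1)`. `hua_lead`: `ph h a q = ph (C a * h) 1 q`, `q ∣ s a lead` gives `q ≤ s |lead|`; `t = max 1 (q / |lead|)`. -/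

namespace Vale.Agent.P042.S

open Finset Polynomial

theorem hua (k : ℕ) : ∃ c : ℝ, 0 < c ∧ c ≤ 1 ∧ ∀ P : ℤ[X], P.natDegree ≤ k → ∀ q : ℕ, 0 < q →
    ∀ t : ℝ, 1 ≤ t → (∀ s : ℕ, 0 < s → (∀ l, 1 ≤ l → (q : ℤ) ∣ s * P.coeff l) → t ≤ s) →
      ‖av q (ph P 1 q)‖ ≤ 2 * t ^ (-c) := by
  obtain ⟨C, hC⟩ := hua_inv k
  have c0 : (0 : ℝ) < (C + 1 : ℕ) := by positivity
  refine ⟨((C + 1 : ℕ) : ℝ)⁻¹, inv_pos.2 c0, inv_le_one_of_one_le₀ (by exact_mod_cast Nat.le_add_left 1 C),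
    fun P hP q hq t ht hs => ?_⟩
  have t0 : 0 < t := by linarith
  have a1 : ‖av q (ph P 1 q)‖ ≤ 1 := norm_av_le zero_le_one (fun n => (norm_ph P 1 q n).le) q
  rcases (norm_nonneg (av q (ph P 1 q))).eq_or_lt with a0 | a0
  · rw [← a0]
    positivity
  generalize ha : ‖av q (ph P 1 q)‖ = a at a0 a1
  have d2 : 2 ≤ max 2 a⁻¹ := le_max_left _ _
  obtain ⟨s, s0, s1, s2⟩ := hC P hP q hq (max 2 a⁻¹) d2 (by
    rw [ha, ← inv_mul_cancel₀ a0.ne']
    exact mul_le_mul_of_nonneg_right (le_max_right _ _) a0.le)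
  have h1 : t ≤ max 2 a⁻¹ ^ (C + 1) :=
    ((hs s s0 s2).trans s1).trans (pow_le_pow_right₀ (by linarith) (Nat.le_succ C))
  have h2 := Real.rpow_le_rpow t0.le h1 (inv_pos.2 c0).le
  rw [Real.pow_rpow_inv_natCast (by linarith) (Nat.succ_ne_zero C)] at h2
  have h3 : a * max 2 a⁻¹ ≤ 2 := by
    rcases max_cases 2 a⁻¹ with h | h <;> rw [h.1]
    · linarith
    · rw [mul_inv_cancel₀ a0.ne']
      norm_num
  rw [Real.rpow_neg t0.le, ← div_eq_mul_inv, le_div_iff₀ (Real.rpow_pos_of_pos t0 _)]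
  exact (mul_le_mul_of_nonneg_left h2 a0.le).trans h3

theorem hua_lead (k : ℕ) : ∃ c : ℝ, 0 < c ∧ c ≤ 1 ∧ ∀ h : ℤ[X], 1 ≤ h.natDegree → h.natDegree ≤ k →
    ∀ q : ℕ, 0 < q → ∀ a : ℤ, IsCoprime a q →
      ‖av q (ph h a q)‖ ≤ 2 * |(h.leadingCoeff : ℝ)| * (q : ℝ) ^ (-c) := by
  obtain ⟨c, c0, c1, hc⟩ := hua k
  refine ⟨c, c0, c1, fun h h1 hk q hq a ha => ?_⟩
  have h0 : h.leadingCoeff ≠ 0 := leadingCoeff_ne_zero.2 fun e => by simp [e] at h1
  have l1 : (1 : ℝ) ≤ |(h.leadingCoeff : ℝ)| := by exact_mod_cast Int.one_le_abs h0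
  have l0 : (0 : ℝ) < |(h.leadingCoeff : ℝ)| := by linarith
  have q0 : (0 : ℝ) < q := Nat.cast_pos.2 hq
  have e : ph h a q = ph (C a * h) 1 q := by
    funext n
    simp only [ph, eval_mul, eval_C, one_mul]
  rw [e]
  refine (hc (C a * h) ((natDegree_C_mul_le a h).trans hk) q hq
    (max 1 (q / |(h.leadingCoeff : ℝ)|)) (le_max_left _ _) fun s s0 hs => ?_).trans ?_
  · refine max_le (by exact_mod_cast s0) ?_
    have h2 := hs _ h1
    rw [coeff_C_mul, mul_left_comm] at h2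
    have h3 := Int.le_abs_of_dvd (mul_ne_zero (Int.natCast_pos.2 s0).ne' h0)
      (ha.symm.dvd_of_dvd_mul_left h2)
    rw [abs_mul, Nat.abs_cast] at h3
    rw [div_le_iff₀ l0]
    exact_mod_cast h3
  · rw [mul_assoc]
    refine mul_le_mul_of_nonneg_left ((Real.rpow_le_rpow_of_nonpos (div_pos q0 l0)
      (le_max_right _ _) (by linarith)).trans ?_) two_pos.le
    rw [Real.div_rpow q0.le l0.le, Real.rpow_neg l0.le, div_inv_eq_mul, mul_comm]
    exact mul_le_mul_of_nonneg_right (Real.rpow_le_self_of_one_le l1 c1)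
      (Real.rpow_nonneg q0.le _)

end Vale.Agent.P042.S
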