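import Vale.Agent.P042.S.Av

/-! # P042 S/Abel (TASK; helper names end with _ab; the plan also covers a sibling file): partial summation, Fejer, Delsarte.
`abel`: with `G m = ∑ n ∈ Ico a m, g n`, induction (`Nat.le_induction`, `sum_Ico_succ_top`) gives `∑ n ∈ Ico a b, g n * F n = G b * F b - ∑ n ∈ Ico a b, G (n + 1) * (F (n + 1) - F n)`.
`per_partial`: strong induction on `b - a`: a block of `m` consecutive terms sums to zero (`sum_perm` with multiplier `1`, `sum_Ico_eq_sum_range`, `sum_Ico_consecutive`), a remainder has fewer than `m` terms of norm at most `2 B` (`norm_av_le`).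
`fejer`: `2 N * re (∑ u < N, (1 - u / N) ee (β u)) = N + ‖∑ u < N, ee (β u)‖ ^ 2`; induction on `N` for the form without division: `2 * re (∑ u < N, (N - u) ee (β u)) = N + normSq (..)`, using
`re (conj (∑ u < N, ee (β u)) * ee (β N)) = re (∑ u < N, ee (β (u + 1)))` (`sum_range_reflect`).
`delsarte`: `m = 2 N`, `a ξ = ∑ x ∈ A, ee (ξ x / m)`; `∑ ξ < m, ‖a ξ‖ ^ 2 ee (ξ s / m) = m * #{(x, y) : m ∣ x - y + s}` (`sum_ee`), zero for `s = s n` (`0 < |x - y + s| < m`) and `m |A|` for `s = 0`;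
all terms `‖a ξ‖ ^ 2 (re T + δ)` are nonnegative, keep `ξ = 0`. -/

namespace Vale.Agent.P042.S

open Finset Polynomial

theorem abel (g F : ℕ → ℂ) {a b : ℕ} (hab : a ≤ b) {B : ℝ}
    (h : ∀ m, a ≤ m → m ≤ b → ‖∑ n ∈ Ico a m, g n‖ ≤ B) :
    ‖∑ n ∈ Ico a b, g n * F n‖ ≤ B * (‖F b‖ + ∑ n ∈ Ico a b, ‖F (n + 1) - F n‖) := by
  have key : ∀ m, a ≤ m → ∑ n ∈ Ico a m, g n * F n = (∑ n ∈ Ico a m, g n) * F m -
      ∑ n ∈ Ico a m, (∑ k ∈ Ico a (n + 1), g k) * (F (n + 1) - F n) := by
    intro m hm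
    induction m, hm using Nat.le_induction with
    | base => simp
    | succ m hm ih =>
      rw [sum_Ico_succ_top hm, sum_Ico_succ_top hm (fun n => (∑ k ∈ Ico a (n + 1), g k) *
        (F (n + 1) - F n)), ih, sum_Ico_succ_top hm g]
      ring
  rw [key b hab, mul_add, mul_sum]
  refine (norm_sub_le _ _).trans (add_le_add ?_ ((norm_sum_le _ _).trans (sum_le_sum ?_)))
  · rw [norm_mul]
    exact mul_le_mul_of_nonneg_right (h b hab le_rfl) (norm_nonneg _)
  · intro n hn
    rw [norm_mul]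
    obtain ⟨h1, h2⟩ := mem_Ico.1 hn
    exact mul_le_mul_of_nonneg_right (h _ (by omega) h2) (norm_nonneg _)

theorem per_partial {g : ℤ → ℂ} {m : ℕ} (hm : 0 < m) (hg : Function.Periodic g (m : ℤ)) {B : ℝ}
    (hB : ∀ n, ‖g n‖ ≤ B) (a b : ℕ) : ‖∑ n ∈ Ico a b, (g n - av m g)‖ ≤ 2 * B * m := by
  have hB0 : 0 ≤ B := (norm_nonneg _).trans (hB 0)
  have hm' : (m : ℂ) ≠ 0 := Nat.cast_ne_zero.2 hm.ne'
  have hav : ‖av m g‖ ≤ B := norm_av_le hB0 hB m
  have blk : ∀ a : ℕ, ∑ n ∈ Ico a (a + m), g n = ∑ n ∈ range m, g n := by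
    intro a
    induction a with
    | zero => rw [zero_add, range_eq_Ico]
    | succ a ih =>
      have h1 := sum_Ico_succ_top (Nat.le_add_right a m) fun n : ℕ => g n
      have h2 := sum_eq_sum_Ico_succ_bot (show a < a + m + 1 by omega) fun n : ℕ => g n
      have h3 : g ((a + m : ℕ) : ℤ) = g a := by rw [Nat.cast_add, hg]
      rw [show a + 1 + m = a + m + 1 by omega, ← ih]
      rw [h2, h3, add_comm] at h1
      exact add_right_cancel h1
  have main : ∀ k a b : ℕ, b - a = k → ‖∑ n ∈ Ico a b, (g n - av m g)‖ ≤ 2 * B * m := by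
    intro k
    induction k using Nat.strong_induction_on with
    | _ k ih =>
      intro a b hk
      rcases le_or_gt m k with h1 | h1
      · rw [← sum_Ico_consecutive _ (Nat.le_add_right a m) (show a + m ≤ b by omega),
          sum_sub_distrib, blk, sum_const, Nat.card_Ico, Nat.add_sub_cancel_left, nsmul_eq_mul, av,
          mul_div_cancel₀ _ hm', sub_self, zero_add]
        exact ih (k - m) (by omega) (a + m) b (by omega)
      · refine (norm_sum_le _ _).trans ((sum_le_card_nsmul _ _ (2 * B) fun n _ =>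
          (norm_sub_le _ _).trans (by linarith [hB n])).trans ?_)
        rw [Nat.card_Ico, nsmul_eq_mul, mul_comm, hk]
        exact mul_le_mul_of_nonneg_left (Nat.cast_le.2 h1.le) (by linarith)
  exact main _ a b rfl

end Vale.Agent.P042.S
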