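import Vale.Agent.P042.S.ArchA
import Vale.Agent.P042.S.Del

/-! # P042 S/Arch (TASK; helper names end with _ar; the plan also covers a sibling file): the archimedean place.
`gro_poly`: for `p : ℤ[X]` with `natDegree ≤ j` and positive coefficient at `j` there are `n₀, B` with `n ^ j ≤ B p(n)` and `p(n) ≤ B n ^ j` for `n ≥ n₀` (`eval_eq_sum_range'`: `|p(n) - c n ^ j| ≤ K n ^ (j - 1)`, or `Polynomial.isEquivalent_atTop_lead`);
apply it to `h`, `Δ h = taylor 1 h - h` (degree at most `k - 1`, coefficient `k c`), `Δ Δ h` (`taylor_coeff`, `hasseDeriv_coeff`).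
Write `a n = H (n + 1) - H n`, `φ u = (1 - u / H M) ee (β u)`, `‖φ u‖ ≤ 1` on `[0, H M]`, `‖φ u - φ v‖ ≤ (1 / H M + 7 |β|) |u - v|` (`ee_lip`), `Fw n = a n * φ (H n)`, `H` and `a` increase, `a n ≤ a M ≤ B M ^ (k - 1)`.
`fw_var`: `Fw M = 0`, `‖Fw (n + 1) - Fw n‖ ≤ (a (n + 1) - a n) + a M * Lip * (H (n + 1) - H n)`, telescope (`Finset.sum_Ico_sub`-like induction).
`fw_re`: `∑ n ∈ Ico n₀ M, a n φ (H n)` differs from `∑ u ∈ Ico (H n₀) (H M), φ u` (blocks `Ico (H n) (H (n + 1))`, induction on the upper end) by at most `Lip * a M * H M`; the terms `u < H n₀` cost `H n₀ ≤ B n₀ ^ k`; `fejer`.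
`fw_zero`: the same with `β = 0` and `∑ u < N, (1 - u / N) = (N + 1) / 2`. -/

namespace Vale.Agent.P042.S

open Finset Polynomial

variable {H : ℕ → ℤ} {k n₀ : ℕ} {B : ℝ}

/-- The smooth weight. -/
noncomputable def phi_ar (N β x : ℝ) : ℂ := ((1 - x / N : ℝ) : ℂ) * ee (β * x)

theorem norm_ar {N β x : ℝ} (hN : 0 < N) (h0 : 0 ≤ x) (h1 : x ≤ N) : ‖phi_ar N β x‖ ≤ 1 := by
  have a1 : x / N ≤ 1 := (div_le_one hN).2 h1
  have a2 : 0 ≤ x / N := by positivity
  rw [phi_ar, norm_mul, norm_ee, mul_one, Complex.norm_real, Real.norm_eq_abs, abs_le]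
  constructor <;> linarith

theorem lip_ar {N β x y : ℝ} (hN : 0 < N) (h0 : 0 ≤ x) (h1 : x ≤ N) (hxy : x ≤ y) :
    ‖phi_ar N β x - phi_ar N β y‖ ≤ (1 / N + 7 * |β|) * (y - x) := by
  have a1 : x / N ≤ 1 := (div_le_one hN).2 h1
  have a2 : 0 ≤ x / N := by positivity
  have e : phi_ar N β x - phi_ar N β y = ((1 - x / N : ℝ) : ℂ) * (ee (β * x) - ee (β * y)) +
      (((y - x) / N : ℝ) : ℂ) * ee (β * y) := by
    simp only [phi_ar]
    push_cast
    ring
  have a3 := ee_lip (β * x) (β * y)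
  rw [← mul_sub, abs_mul, abs_sub_comm, abs_of_nonneg (sub_nonneg.2 hxy)] at a3
  have a4 : 0 ≤ (y - x) / N := div_nonneg (sub_nonneg.2 hxy) hN.le
  rw [e]
  refine (norm_add_le _ _).trans ?_
  rw [norm_mul, norm_mul, norm_ee, mul_one, Complex.norm_real, Complex.norm_real, Real.norm_eq_abs,
    Real.norm_eq_abs, abs_of_nonneg a4, abs_of_nonneg (by linarith)]
  have a5 : (1 - x / N) * ‖ee (β * x) - ee (β * y)‖ ≤ 1 * ‖ee (β * x) - ee (β * y)‖ :=
    mul_le_mul_of_nonneg_right (by linarith) (norm_nonneg _)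
  have a6 : (1 / N + 7 * |β|) * (y - x) = 7 * (|β| * (y - x)) + (y - x) / N := by ring
  linarith

theorem block_ar {N β A : ℝ} (hN : 0 < N) {x y : ℕ} (hxy : x ≤ y) (h1 : (x : ℝ) ≤ N)
    (hA : (y : ℝ) - x ≤ A) :
    ‖(((y : ℝ) - x : ℝ) : ℂ) * phi_ar N β x - ∑ u ∈ Ico x y, phi_ar N β u‖ ≤
      (1 / N + 7 * |β|) * A * (y - x) := by
  have e : (((y : ℝ) - x : ℝ) : ℂ) * phi_ar N β x = ∑ _u ∈ Ico x y, phi_ar N β x := by
    rw [sum_const, Nat.card_Ico, nsmul_eq_mul, Nat.cast_sub hxy]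
    push_cast
    rfl
  rw [e, ← sum_sub_distrib]
  refine (norm_sum_le _ _).trans ((sum_le_card_nsmul _ _ ((1 / N + 7 * |β|) * A)
    fun u hu => ?_).trans (le_of_eq ?_))
  · have h2 : (x : ℝ) ≤ u := Nat.cast_le.2 (mem_Ico.1 hu).1
    have h3 : (u : ℝ) ≤ y := Nat.cast_le.2 (mem_Ico.1 hu).2.le
    exact (lip_ar hN (Nat.cast_nonneg x) h1 h2).trans
      (mul_le_mul_of_nonneg_left (by linarith) (by positivity))
  · rw [Nat.card_Ico, nsmul_eq_mul, Nat.cast_sub hxy, mul_comm]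

theorem cmp_ar (hG : Gro H k n₀ B) {M : ℕ} (hM : n₀ ≤ M) (β : ℝ) :
    (∑ u ∈ range (H M).toNat, phi_ar (H M).toNat β u).re -
      (7 * B ^ 2 * (M : ℝ) ^ (k - 1) * (1 + |β| * (M : ℝ) ^ k) + B * (n₀ : ℝ) ^ k) ≤
        (∑ n ∈ Ico n₀ M, Fw H M β n).re := by
  have c : ∀ n, n₀ ≤ n → (((H n).toNat : ℕ) : ℝ) = H n := fun n hn => by
    rw [← Int.cast_natCast, Int.toNat_of_nonneg (hG.pos n hn).le]
  have mono : ∀ m n, n₀ ≤ m → m ≤ n → (H m).toNat ≤ (H n).toNat := fun m n h1 h2 =>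
    Int.toNat_le_toNat (hG.mono h1 h2)
  have hN : (0 : ℝ) < (H M).toNat := by
    rw [c M hM]
    exact_mod_cast hG.pos M hM
  have hB := hG.one
  set N : ℝ := ((H M).toNat : ℝ) with hNd
  set A : ℝ := B * (M : ℝ) ^ (k - 1) with hA
  have A0 : 0 ≤ A := by positivity
  have key : ∀ m, n₀ ≤ m → m ≤ M → ‖∑ n ∈ Ico n₀ m, Fw H M β n -
      ∑ u ∈ Ico (H n₀).toNat (H m).toNat, phi_ar N β u‖ ≤
        (1 / N + 7 * |β|) * A * ((H m).toNat - (H n₀).toNat) := by
    intro m hm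
    induction m, hm using Nat.le_induction with
    | base => simp
    | succ m hm ih =>
      intro h1
      have h2 : m ≤ M := by omega
      have h3 := block_ar (β := β) (A := A) hN (mono m (m + 1) hm m.le_succ)
        (Nat.cast_le.2 (mono m M hm h2)) (by
          have h4 := hG.step m hm
          have h5 : (m : ℝ) ^ (k - 1) ≤ (M : ℝ) ^ (k - 1) :=
            pow_le_pow_left₀ (Nat.cast_nonneg m) (Nat.cast_le.2 h2) _
          rw [c _ hm, c _ (by omega : n₀ ≤ m + 1)]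
          push_cast at h4
          exact h4.trans (mul_le_mul_of_nonneg_left h5 (by linarith)))
      have e : Fw H M β m = ((((H (m + 1)).toNat : ℝ) - (H m).toNat : ℝ) : ℂ) *
          phi_ar N β (H m).toNat := by
        rw [hNd, c _ hm, c _ (by omega : n₀ ≤ m + 1), c M hM, Fw, Wt, phi_ar]
        push_cast
        ring
      rw [sum_Ico_succ_top hm, ← sum_Ico_consecutive _ (mono n₀ m le_rfl hm)
        (mono m (m + 1) hm m.le_succ), add_sub_add_comm, e]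
      refine (norm_add_le _ _).trans ((add_le_add (ih h2) h3).trans (le_of_eq ?_))
      ring
  have h1 := key M hM le_rfl
  have h2 : ‖∑ u ∈ range (H n₀).toNat, phi_ar N β u‖ ≤ B * (n₀ : ℝ) ^ k := by
    refine (norm_sum_le _ _).trans ((sum_le_card_nsmul _ _ 1 fun u hu => ?_).trans ?_)
    · exact norm_ar hN (Nat.cast_nonneg u)
        (Nat.cast_le.2 ((mem_range.1 hu).le.trans (mono n₀ M le_rfl hM)))
    · rw [card_range, nsmul_eq_mul, mul_one, c _ le_rfl]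
      exact hG.up n₀ le_rfl
  have h3 : (1 / N + 7 * |β|) * A * (N - (H n₀).toNat) ≤
      7 * B ^ 2 * (M : ℝ) ^ (k - 1) * (1 + |β| * (M : ℝ) ^ k) := by
    have a1 : N ≤ B * (M : ℝ) ^ k := by
      rw [hNd, c M hM]
      exact hG.up M hM
    have a2 : (1 / N + 7 * |β|) * A * N = A * (1 + 7 * (|β| * N)) := by field_simp
    have a3 : |β| * N ≤ |β| * (B * (M : ℝ) ^ k) := mul_le_mul_of_nonneg_left a1 (abs_nonneg β)
    calc _ ≤ (1 / N + 7 * |β|) * A * N :=
          mul_le_mul_of_nonneg_left (sub_le_self _ (Nat.cast_nonneg _)) (by positivity)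
      _ ≤ A * (7 * B + 7 * (|β| * (B * (M : ℝ) ^ k))) := by
          rw [a2]
          exact mul_le_mul_of_nonneg_left (by linarith) A0
      _ = _ := by rw [hA]; ring
  rw [← sum_range_add_sum_Ico _ (mono n₀ M le_rfl hM), Complex.add_re]
  have h4 := (abs_le.1 ((Complex.abs_re_le_norm _).trans h1)).1
  rw [Complex.sub_re] at h4
  linarith [Complex.re_le_norm (∑ u ∈ range (H n₀).toNat, phi_ar N β u)]

theorem fw_re (hG : Gro H k n₀ B) {M : ℕ} (hM : n₀ ≤ M) (β : ℝ) :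
    -(7 * B ^ 2 * (M : ℝ) ^ (k - 1) * (1 + |β| * (M : ℝ) ^ k) + B * (n₀ : ℝ) ^ k) ≤
      (∑ n ∈ Ico n₀ M, Fw H M β n).re := by
  have h1 := cmp_ar hG hM β
  have h2 : 0 ≤ (∑ u ∈ range (H M).toNat, phi_ar (H M).toNat β u).re := fejer _ β
  linarith

theorem tri_ar (N : ℝ) (n : ℕ) : ∑ u ∈ range n, (1 - (u : ℝ) / N) = n - n * (n - 1) / (2 * N) := by
  induction n with
  | zero => simp
  | succ n ih =>
    rw [sum_range_succ, ih]
    push_cast
    ring

theorem fw_zero (hG : Gro H k n₀ B) {M : ℕ} (hM : n₀ ≤ M) :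
    (M : ℝ) ^ k / (2 * B) - (7 * B ^ 2 * (M : ℝ) ^ (k - 1) + B * (n₀ : ℝ) ^ k) ≤
      (∑ n ∈ Ico n₀ M, Fw H M 0 n).re := by
  have h1 := cmp_ar hG hM 0
  have c : (((H M).toNat : ℕ) : ℝ) = H M := by
    rw [← Int.cast_natCast, Int.toNat_of_nonneg (hG.pos M hM).le]
  have hN : (0 : ℝ) < H M := by exact_mod_cast hG.pos M hM
  have hB := hG.one
  simp only [phi_ar, zero_mul, ee_zero, mul_one, Complex.re_sum, Complex.ofReal_re, tri_ar,
    abs_zero, add_zero, c] at h1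
  have h2 : (H M : ℝ) - H M * (H M - 1) / (2 * H M) = (H M + 1) / 2 := by
    field_simp
    ring
  have h3 : (M : ℝ) ^ k / (2 * B) ≤ H M / 2 := by
    rw [div_le_div_iff₀ (by linarith) two_pos]
    linarith [hG.low M hM]
  rw [Complex.re_sum]
  linarith

end Vale.Agent.P042.S
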