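import Vale.Agent.P042.S.Ee

/-! # P042 S/ArchA (TASK; helper names end with _aq; the plan also covers a sibling file): the archimedean place.
`gro_poly`: for `p : ℤ[X]` with `natDegree ≤ j` and positive coefficient at `j` there are `n₀, B` with `n ^ j ≤ B p(n)` and `p(n) ≤ B n ^ j` for `n ≥ n₀` (`eval_eq_sum_range'`: `|p(n) - c n ^ j| ≤ K n ^ (j - 1)`, or `Polynomial.isEquivalent_atTop_lead`);
apply it to `h`, `Δ h = taylor 1 h - h` (degree at most `k - 1`, coefficient `k c`), `Δ Δ h` (`taylor_coeff`, `hasseDeriv_coeff`).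
Write `a n = H (n + 1) - H n`, `φ u = (1 - u / H M) ee (β u)`, `‖φ u‖ ≤ 1` on `[0, H M]`, `‖φ u - φ v‖ ≤ (1 / H M + 7 |β|) |u - v|` (`ee_lip`), `Fw n = a n * φ (H n)`, `H` and `a` increase, `a n ≤ a M ≤ B M ^ (k - 1)`.
`fw_var`: `Fw M = 0`, `‖Fw (n + 1) - Fw n‖ ≤ (a (n + 1) - a n) + a M * Lip * (H (n + 1) - H n)`, telescope (`Finset.sum_Ico_sub`-like induction).
`fw_re`: `∑ n ∈ Ico n₀ M, a n φ (H n)` differs from `∑ u ∈ Ico (H n₀) (H M), φ u` (blocks `Ico (H n) (H (n + 1))`, induction on the upper end) by at most `Lip * a M * H M`; the terms `u < H n₀` cost `H n₀ ≤ B n₀ ^ k`; `fejer`.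
`fw_zero`: the same with `β = 0` and `∑ u < N, (1 - u / N) = (N + 1) / 2`. -/

namespace Vale.Agent.P042.S

open Finset Polynomial

variable {H : ℕ → ℤ} {k n₀ : ℕ} {B : ℝ}

theorem Gro.mono (hG : Gro H k n₀ B) {m n : ℕ} (hm : n₀ ≤ m) (hmn : m ≤ n) : H m ≤ H n := by
  induction n, hmn using Nat.le_induction with
  | base => exact le_rfl
  | succ n hn ih => exact ih.trans (hG.inc n (hm.trans hn)).le

theorem step_mono_aq (hG : Gro H k n₀ B) {m n : ℕ} (hm : n₀ ≤ m) (hmn : m ≤ n) :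
    H (m + 1) - H m ≤ H (n + 1) - H n := by
  induction n, hmn using Nat.le_induction with
  | base => exact le_rfl
  | succ n hn ih => exact ih.trans (hG.conv n (hm.trans hn))

theorem cut_aq (hG : Gro H k n₀ B) {M n : ℕ} (hn : n₀ ≤ n) (hM : n ≤ M) :
    0 ≤ 1 - (H n : ℝ) / H M ∧ 1 - (H n : ℝ) / H M ≤ 1 := by
  have h1 : (0 : ℝ) < H n := by exact_mod_cast hG.pos n hn
  have h2 : (H n : ℝ) ≤ H M := by exact_mod_cast hG.mono hn hM
  have h3 : (H n : ℝ) / H M ≤ 1 := (div_le_one (h1.trans_le h2)).2 h2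
  have h4 : 0 ≤ (H n : ℝ) / H M := div_nonneg h1.le (h1.le.trans h2)
  constructor <;> linarith

theorem diff_aq {a a' s s' A δ : ℝ} {z z' : ℂ} (hz : ‖z‖ = 1) (hz' : ‖z'‖ = 1) (ha : 0 ≤ a)
    (haa : a ≤ a') (hA : a ≤ A) (h0 : 0 ≤ s') (h1 : s' ≤ 1) (hs : s' ≤ s) (hδ : ‖z' - z‖ ≤ δ) :
    ‖((a' * s' : ℝ) : ℂ) * z' - ((a * s : ℝ) : ℂ) * z‖ ≤ a' - a + A * (δ + (s - s')) := by
  have e : ((a' * s' : ℝ) : ℂ) * z' - ((a * s : ℝ) : ℂ) * z =
      (((a' - a) * s' : ℝ) : ℂ) * z' + ((a * s' : ℝ) : ℂ) * (z' - z) -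
        ((a * (s - s') : ℝ) : ℂ) * z := by
    push_cast
    ring
  have hδ0 : 0 ≤ δ := (norm_nonneg _).trans hδ
  have b1 : 0 ≤ (a' - a) * s' := mul_nonneg (by linarith) h0
  have b2 : 0 ≤ a * s' := mul_nonneg ha h0
  have b3 : 0 ≤ a * (s - s') := mul_nonneg ha (by linarith)
  rw [e]
  refine (norm_sub_le _ _).trans ((add_le_add (norm_add_le _ _) le_rfl).trans ?_)
  rw [norm_mul, norm_mul, norm_mul, hz, hz', Complex.norm_of_nonneg b1, Complex.norm_of_nonneg b2,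
    Complex.norm_of_nonneg b3, mul_one, mul_one]
  have c1 : (a' - a) * s' ≤ a' - a := mul_le_of_le_one_right (by linarith) h1
  have c2 : a * s' * ‖z' - z‖ ≤ A * δ :=
    mul_le_mul ((mul_le_of_le_one_right ha h1).trans hA) hδ (norm_nonneg _) (ha.trans hA)
  have c3 : a * (s - s') ≤ A * (s - s') := mul_le_mul_of_nonneg_right hA (by linarith)
  linarith [mul_add A δ (s - s')]

theorem fw_norm (hG : Gro H k n₀ B) {M : ℕ} (hM : n₀ ≤ M) (β : ℝ) :
    ‖∑ n ∈ Ico n₀ M, Fw H M β n‖ ≤ B * (M : ℝ) ^ k := by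
  have h1 : ∀ n ∈ Ico n₀ M, ‖Fw H M β n‖ ≤ (H (n + 1) : ℝ) - H n := by
    intro n hn
    obtain ⟨h2, h3⟩ := mem_Ico.1 hn
    obtain ⟨h4, h5⟩ := cut_aq hG h2 h3.le
    have h6 : (0 : ℝ) ≤ (H (n + 1) : ℝ) - H n := by
      have : (H n : ℝ) < H (n + 1) := by exact_mod_cast hG.inc n h2
      linarith
    rw [Fw, Wt, norm_mul, norm_ee, mul_one, Int.cast_sub,
      Complex.norm_of_nonneg (mul_nonneg h6 h4)]
    exact mul_le_of_le_one_right h6 h5
  refine (norm_sum_le_of_le _ h1).trans ?_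
  rw [Finset.sum_Ico_sub (fun n => (H n : ℝ)) hM]
  have h7 : (0 : ℝ) < H n₀ := by exact_mod_cast hG.pos n₀ le_rfl
  linarith [hG.up M hM]

theorem fw_var (hG : Gro H k n₀ B) {M : ℕ} (hM : n₀ ≤ M) (β : ℝ) :
    ‖Fw H M β M‖ + ∑ n ∈ Ico n₀ M, ‖Fw H M β (n + 1) - Fw H M β n‖ ≤
      7 * B ^ 2 * (M : ℝ) ^ (k - 1) * (1 + |β| * (M : ℝ) ^ k) := by
  have hN : (0 : ℝ) < H M := by exact_mod_cast hG.pos M hM
  set A : ℝ := (H (M + 1) : ℝ) - H M with hA
  set g : ℕ → ℝ := fun n => ((H (n + 1) : ℝ) - H n) + A * ((7 * |β| + 1 / H M) * H n) with hg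
  have hpos : ∀ n, n₀ ≤ n → (0 : ℝ) ≤ (H (n + 1) : ℝ) - H n := by
    intro n hn
    have : (H n : ℝ) < H (n + 1) := by exact_mod_cast hG.inc n hn
    linarith
  have h1 : ∀ n ∈ Ico n₀ M, ‖Fw H M β (n + 1) - Fw H M β n‖ ≤ g (n + 1) - g n := by
    intro n hn
    obtain ⟨h2, h3⟩ := mem_Ico.1 hn
    obtain ⟨h4, h5⟩ := cut_aq hG (h2.trans (Nat.le_succ n)) (Nat.succ_le_of_lt h3)
    have h6 := hpos n h2
    have h7 : (H (n + 1) : ℝ) - H n ≤ (H (n + 1 + 1) : ℝ) - H (n + 1) := by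
      exact_mod_cast hG.conv n h2
    have h8 : (H (n + 1) : ℝ) - H n ≤ A := by
      rw [hA]
      exact_mod_cast step_mono_aq hG h2 h3.le
    have h9 : 1 - (H (n + 1) : ℝ) / H M ≤ 1 - (H n : ℝ) / H M := by
      have := div_le_div_of_nonneg_right (show (H n : ℝ) ≤ H (n + 1) by linarith) hN.le
      linarith
    have h10 : ‖ee (β * H (n + 1)) - ee (β * H n)‖ ≤ 7 * |β| * ((H (n + 1) : ℝ) - H n) := by
      refine (ee_lip _ _).trans (le_of_eq ?_)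
      rw [← mul_sub, abs_mul, abs_of_nonneg h6, mul_assoc]
    have h11 := diff_aq (norm_ee _) (norm_ee _) h6 h7 h8 h4 h5 h9 h10
    simp only [Fw, Wt, Int.cast_sub]
    refine h11.trans (le_of_eq ?_)
    simp only [hg]
    ring
  have h2 : Fw H M β M = 0 := by
    rw [Fw, Wt, div_self hN.ne', sub_self, mul_zero, Complex.ofReal_zero, zero_mul]
  rw [h2, norm_zero, zero_add]
  refine (sum_le_sum h1).trans ?_
  rw [Finset.sum_Ico_sub g hM]
  have hA0 : 0 ≤ A := hpos M hM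
  have hAB : A ≤ B * (M : ℝ) ^ (k - 1) := by
    have := hG.step M hM
    rwa [Int.cast_sub] at this
  have h3 : 0 ≤ g n₀ := by
    have h4 : (0 : ℝ) < H n₀ := by exact_mod_cast hG.pos n₀ le_rfl
    exact add_nonneg (hpos n₀ le_rfl) (by positivity)
  have h4 : g M = A * (2 + 7 * |β| * H M) := by
    simp only [hg]
    rw [← hA]
    field_simp
    ring
  have h5 : 2 + 7 * |β| * H M ≤ 7 * B * (1 + |β| * (M : ℝ) ^ k) := by
    have h6 := mul_le_mul_of_nonneg_left (hG.up M hM) (abs_nonneg β)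
    linarith [hG.one]
  have h6 : A * (2 + 7 * |β| * H M) ≤ B * (M : ℝ) ^ (k - 1) * (7 * B * (1 + |β| * (M : ℝ) ^ k)) :=
    mul_le_mul hAB h5 (by positivity) (hA0.trans hAB)
  linarith

end Vale.Agent.P042.S
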