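import Vale.Agent.P042.S.ArchA
import Vale.Agent.P042.S.Abel

/-! # P042 S/Arcs (TASK; helper names end with _ac; the plan also covers a sibling file): major and minor arcs.
`tk_eq`: `Tk θ = ∑ d ∈ Icc 1 R, ∑ n ∈ Ico n₀ M, (w d n * ee (θ₀ H n)) * Fw β n` for `θ = θ₀ + β` (`ee_add`, `sum_comm`).
`major`: for each `d`, `g = w d * ph h a q` has period `d q` and norm at most `d`; `abel` for `g - av (d q) g` with `per_partial`; `∑ d ≤ R, 2 d d q ≤ 2 R ^ 3 q`.
`sing`: terms with `¬ d ∣ q` vanish (`van`), for `d ∣ q` use `av_mul`; if `q ≤ R` the sum is the sum over all divisors (`pos`, `dec`, `q ^ (-c) ≤ 1`), else take `s = 0` and `dec`, `q ^ (-c) ≤ R ^ (-c)`; `0 ≤ C` from `dec` at `q = 1`.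
`minor`: `w d n = ∑ r < d, w d r * (d⁻¹ ∑ b < d, ee (b (n - r) / d))` (`sum_ee`, periodicity), so the initial sums of `w d n * ee (θ H n)` are at most `d * d * X`; `abel` with `Fw 0`.
`dichot`: if some sum is large apply `weyl (k - 1)` and `pd_poly` to `C θ * h.map (Int.castRingHom ℝ) + C η * X` (coefficient `θ lead` at `k ≥ 2`; `Ico` of naturals versus integers: `Finset.sum_nbij'` or `Nat.cast` image);
`q₀ = q₁ k! lead`, `a₀ = round (..)`, reduce the fraction (`Rat.num`, `Rat.den` of `a₀ / q₀`, `Rat.reduced`, `Rat.den_dvd`); `k! lead ≤ 2 ^ (k! lead) ≤ D ^ (k! lead)`. -/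

namespace Vale.Agent.P042.S

open Finset Polynomial

variable {h : ℤ[X]} {C c B : ℝ} {w : ℕ → ℤ → ℝ} {k n₀ : ℕ}

theorem per_ac (hw : Glob h C c w) {d q L : ℕ} (hd : d ∣ L) (hq : q ∣ L) (a : ℤ) :
    Function.Periodic (fun n => (w d n : ℂ) * ph h a q n) (L : ℤ) := by
  obtain ⟨x, hx⟩ := hd
  obtain ⟨y, hy⟩ := hq
  intro n
  have e1 : w d (n + L) = w d n := by
    have := (hw.per d).nat_mul x n
    rwa [hx, Nat.cast_mul, mul_comm (d : ℤ)]
  have e2 : ph h a q (n + L) = ph h a q n := by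
    have := (ph_per h a q).nat_mul y n
    rwa [hy, Nat.cast_mul, mul_comm (q : ℤ)]
  simp only [e1, e2]

theorem tk_ac (h : ℤ[X]) (w : ℕ → ℤ → ℝ) (n₀ M R q : ℕ) (a : ℤ) (β : ℝ) :
    Tk h w n₀ M R (a / q + β) =
      ∑ d ∈ Icc 1 R, ∑ n ∈ Ico n₀ M, (w d n * ph h a q n) * Fw (val h) M β n := by
  rw [sum_comm, Tk]
  refine sum_congr rfl fun n _ => ?_
  have e : ((a : ℝ) / q + β) * (val h n : ℝ) =
      ((a * h.eval (n : ℤ) : ℤ) : ℝ) / q + β * (val h n : ℝ) := by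
    rw [val]; push_cast; ring
  rw [e, ee_add, ← ph]
  push_cast
  rw [mul_sum, sum_mul]
  refine sum_congr rfl fun d _ => ?_
  rw [Fw]; ring

theorem red_ac (hw : Glob h C c w) (R : ℕ) {q : ℕ} (hq : 0 < q) (a : ℤ) :
    (∑ d ∈ Icc 1 R, av (d * q) fun n => w d n * ph h a q n) =
      ∑ d ∈ Icc 1 R with d ∣ q, av q fun n => w d n * ph h a q n := by
  rw [sum_filter]
  refine sum_congr rfl fun d hd => ?_
  have hd0 : 0 < d := (mem_Icc.1 hd).1
  split_ifs with h1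
  · rw [mul_comm d q]
    exact av_mul (per_ac hw h1 dvd_rfl a) hd0
  · exact hw.van d q hd0 hq h1 a

theorem major (hw : Glob h C c w) (hG : Gro (val h) k n₀ B) {M R q : ℕ} (hM : n₀ ≤ M) (hq : 0 < q)
    (a : ℤ) (β : ℝ) :
    ‖Tk h w n₀ M R (a / q + β) - (∑ d ∈ Icc 1 R, av (d * q) fun n => w d n * ph h a q n) *
      ∑ n ∈ Ico n₀ M, Fw (val h) M β n‖ ≤
      2 * (R : ℝ) ^ 3 * q * (7 * B ^ 2 * (M : ℝ) ^ (k - 1) * (1 + |β| * (M : ℝ) ^ k)) := by
  set V := 7 * B ^ 2 * (M : ℝ) ^ (k - 1) * (1 + |β| * (M : ℝ) ^ k) with hV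
  have hV0 : 0 ≤ V := by positivity
  rw [tk_ac, sum_mul, ← sum_sub_distrib]
  refine (norm_sum_le _ _).trans ?_
  have key : ∀ d ∈ Icc 1 R, ‖∑ n ∈ Ico n₀ M, (w d n * ph h a q n) * Fw (val h) M β n -
      (av (d * q) fun n => w d n * ph h a q n) * ∑ n ∈ Ico n₀ M, Fw (val h) M β n‖ ≤
      2 * (R : ℝ) ^ 2 * q * V := by
    intro d hd
    obtain ⟨hd0, hdR⟩ := mem_Icc.1 hd
    have hdR' : (d : ℝ) ≤ R := by exact_mod_cast hdR
    have hp := per_ac hw (dvd_mul_right d q) (dvd_mul_left q d) a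
    have hb : ∀ n, ‖(w d n : ℂ) * ph h a q n‖ ≤ d := fun n => by
      rw [norm_mul, norm_ph, mul_one, Complex.norm_real]
      exact hw.bd d hd0 n
    have h1 := abel (fun n => (w d n : ℂ) * ph h a q n - av (d * q) fun n => w d n * ph h a q n)
      (Fw (val h) M β) hM fun m _ _ => per_partial (Nat.mul_pos hd0 hq) hp hb n₀ m
    simp only [sub_mul] at h1
    rw [sum_sub_distrib, ← mul_sum] at h1
    refine h1.trans (mul_le_mul ?_ (fw_var hG hM β) (by positivity) (by positivity))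
    push_cast
    have h2 : (d : ℝ) * d ≤ R ^ 2 := by
      rw [sq]; exact mul_le_mul hdR' hdR' (by positivity) (by positivity)
    have h3 := mul_le_mul_of_nonneg_right h2 (Nat.cast_nonneg q : (0 : ℝ) ≤ q)
    linarith
  refine (sum_le_card_nsmul _ _ _ key).trans (le_of_eq ?_)
  rw [Nat.card_Icc, Nat.add_sub_cancel, nsmul_eq_mul]
  ring

theorem sing (hw : Glob h C c w) (hc : 0 < c) {R q : ℕ} (hR : 0 < R) (hq : 0 < q) {a : ℤ}
    (ha : IsCoprime a q) : 0 ≤ C ∧ ∃ s : ℝ, 0 ≤ s ∧ s ≤ C ∧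
      ‖(∑ d ∈ Icc 1 R, av (d * q) fun n => w d n * ph h a q n) - s‖ ≤ C * (R : ℝ) ^ (-c) := by
  have hC : 0 ≤ C := by
    have h1 := hw.dec 1 one_pos 0 (by simpa using isCoprime_one_right)
    rw [Nat.cast_one, Real.one_rpow, mul_one] at h1
    exact (sum_nonneg fun _ _ => norm_nonneg _).trans h1
  refine ⟨hC, ?_⟩
  have hdec := hw.dec q hq a ha
  rw [red_ac hw R hq a]
  rcases le_or_gt q R with hqR | hqR
  · have e : (Icc 1 R).filter (· ∣ q) = q.divisors := by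
      ext d
      simp only [mem_filter, mem_Icc, Nat.mem_divisors]
      exact ⟨fun h => ⟨h.2, hq.ne'⟩, fun h =>
        ⟨⟨Nat.pos_of_dvd_of_pos h.1 hq, (Nat.le_of_dvd hq h.1).trans hqR⟩, h.1⟩⟩
    obtain ⟨s, hs, hs'⟩ := hw.pos q hq a ha
    have h1 := (norm_sum_le _ _).trans hdec
    rw [hs', Complex.norm_real, Real.norm_of_nonneg hs] at h1
    have h2 : (q : ℝ) ^ (-c) ≤ 1 :=
      Real.rpow_le_one_of_one_le_of_nonpos (by exact_mod_cast hq) (by linarith)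
    refine ⟨s, hs, h1.trans (mul_le_of_le_one_right hC h2), ?_⟩
    rw [e, hs', sub_self, norm_zero]
    positivity
  · refine ⟨0, le_rfl, hC, ?_⟩
    rw [Complex.ofReal_zero, sub_zero]
    refine (norm_sum_le _ _).trans ((sum_le_sum_of_subset_of_nonneg (fun d hd => ?_)
      fun _ _ _ => norm_nonneg _).trans (hdec.trans (mul_le_mul_of_nonneg_left ?_ hC)))
    · exact Nat.mem_divisors.2 ⟨(mem_filter.1 hd).2, hq.ne'⟩
    · exact Real.rpow_le_rpow_of_nonpos (by exact_mod_cast hR) (by exact_mod_cast hqR.le)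
        (by linarith)

theorem sing_zero (hw : Glob h C c w) {R : ℕ} (hR : 0 < R) :
    (∑ d ∈ Icc 1 R, av (d * 1) fun n => w d n * ph h 0 1 n) = 1 := by
  rw [sum_eq_single 1]
  · have e : (fun n => (w 1 n : ℂ) * ph h 0 1 n) = fun _ => 1 := by
      funext n
      simp [hw.one, ph, ee_zero]
    rw [e, av_const (by norm_num)]
  · intro d hd h1
    exact hw.van d 1 (mem_Icc.1 hd).1 one_pos (fun h2 => h1 (Nat.dvd_one.1 h2)) 0
  · intro h1
    exact absurd (mem_Icc.2 ⟨le_rfl, hR⟩) h1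

end Vale.Agent.P042.S
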