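import Vale.Agent.P042.S.Ee

/-! # P042 S/AvA (TASK; helper names end with _aa; the plan also covers a sibling file): means of periodic functions.
`sum_perm`: `ZMod q` (`NeZero q`): `∑ t ∈ range q, g t = ∑ x : ZMod q, g x.val` (`Finset.sum_range`, `ZMod.finEquiv`, or `Finset.sum_nbij`),
`f n = f (n : ZMod q).val` by periodicity (`Function.Periodic.int_mul`, `ZMod.val_intCast`, `Int.emod_add_mul_ediv`), and `x ↦ n + m x` is a bijection (`ZMod.unitOfCoprime`, or
injectivity on `range q` of `t ↦ ((n + m t) % q).toNat` and `Finset.sum_bij`).  `av_mul`: induction on `m`, `Finset.sum_range_add` or `Finset.sum_range_succ_mul_comm`-like, and `av_shift`.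
`av_kill`: `p * av L F = ∑ t, av L (F (· + m t)) = av L (∑ t, ..)`.  `av_crt`: average `f₁ f₂` over the shifts `n + q₁ t`, `t < q₂` (`av_shift`, `sum_perm`), then `av_mul`.
`av_prog`: `av q f = av (q * s) f`, write `n = r + s n'` (`Finset.sum_range` of a product: `Nat.sum_range_mul`-like induction on `q`).
`ph_split`: Bezout `u q₁ + v q₂ = 1`, `a₁ = a v`, `a₂ = a u`. `ph_congr`, `ph_per`: `Polynomial.sub_dvd_eval_sub`, `ee_add_int`. -/

namespace Vale.Agent.P042.S

open Finset Polynomial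

theorem per_emod_aa {f : ℤ → ℂ} {q : ℕ} (hf : Function.Periodic f (q : ℤ)) (n : ℤ) :
    f (n % q) = f n := by
  have h := (hf.int_mul (n / q)) (n % q)
  rw [← h]
  congr 1
  have := Int.emod_add_mul_ediv n q
  push_cast
  linarith

theorem sum_perm {f : ℤ → ℂ} {q : ℕ} (hf : Function.Periodic f (q : ℤ)) {m : ℤ}
    (hm : IsCoprime m q) (n : ℤ) : ∑ t ∈ range q, f (n + m * t) = ∑ t ∈ range q, f t := by
  rcases Nat.eq_zero_or_pos q with rfl | hq
  · simp
  have hq' : (0 : ℤ) < q := by exact_mod_cast hq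
  have hnn : ∀ x : ℤ, 0 ≤ x % q := fun x => Int.emod_nonneg x hq'.ne'
  have hmap : ∀ t ∈ range q, ((n + m * (t : ℕ)) % q).toNat ∈ range q := by
    intro t _
    have h1 := Int.emod_lt_of_pos (n + m * (t : ℕ)) hq'
    have h2 := hnn (n + m * (t : ℕ))
    rw [mem_range]
    omega
  have hinj : ∀ a ∈ range q, ∀ b ∈ range q,
      ((n + m * (a : ℕ)) % q).toNat = ((n + m * (b : ℕ)) % q).toNat → a = b := by
    intro a ha b hb hab
    have h1 := hnn (n + m * (a : ℕ))
    have h2 := hnn (n + m * (b : ℕ))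
    have h3 : (n + m * (a : ℕ)) % q = (n + m * (b : ℕ)) % q := by omega
    have h4 : (q : ℤ) ∣ (n + m * (b : ℕ)) - (n + m * (a : ℕ)) := Int.ModEq.dvd h3
    have h5 : (q : ℤ) ∣ m * ((b : ℤ) - a) := by
      have : (n + m * (b : ℕ)) - (n + m * (a : ℕ)) = m * ((b : ℤ) - a) := by ring
      rwa [this] at h4
    have h6 : (q : ℤ) ∣ (b : ℤ) - a := hm.symm.dvd_of_dvd_mul_left h5
    rw [mem_range] at ha hb
    have h7 : (b : ℤ) - a = 0 := Int.eq_zero_of_abs_lt_dvd h6 (by rw [abs_lt]; constructor <;> omega)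
    omega
  refine Finset.sum_bij (fun t _ => ((n + m * (t : ℕ)) % q).toNat) hmap
    (fun a ha b hb hab => hinj a ha b hb hab) ?_ ?_
  · intro b hb
    obtain ⟨a, ha, hab⟩ := Finset.surj_on_of_inj_on_of_card_le
      (fun t (_ : t ∈ range q) => ((n + m * (t : ℕ)) % q).toNat) hmap
      (fun a b ha hb hab => hinj a ha b hb hab) le_rfl b hb
    exact ⟨a, ha, hab.symm⟩
  · intro a _
    rw [Int.toNat_of_nonneg (hnn _), per_emod_aa hf]

theorem av_shift {f : ℤ → ℂ} {q : ℕ} (hf : Function.Periodic f (q : ℤ)) (s : ℤ) :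
    (av q fun n => f (n + s)) = av q f := by
  unfold av
  rw [← sum_perm hf (m := 1) isCoprime_one_left s]
  congr 1
  refine Finset.sum_congr rfl fun t _ => ?_
  rw [one_mul, add_comm]

theorem av_neg {f : ℤ → ℂ} {q : ℕ} (hf : Function.Periodic f (q : ℤ)) :
    (av q fun n => f (-n)) = av q f := by
  unfold av
  rw [← sum_perm hf (m := -1) isCoprime_one_left.neg_left 0]
  congr 1
  refine Finset.sum_congr rfl fun t _ => ?_
  rw [neg_one_mul, zero_add]

theorem sum_mul_aa {f : ℤ → ℂ} {q : ℕ} (hf : Function.Periodic f (q : ℤ)) (m : ℕ) :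
    ∑ t ∈ range (q * m), f t = m * ∑ t ∈ range q, f t := by
  induction m with
  | zero => simp
  | succ m ih =>
    rw [Nat.mul_succ, Finset.sum_range_add, ih]
    have h := sum_perm hf (m := 1) isCoprime_one_left ((q * m : ℕ) : ℤ)
    have h2 : ∑ x ∈ range q, f ((q * m + x : ℕ) : ℤ) = ∑ t ∈ range q, f t := by
      rw [← h]
      refine Finset.sum_congr rfl fun t _ => ?_
      congr 1
      push_cast
      ring
    rw [h2]
    push_cast
    ring

theorem av_mul {f : ℤ → ℂ} {q m : ℕ} (hf : Function.Periodic f (q : ℤ)) (hm : 0 < m) :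
    av (q * m) f = av q f := by
  unfold av
  rw [sum_mul_aa hf]
  have hm' : (m : ℂ) ≠ 0 := by exact_mod_cast hm.ne'
  push_cast
  rw [mul_comm (q : ℂ) m, mul_div_mul_left _ _ hm']

theorem av_const {q : ℕ} (hq : 0 < q) (z : ℂ) : (av q fun _ => z) = z := by
  unfold av
  have hq' : (q : ℂ) ≠ 0 := by exact_mod_cast hq.ne'
  simp only [sum_const, card_range, nsmul_eq_mul]
  field_simp

theorem norm_av_le {f : ℤ → ℂ} {B : ℝ} (hB : 0 ≤ B) (hf : ∀ n, ‖f n‖ ≤ B) (q : ℕ) :
    ‖av q f‖ ≤ B := by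
  unfold av
  rcases Nat.eq_zero_or_pos q with rfl | hq
  · simpa using hB
  have hq' : (0 : ℝ) < q := by exact_mod_cast hq
  rw [norm_div, Complex.norm_natCast, div_le_iff₀ hq']
  calc ‖∑ n ∈ range q, f n‖ ≤ ∑ n ∈ range q, ‖f n‖ := norm_sum_le _ _
    _ ≤ ∑ _n ∈ range q, B := Finset.sum_le_sum fun n _ => hf n
    _ = B * q := by simp [mul_comm]

theorem av_kill {F : ℤ → ℂ} {L p : ℕ} (hF : Function.Periodic F (L : ℤ)) (hp : 0 < p) (m : ℤ)
    (h : ∀ n, ∑ t ∈ range p, F (n + m * t) = 0) : av L F = 0 := by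
  have hp' : (p : ℂ) ≠ 0 := by exact_mod_cast hp.ne'
  have h1 : ∑ t ∈ range p, (av L fun n => F (n + m * t)) = p * av L F := by
    rw [Finset.sum_congr rfl fun t _ => av_shift hF (m * (t : ℕ))]
    simp
  have h2 : ∑ t ∈ range p, (av L fun n => F (n + m * t)) = 0 := by
    unfold av
    rw [← Finset.sum_div, Finset.sum_comm]
    simp [h]
  rw [h2] at h1
  exact (mul_eq_zero.mp h1.symm).resolve_left hp'

end Vale.Agent.P042.S
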