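import Mathlib

/-! # P042 S/Circ (TASK; helper names end with _ci): exponential sums over a circle modulo `p`.
`circ_card`: `t ↦ (D (1 - t ^ 2) / (1 + t ^ 2), 2 D t / (1 + t ^ 2))` is injective on `1 + t ^ 2 ≠ 0` (`t = z.2 / (D + z.1)`), at most two `t` are excluded; upper bound: at most two `z.2` for each `z.1` (`sq_eq_sq_iff_eq_or_eq_neg`, or roots of `X ^ 2 - C c`).
`circ_line`: `2 (s.1 z.1 + s.2 z.2) = s.1 ^ 2 + s.2 ^ 2`; say `s.2 ≠ 0`, then `z.2` is determined by `z.1`, which is a root of a nonzero polynomial of degree at most two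
(`4 N X ^ 2 - 4 N s.1 X + N ^ 2 - 4 E s.2 ^ 2`, `N = s.1 ^ 2 + s.2 ^ 2`; `Polynomial.card_roots'`, `card_le_degree_of_subset_roots`).
`circ_sum`: `K γ = ∑ z ∈ circ, ψ (γ.1 z.1 + γ.2 z.2)`; `∑ γ, ‖K γ‖ ^ 4 = p ^ 2 * #{z₁ + z₂ = z₃ + z₄} ≤ 3 p ^ 2 |circ| ^ 2` (write `K γ ^ 2 = ∑ s, r s * ψ (γ · s)`, Parseval with `AddChar.sum_mulShift`, `ZMod.isPrimitive_stdAddChar`;
`∑ s, r s ^ 2 ≤ |circ| ^ 2 + 2 |circ| ^ 2`); rotations give `K ((b / D) • ζ) = K (b, 0)` for the `|circ|` different `ζ ∈ circ`. -/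

namespace Vale.Agent.P042.S

open Finset Polynomial

variable {p : ℕ} [Fact p.Prime]

/-- The circle. -/
def circ (E : ZMod p) : Finset (ZMod p × ZMod p) := univ.filter fun z => z.1 ^ 2 + z.2 ^ 2 = E

theorem quad_card_ci {a b c : ZMod p} (h : a ≠ 0 ∨ c ≠ 0) :
    (univ.filter fun t : ZMod p => a * t ^ 2 + b * t + c = 0).card ≤ 2 := by
  have hq : (C a * X ^ 2 + C b * X + C c : (ZMod p)[X]) ≠ 0 := by
    intro h0
    rcases h with h | h
    · have := congrArg (fun q : (ZMod p)[X] => q.coeff 2) h0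
      simp at this
      exact h this
    · have := congrArg (fun q : (ZMod p)[X] => q.coeff 0) h0
      simp at this
      exact h this
  refine le_trans (card_le_degree_of_subset_roots (p := C a * X ^ 2 + C b * X + C c) ?_)
    natDegree_quadratic_le
  intro t ht
  have ht' : a * t ^ 2 + b * t + c = 0 := by simpa using ht
  rw [mem_roots hq]
  simpa [IsRoot] using ht'

theorem sq_card_ci (c : ZMod p) : (univ.filter fun t : ZMod p => t ^ 2 = c).card ≤ 2 := by
  have h := quad_card_ci (p := p) (a := 1) (b := 0) (c := -c) (Or.inl one_ne_zero)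
  refine le_trans (le_of_eq ?_) h
  congr 1
  ext t
  simp only [mem_filter, mem_univ, true_and]
  constructor
  · intro h; linear_combination h
  · intro h; linear_combination h

theorem two_ne_ci (hp : p ≠ 2) : (2 : ZMod p) ≠ 0 := by
  intro h
  have h' : ((2 : ℕ) : ZMod p) = 0 := by exact_mod_cast h
  rw [ZMod.natCast_eq_zero_iff] at h'
  exact hp ((Nat.prime_dvd_prime_iff_eq Fact.out Nat.prime_two).1 h')

theorem mem_circ_ci {E : ZMod p} {z : ZMod p × ZMod p} : z ∈ circ E ↔ z.1 ^ 2 + z.2 ^ 2 = E := by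
  simp [circ]

theorem circ_card (hp : p ≠ 2) {D : ZMod p} (hD : D ≠ 0) :
    p ≤ (circ (D ^ 2)).card + 2 ∧ (circ (D ^ 2)).card ≤ 2 * p := by
  have h2 := two_ne_ci hp
  constructor
  · have hS : (univ.filter fun t : ZMod p => ¬ t ^ 2 = -1).card ≤ (circ (D ^ 2)).card := by
      refine card_le_card_of_injOn
        (fun t => (D * (1 - t ^ 2) / (1 + t ^ 2), 2 * D * t / (1 + t ^ 2))) ?_ ?_
      · intro t ht
        have ht' : ¬ t ^ 2 = -1 := by simpa using ht
        have h1 : 1 + t ^ 2 ≠ 0 := fun h => ht' (by linear_combination h)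
        rw [mem_coe, mem_circ_ci]
        field_simp
        ring
      · intro t ht u hu htu
        have ht' : ¬ t ^ 2 = -1 := by simpa using ht
        have hu' : ¬ u ^ 2 = -1 := by simpa using hu
        have h1 : 1 + t ^ 2 ≠ 0 := fun h => ht' (by linear_combination h)
        have h1' : 1 + u ^ 2 ≠ 0 := fun h => hu' (by linear_combination h)
        have key : ∀ v : ZMod p, 1 + v ^ 2 ≠ 0 →
            v = (2 * D * v / (1 + v ^ 2)) / (D + D * (1 - v ^ 2) / (1 + v ^ 2)) := by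
          intro v hv
          have : D + D * (1 - v ^ 2) / (1 + v ^ 2) = 2 * D / (1 + v ^ 2) := by
            field_simp
            ring
          rw [this]
          field_simp
        simp only [Prod.mk.injEq] at htu
        rw [key t h1, htu.1, htu.2, ← key u h1']
    have hc := card_filter_add_card_filter_not (s := (univ : Finset (ZMod p)))
      (fun t : ZMod p => t ^ 2 = -1)
    have h3 := sq_card_ci (p := p) (-1)
    rw [card_univ, ZMod.card] at hc
    omega
  · have h := card_le_mul_card_image_of_maps_to (s := circ (D ^ 2)) (t := (univ : Finset (ZMod p)))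
      (f := fun z => z.1) (fun _ _ => mem_univ _) 2 (by
        intro x _
        refine le_trans ?_ (sq_card_ci (D ^ 2 - x ^ 2))
        refine card_le_card_of_injOn (fun z => z.2) ?_ ?_
        · intro z hz
          simp only [coe_filter, Set.mem_ofPred_eq, mem_circ_ci, mem_univ, true_and] at hz ⊢
          rw [← hz.2]
          linear_combination hz.1
        · intro z hz w hw hzw
          simp only [coe_filter, Set.mem_ofPred_eq] at hz hw
          exact Prod.ext (hz.2.trans hw.2.symm) hzw)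
    rwa [card_univ, ZMod.card] at h

theorem circ_line (hp : p ≠ 2) {E : ZMod p} (hE : E ≠ 0) {s : ZMod p × ZMod p} (hs : s ≠ 0) :
    ((circ E).filter fun z => s - z ∈ circ E).card ≤ 2 := by
  have h2 := two_ne_ci hp
  have hlin : ∀ z ∈ (circ E).filter fun z => s - z ∈ circ E,
      z.1 ^ 2 + z.2 ^ 2 = E ∧ 2 * (s.1 * z.1 + s.2 * z.2) = s.1 ^ 2 + s.2 ^ 2 := by
    intro z hz
    simp only [mem_filter, mem_circ_ci, Prod.fst_sub, Prod.snd_sub] at hz
    exact ⟨hz.1, by linear_combination hz.1 - hz.2⟩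
  by_cases h0 : s.2 = 0
  · have h1 : s.1 ≠ 0 := fun h => hs (Prod.ext h h0)
    have hz1 : ∀ z ∈ (circ E).filter fun z => s - z ∈ circ E, z.1 = s.1 / 2 := by
      intro z hz
      have := (hlin z hz).2
      rw [h0] at this
      field_simp
      apply mul_left_cancel₀ h1
      linear_combination this
    refine le_trans ?_ (sq_card_ci (E - (s.1 / 2) ^ 2))
    refine card_le_card_of_injOn (fun z => z.2) ?_ ?_
    · intro z hz
      have h3 := (hlin z hz).1
      have h4 := hz1 z hz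
      simp only [coe_filter, Set.mem_ofPred_eq, mem_univ, true_and]
      rw [← h4]
      linear_combination h3
    · intro z hz w hw hzw
      exact Prod.ext ((hz1 z hz).trans (hz1 w hw).symm) hzw
  · have h4 : (4 : ZMod p) ≠ 0 := by
      have : (4 : ZMod p) = 2 * 2 := by norm_num
      rw [this]
      exact mul_ne_zero h2 h2
    have hN : 4 * (s.1 ^ 2 + s.2 ^ 2) ≠ 0 ∨ (s.1 ^ 2 + s.2 ^ 2) ^ 2 - 4 * E * s.2 ^ 2 ≠ 0 := by
      by_cases hN : s.1 ^ 2 + s.2 ^ 2 = 0
      · right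
        rw [hN]
        have := mul_ne_zero (mul_ne_zero h4 hE) (pow_ne_zero 2 h0)
        intro h
        apply this
        linear_combination -h
      · left
        exact mul_ne_zero h4 hN
    refine le_trans ?_ (quad_card_ci (b := -(4 * (s.1 ^ 2 + s.2 ^ 2) * s.1)) hN)
    refine card_le_card_of_injOn (fun z => z.1) ?_ ?_
    · intro z hz
      obtain ⟨h5, h6⟩ := hlin z hz
      simp only [coe_filter, Set.mem_ofPred_eq, mem_univ, true_and]
      linear_combination 4 * s.2 ^ 2 * h5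
        - (s.1 ^ 2 + s.2 ^ 2 - 2 * s.1 * z.1 + 2 * s.2 * z.2) * h6
    · intro z hz w hw hzw
      have h5 := (hlin z hz).2
      have h6 := (hlin w hw).2
      simp only at hzw
      refine Prod.ext hzw ?_
      apply mul_left_cancel₀ (mul_ne_zero h2 h0)
      rw [hzw] at h5
      linear_combination h5 - h6

theorem orth_ci (u : ZMod p × ZMod p) :
    ∑ g : ZMod p × ZMod p, ZMod.stdAddChar (g.1 * u.1 + g.2 * u.2) =
      if u = 0 then ((p : ℂ) ^ 2) else 0 := by
  simp_rw [AddChar.map_add_eq_mul]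
  rw [Fintype.sum_prod_type]
  dsimp only
  rw [← Finset.sum_mul_sum, AddChar.sum_mulShift _ (ZMod.isPrimitive_stdAddChar p),
    AddChar.sum_mulShift _ (ZMod.isPrimitive_stdAddChar p), ZMod.card]
  by_cases h1 : u.1 = 0
  · by_cases h2 : u.2 = 0
    · have : u = 0 := Prod.ext h1 h2
      simp [this, sq]
    · have : u ≠ 0 := fun h => h2 (by rw [h]; rfl)
      simp [this, h2]
  · have : u ≠ 0 := fun h => h1 (by rw [h]; rfl)
    simp [this, h1]

theorem parseval_ci (r : ZMod p × ZMod p → ℝ) :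
    ∑ g : ZMod p × ZMod p, ‖∑ s : ZMod p × ZMod p,
      (r s : ℂ) * ZMod.stdAddChar (g.1 * s.1 + g.2 * s.2)‖ ^ 2 = (p : ℝ) ^ 2 * ∑ s, r s ^ 2 := by
  have h : ∀ g : ZMod p × ZMod p, ((‖∑ s : ZMod p × ZMod p,
      (r s : ℂ) * ZMod.stdAddChar (g.1 * s.1 + g.2 * s.2)‖ ^ 2 : ℝ) : ℂ) =
      ∑ s : ZMod p × ZMod p, ∑ t : ZMod p × ZMod p,
        (r s : ℂ) * r t * ZMod.stdAddChar (g.1 * (s - t).1 + g.2 * (s - t).2) := by
    intro g
    rw [Complex.ofReal_pow, ← Complex.mul_conj', map_sum, Finset.sum_mul_sum]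
    refine sum_congr rfl fun s _ => sum_congr rfl fun t _ => ?_
    rw [map_mul, Complex.conj_ofReal, ← AddChar.map_neg_eq_conj]
    have : g.1 * (s - t).1 + g.2 * (s - t).2 =
        (g.1 * s.1 + g.2 * s.2) + -(g.1 * t.1 + g.2 * t.2) := by
      simp only [Prod.fst_sub, Prod.snd_sub]
      ring
    rw [this, AddChar.map_add_eq_mul (ψ := ZMod.stdAddChar) (g.1 * s.1 + g.2 * s.2)]
    ring
  apply Complex.ofReal_injective
  rw [Complex.ofReal_sum, sum_congr rfl fun g _ => h g, sum_comm]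
  push_cast
  rw [mul_sum]
  refine sum_congr rfl fun s _ => ?_
  rw [sum_comm]
  simp_rw [← mul_sum, orth_ci, sub_eq_zero]
  rw [sum_eq_single s]
  · simp only [if_true]
    ring
  · intro t _ ht
    rw [if_neg ht.symm, mul_zero]
  · intro h
    exact absurd (mem_univ s) h

theorem sqK_ci (S : Finset (ZMod p × ZMod p)) (g : ZMod p × ZMod p) :
    (∑ z ∈ S, ZMod.stdAddChar (g.1 * z.1 + g.2 * z.2)) ^ 2 =
      ∑ s : ZMod p × ZMod p, (((S.filter fun z => s - z ∈ S).card : ℝ) : ℂ) *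
        ZMod.stdAddChar (g.1 * s.1 + g.2 * s.2) := by
  have h1 : ∀ s : ZMod p × ZMod p, (((S.filter fun z => s - z ∈ S).card : ℝ) : ℂ) *
        ZMod.stdAddChar (g.1 * s.1 + g.2 * s.2) =
      ∑ z ∈ S, if s - z ∈ S then ZMod.stdAddChar (g.1 * s.1 + g.2 * s.2) else 0 := by
    intro s
    rw [← sum_filter, sum_const, nsmul_eq_mul]
    simp
  simp_rw [h1]
  rw [sum_comm, sq, Finset.sum_mul_sum]
  refine sum_congr rfl fun z _ => ?_
  rw [← Equiv.sum_comp (Equiv.addRight z)]
  simp only [Equiv.coe_addRight, add_sub_cancel_right]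
  rw [← sum_filter, filter_mem_eq_inter, univ_inter]
  refine sum_congr rfl fun w _ => ?_
  rw [← AddChar.map_add_eq_mul]
  congr 1
  simp only [Prod.fst_add, Prod.snd_add]
  ring

theorem sumr_ci (S : Finset (ZMod p × ZMod p)) :
    ∑ s : ZMod p × ZMod p, ((S.filter fun z => s - z ∈ S).card : ℝ) = (S.card : ℝ) ^ 2 := by
  have h := sqK_ci S 0
  simp only [Prod.fst_zero, Prod.snd_zero, zero_mul, add_zero, AddChar.map_zero_eq_one, mul_one,
    sum_const, nsmul_eq_mul] at h
  apply Complex.ofReal_injective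
  push_cast at h ⊢
  exact h.symm

theorem rot_ci {D b : ZMod p} (hD : D ≠ 0) {c : ZMod p × ZMod p} (hc : c ∈ circ (D ^ 2)) :
    ∑ z ∈ circ (D ^ 2), ZMod.stdAddChar ((b / D * c.1) * z.1 + (b / D * c.2) * z.2) =
      ∑ z ∈ circ (D ^ 2), ZMod.stdAddChar (b * z.1) := by
  rw [mem_circ_ci] at hc
  refine sum_nbij' (fun z => ((c.1 * z.1 + c.2 * z.2) / D, (c.1 * z.2 - c.2 * z.1) / D))
    (fun w => ((c.1 * w.1 - c.2 * w.2) / D, (c.2 * w.1 + c.1 * w.2) / D)) ?_ ?_ ?_ ?_ ?_
  · intro z hz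
    rw [mem_circ_ci] at hz ⊢
    field_simp
    linear_combination (z.1 ^ 2 + z.2 ^ 2) * hc + D ^ 2 * hz
  · intro z hz
    rw [mem_circ_ci] at hz ⊢
    field_simp
    linear_combination (z.1 ^ 2 + z.2 ^ 2) * hc + D ^ 2 * hz
  · intro z _
    refine Prod.ext ?_ ?_
    · field_simp
      linear_combination z.1 * hc
    · field_simp
      linear_combination z.2 * hc
  · intro z _
    refine Prod.ext ?_ ?_
    · field_simp
      linear_combination z.1 * hc
    · field_simp
      linear_combination z.2 * hc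
  · intro z _
    congr 1
    field_simp

theorem circ_sum (hp : p ≠ 2) {D b : ZMod p} (hD : D ≠ 0) (hb : b ≠ 0) :
    ‖∑ z ∈ circ (D ^ 2), ZMod.stdAddChar (b * z.1)‖ ^ 4 ≤ 6 * (p : ℝ) ^ 3 := by
  set S := circ (D ^ 2) with hS
  set r : ZMod p × ZMod p → ℝ := fun s => ((S.filter fun z => s - z ∈ S).card : ℝ) with hr
  set K : ZMod p × ZMod p → ℂ := fun g => ∑ z ∈ S, ZMod.stdAddChar (g.1 * z.1 + g.2 * z.2) with hK
  have hpos : (0 : ℝ) < S.card := by
    have : (D, 0) ∈ S := by rw [hS, mem_circ_ci]; simp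
    exact_mod_cast card_pos.2 ⟨_, this⟩
  have hle : (S.card : ℝ) ≤ 2 * p := by exact_mod_cast (circ_card hp hD).2
  have h4 : ∑ g, ‖K g‖ ^ 4 = (p : ℝ) ^ 2 * ∑ s, r s ^ 2 := by
    rw [← parseval_ci r]
    refine sum_congr rfl fun g _ => ?_
    rw [← sqK_ci S g, norm_pow]
    ring
  have hr2 : ∑ s, r s ^ 2 ≤ 3 * (S.card : ℝ) ^ 2 := by
    have h1 : ∀ s, r s ^ 2 ≤ (if s = 0 then (S.card : ℝ) ^ 2 else 0) + 2 * r s := by
      intro s
      have h0 : 0 ≤ r s := Nat.cast_nonneg _
      by_cases hs : s = 0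
      · rw [if_pos hs]
        have : r s ≤ S.card := by
          simp only [hr]
          exact_mod_cast card_filter_le _ _
        nlinarith
      · rw [if_neg hs]
        have : r s ≤ 2 := by
          simp only [hr]
          exact_mod_cast circ_line hp (pow_ne_zero 2 hD) hs
        nlinarith
    refine (sum_le_sum fun s _ => h1 s).trans ?_
    rw [sum_add_distrib, ← mul_sum, sumr_ci S, sum_ite_eq' univ (0 : ZMod p × ZMod p)]
    simp only [mem_univ, if_true]
    linarith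
  have hbD : b / D ≠ 0 := div_ne_zero hb hD
  have hinj : Set.InjOn (fun c : ZMod p × ZMod p => (b / D * c.1, b / D * c.2)) S := by
    intro c _ d _ h
    simp only [Prod.mk.injEq] at h
    exact Prod.ext (mul_left_cancel₀ hbD h.1) (mul_left_cancel₀ hbD h.2)
  have h5 : (S.card : ℝ) * ‖∑ z ∈ S, ZMod.stdAddChar (b * z.1)‖ ^ 4 ≤ ∑ g, ‖K g‖ ^ 4 := by
    refine le_trans (le_of_eq ?_) (sum_le_sum_of_subset_of_nonneg
      (subset_univ (S.image fun c : ZMod p × ZMod p => (b / D * c.1, b / D * c.2)))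
      (fun _ _ _ => by positivity))
    rw [sum_image hinj, ← nsmul_eq_mul, ← sum_const]
    refine sum_congr rfl fun c hc => ?_
    simp only [hK]
    rw [rot_ci hD hc]
  have hp2 : (0 : ℝ) ≤ (p : ℝ) ^ 2 := by positivity
  have h6 : (S.card : ℝ) * ‖∑ z ∈ S, ZMod.stdAddChar (b * z.1)‖ ^ 4 ≤
      (S.card : ℝ) * (6 * (p : ℝ) ^ 3) := by
    have h7 := mul_le_mul_of_nonneg_left hr2 hp2
    have h8 : (p : ℝ) ^ 2 * (3 * (S.card : ℝ) ^ 2) ≤ (S.card : ℝ) * (6 * (p : ℝ) ^ 3) := by
      have := mul_le_mul_of_nonneg_left hle (by positivity : (0 : ℝ) ≤ 3 * (p : ℝ) ^ 2 * S.card)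
      nlinarith
    linarith
  exact le_of_mul_le_mul_left h6 hpos

end Vale.Agent.P042.S
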