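import Vale.Agent.P042.S.Circ

/-! # P042 S/Conic (TASK; helper names end with _co): the conic `X ^ 2 + Y ^ 2 = 2 D ^ 2`.
`gauss_norm`: `‖G‖ ^ 2 = ∑ X, ∑ t, ψ (b ((X + t) ^ 2 - X ^ 2)) = ∑ t, ψ (b t ^ 2) ∑ X, ψ (2 b t X) = p` (`AddChar.sum_mulShift`, `ZMod.isPrimitive_stdAddChar`), or `gaussSum_sq`.
`conic_full`: with `r x = #{y | y ^ 2 = x} = 1 + χ x` (`quadraticChar_card_sqrts`, `ZMod.ringChar_zmod_n`) and `Δ = D ^ 2` the sum is `∑ v, r (Δ + v) r (Δ - v) ψ (b v)` (`sum_fiberwise`, `v = X ^ 2 - Δ`), and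
`r x * r y = r x + r y - 2 + r (x y)`; the four sums are two Gauss sums, zero, and `circ_sum` with `D ^ 2` in place of `D`; `√p ≤ p ^ (3 / 4)`, `6 ≤ 2 ^ 4`.
`conic`: the count by the bijection `(u, v) ↦ (u + v, u - v)` from `circ (D ^ 2)` and `circ_card`; at most four points have a zero coordinate; the swap of coordinates conjugates the sum (`AddChar.map_neg_eq_conj`). -/

namespace Vale.Agent.P042.S

open Finset Polynomial

variable {p : ℕ} [Fact p.Prime]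

theorem gauss_norm (hp : p ≠ 2) {b : ZMod p} (hb : b ≠ 0) :
    ‖∑ x : ZMod p, ZMod.stdAddChar (b * x ^ 2)‖ ^ 2 = p := by
  have h2 : (2 : ZMod p) ≠ 0 := Ring.two_ne_zero (by rwa [ZMod.ringChar_zmod_n])
  have key : (∑ x : ZMod p, ZMod.stdAddChar (b * x ^ 2)) *
      (starRingEnd ℂ) (∑ x : ZMod p, ZMod.stdAddChar (b * x ^ 2)) = p := by
    rw [map_sum, mul_sum]
    have e1 : ∀ X : ZMod p, (∑ x : ZMod p, ZMod.stdAddChar (b * x ^ 2)) *
        (starRingEnd ℂ) (ZMod.stdAddChar (b * X ^ 2)) =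
        ∑ t : ZMod p, ZMod.stdAddChar (b * t ^ 2) * ZMod.stdAddChar (X * (2 * b * t)) := fun X => by
      rw [← AddChar.map_neg_eq_conj, sum_mul, ← Equiv.sum_comp (Equiv.addLeft X)]
      refine sum_congr rfl fun t _ => ?_
      rw [← AddChar.map_add_eq_mul, ← AddChar.map_add_eq_mul, Equiv.coe_addLeft]
      congr 1; ring
    rw [sum_congr rfl fun X _ => e1 X, sum_comm]
    simp only [← mul_sum, AddChar.sum_mulShift _ (ZMod.isPrimitive_stdAddChar p)]
    rw [sum_eq_single 0 (fun t _ ht => by simp [h2, hb, ht]) (by simp)]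
    simp
  rw [Complex.mul_conj'] at key
  exact_mod_cast key

/-- The number of square roots. -/
noncomputable def r_co (x : ZMod p) : ℂ := ((univ.filter fun y : ZMod p => y ^ 2 = x).card : ℂ)

theorem r_eq_co (hp : p ≠ 2) (x : ZMod p) :
    r_co x = ((quadraticChar (ZMod p) x : ℤ) : ℂ) + 1 := by
  have := quadraticChar_card_sqrts (F := ZMod p) (by rwa [ZMod.ringChar_zmod_n]) x
  rw [Set.toFinset_ofPred] at this
  rw [r_co]
  exact_mod_cast congrArg (Int.cast : ℤ → ℂ) this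

theorem r_mul_co (hp : p ≠ 2) (x y : ZMod p) :
    r_co x * r_co y = r_co x + r_co y - 2 + r_co (x * y) := by
  simp only [r_eq_co hp, map_mul]
  push_cast
  ring

theorem sq_sum_co (f : ZMod p → ℂ) : ∑ X, f (X ^ 2) = ∑ w, r_co w * f w := by
  rw [← sum_fiberwise univ fun X : ZMod p => X ^ 2]
  refine sum_congr rfl fun w _ => ?_
  rw [sum_congr rfl fun X hX => congrArg f (mem_filter.1 hX).2, sum_const, r_co, nsmul_eq_mul]

theorem circ_sum_co (E : ZMod p) (f : ZMod p → ℂ) :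
    ∑ z ∈ circ E, f z.1 = ∑ X, r_co (E - X ^ 2) * f X := by
  rw [circ, sum_filter, Fintype.sum_prod_type]
  refine sum_congr rfl fun X _ => ?_
  dsimp only
  rw [← sum_filter, sum_const, r_co, nsmul_eq_mul]
  congr 3
  exact filter_congr fun y _ => eq_sub_iff_add_eq'.symm

theorem one_le_co : (1 : ℝ) ≤ (p : ℝ) ^ (3 / 4 : ℝ) :=
  Real.one_le_rpow (by exact_mod_cast (Fact.out : p.Prime).one_le) (by norm_num)

theorem gauss_le_co (hp : p ≠ 2) {b : ZMod p} (hb : b ≠ 0) (c : ZMod p) :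
    ‖∑ x : ZMod p, ZMod.stdAddChar (b * x ^ 2 + c)‖ ≤ (p : ℝ) ^ (3 / 4 : ℝ) := by
  have h1 : (1 : ℝ) ≤ p := by exact_mod_cast (Fact.out : p.Prime).one_le
  simp only [AddChar.map_add_eq_mul, ← sum_mul, norm_mul, AddChar.norm_apply, mul_one]
  refine (pow_le_pow_iff_left₀ (norm_nonneg _) (by positivity) two_ne_zero).1 ?_
  rw [gauss_norm hp hb, ← Real.rpow_natCast, ← Real.rpow_mul (by positivity)]
  exact Real.self_le_rpow_of_one_le h1 (by norm_num)

theorem conic_full (hp : p ≠ 2) {D b : ZMod p} (hD : D ≠ 0) (hb : b ≠ 0) :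
    ‖∑ z ∈ circ (2 * D ^ 2), ZMod.stdAddChar (b * (z.1 ^ 2 - D ^ 2))‖ ≤ 4 * (p : ℝ) ^ (3 / 4 : ℝ) := by
  have e1 : ∑ v, r_co (D ^ 2 + v) * ZMod.stdAddChar (b * v) =
      ∑ x : ZMod p, ZMod.stdAddChar (b * x ^ 2 + -(b * D ^ 2)) := by
    rw [sq_sum_co fun w => ZMod.stdAddChar (b * w + -(b * D ^ 2)),
      ← Equiv.sum_comp (Equiv.addLeft (D ^ 2)) fun w =>
        r_co w * ZMod.stdAddChar (b * w + -(b * D ^ 2))]
    refine sum_congr rfl fun v _ => ?_
    rw [Equiv.coe_addLeft]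
    congr 2; ring
  have e2 : ∑ v, r_co (D ^ 2 - v) * ZMod.stdAddChar (b * v) =
      ∑ x : ZMod p, ZMod.stdAddChar (-b * x ^ 2 + b * D ^ 2) := by
    rw [sq_sum_co fun w => ZMod.stdAddChar (-b * w + b * D ^ 2),
      ← Equiv.sum_comp (Equiv.subLeft (D ^ 2)) fun w =>
        r_co w * ZMod.stdAddChar (-b * w + b * D ^ 2)]
    refine sum_congr rfl fun v _ => ?_
    rw [Equiv.subLeft_apply]
    congr 2; ring
  have e3 : ∑ v, ZMod.stdAddChar (b * v) = 0 := by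
    simp only [mul_comm b, AddChar.sum_mulShift _ (ZMod.isPrimitive_stdAddChar p)]
    simp [hb]
  have e4 : ∑ z ∈ circ (2 * D ^ 2), ZMod.stdAddChar (b * (z.1 ^ 2 - D ^ 2)) =
      ∑ v, r_co (D ^ 2 + v) * r_co (D ^ 2 - v) * ZMod.stdAddChar (b * v) := by
    rw [circ_sum_co _ fun X => ZMod.stdAddChar (b * (X ^ 2 - D ^ 2)),
      sq_sum_co fun w => r_co (2 * D ^ 2 - w) * ZMod.stdAddChar (b * (w - D ^ 2)),
      ← Equiv.sum_comp (Equiv.addLeft (D ^ 2))]
    refine sum_congr rfl fun v _ => ?_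
    rw [Equiv.coe_addLeft, mul_assoc]
    congr 3 <;> ring
  have e5 : ∑ v, r_co ((D ^ 2 + v) * (D ^ 2 - v)) * ZMod.stdAddChar (b * v) =
      ∑ z ∈ circ ((D ^ 2) ^ 2), ZMod.stdAddChar (b * z.1) := by
    rw [circ_sum_co _ fun X => ZMod.stdAddChar (b * X)]
    refine sum_congr rfl fun v _ => ?_
    congr 2; ring
  have e6 : ‖∑ z ∈ circ ((D ^ 2) ^ 2), ZMod.stdAddChar (b * z.1)‖ ≤ 2 * (p : ℝ) ^ (3 / 4 : ℝ) := by
    refine (pow_le_pow_iff_left₀ (norm_nonneg _) (by positivity) four_ne_zero).1 ?_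
    refine (circ_sum hp (pow_ne_zero 2 hD) hb).trans ?_
    rw [mul_pow, ← Real.rpow_natCast (_ ^ _), ← Real.rpow_mul (by positivity)]
    norm_num
    have : (0 : ℝ) ≤ (p : ℝ) ^ 3 := by positivity
    linarith
  rw [e4]
  simp only [r_mul_co hp, add_mul (_ : ℂ), sub_mul (_ : ℂ), sum_add_distrib, sum_sub_distrib,
    ← mul_sum]
  rw [e1, e2, e3, e5, mul_zero, sub_zero]
  have g1 := gauss_le_co hp hb (-(b * D ^ 2))
  have g2 := gauss_le_co hp (neg_ne_zero.2 hb) (b * D ^ 2)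
  exact norm_add₃_le.trans (by linarith)

/-- The conic without its points on the axes. -/
def con (D : ZMod p) : Finset (ZMod p × ZMod p) :=
  (circ (2 * D ^ 2)).filter fun z => z.1 ≠ 0 ∧ z.2 ≠ 0

theorem roots_co (c : ZMod p) : (univ.filter fun y : ZMod p => y ^ 2 = c).card ≤ 2 := by
  by_cases h : ∃ y : ZMod p, y ^ 2 = c
  · obtain ⟨y, rfl⟩ := h
    refine (card_le_card fun x hx => ?_).trans (card_le_two (a := y) (b := -y))
    simpa using sq_eq_sq_iff_eq_or_eq_neg.1 (mem_filter.1 hx).2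
  · rw [filter_eq_empty_iff.2 fun y _ hy => h ⟨y, hy⟩]
    simp

theorem axes_co (E : ZMod p) : ((circ E).filter fun z => ¬ (z.1 ≠ 0 ∧ z.2 ≠ 0)).card ≤ 4 := by
  have : ((circ E).filter fun z => ¬ (z.1 ≠ 0 ∧ z.2 ≠ 0)) ⊆
      ((univ.filter fun y : ZMod p => y ^ 2 = E).image fun y => (0, y)) ∪
        ((univ.filter fun y : ZMod p => y ^ 2 = E).image fun y => (y, 0)) := by
    rintro ⟨x, y⟩ hz
    obtain ⟨h1, h2⟩ := mem_filter.1 hz
    replace h1 := (mem_filter.1 h1).2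
    by_cases hx : x = 0
    · subst hx
      exact mem_union_left _ (mem_image.2 ⟨y, by simpa using h1, rfl⟩)
    · obtain rfl : y = 0 := by_contra fun hy => h2 ⟨hx, hy⟩
      exact mem_union_right _ (mem_image.2 ⟨x, by simpa using h1, rfl⟩)
  refine (card_le_card this).trans ((card_union_le _ _).trans ?_)
  exact add_le_add (card_image_le.trans (roots_co E)) (card_image_le.trans (roots_co E))

theorem conic (hp : p ≠ 2) {D : ZMod p} (hD : D ≠ 0) : p ≤ (con D).card + 6 ∧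
    ∀ b : ZMod p, b ≠ 0 → ∃ κ : ℝ, |κ| ≤ 8 * (p : ℝ) ^ (3 / 4 : ℝ) ∧
      ∑ z ∈ con D, ZMod.stdAddChar (b * (z.1 ^ 2 - D ^ 2)) = κ := by
  have h2 : (2 : ZMod p) ≠ 0 := Ring.two_ne_zero (by rwa [ZMod.ringChar_zmod_n])
  have hax := axes_co (2 * D ^ 2)
  refine ⟨?_, fun b hb => ?_⟩
  · have c1 := (circ_card hp hD).1
    have c2 : (circ (D ^ 2)).card ≤ (circ (2 * D ^ 2)).card := by
      refine card_le_card_of_injOn (fun z => (z.1 + z.2, z.1 - z.2)) (fun z hz => ?_) ?_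
      · have := (mem_filter.1 hz).2
        exact mem_filter.2 ⟨mem_univ _, by linear_combination 2 * this⟩
      · intro z _ z' _ h
        obtain ⟨a1, a2⟩ := Prod.mk.inj h
        exact Prod.ext (mul_left_cancel₀ h2 (by linear_combination a1 + a2))
          (mul_left_cancel₀ h2 (by linear_combination a1 - a2))
    have c3 := card_filter_add_card_filter_not (s := circ (2 * D ^ 2))
      fun z : ZMod p × ZMod p => z.1 ≠ 0 ∧ z.2 ≠ 0
    rw [con]
    omega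
  · have hs : ∀ z : ZMod p × ZMod p, z ∈ con D → z.swap ∈ con D := fun z hz => by
      obtain ⟨a1, a2⟩ := mem_filter.1 hz
      exact mem_filter.2 ⟨mem_filter.2 ⟨mem_univ _, (add_comm _ _).trans (mem_filter.1 a1).2⟩,
        a2.symm⟩
    have hc : (starRingEnd ℂ) (∑ z ∈ con D, ZMod.stdAddChar (b * (z.1 ^ 2 - D ^ 2))) =
        ∑ z ∈ con D, ZMod.stdAddChar (b * (z.1 ^ 2 - D ^ 2)) := by
      rw [map_sum]
      refine sum_nbij' Prod.swap Prod.swap hs hs (fun z _ => z.swap_swap) (fun z _ => z.swap_swap)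
        fun z hz => ?_
      have := (mem_filter.1 (mem_filter.1 hz).1).2
      rw [← AddChar.map_neg_eq_conj, Prod.fst_swap]
      congr 1
      linear_combination (-b) * this
    obtain ⟨κ, hκ⟩ := Complex.conj_eq_iff_real.1 hc
    refine ⟨κ, ?_, hκ⟩
    have f1 := conic_full hp hD hb
    rw [← sum_filter_add_sum_filter_not _ fun z : ZMod p × ZMod p => z.1 ≠ 0 ∧ z.2 ≠ 0,
      show (circ (2 * D ^ 2)).filter (fun z => z.1 ≠ 0 ∧ z.2 ≠ 0) = con D from rfl, hκ] at f1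
    have f2 : ‖∑ z ∈ (circ (2 * D ^ 2)).filter fun z => ¬ (z.1 ≠ 0 ∧ z.2 ≠ 0),
        ZMod.stdAddChar (b * (z.1 ^ 2 - D ^ 2))‖ ≤ 4 := by
      refine (norm_sum_le _ _).trans ?_
      simp only [AddChar.norm_apply, sum_const, nsmul_eq_mul, mul_one]
      exact_mod_cast hax
    have f3 := norm_le_add_norm_add (κ : ℂ) (∑ z ∈ (circ (2 * D ^ 2)).filter
      fun z => ¬ (z.1 ≠ 0 ∧ z.2 ≠ 0), ZMod.stdAddChar (b * (z.1 ^ 2 - D ^ 2)))
    rw [Complex.norm_real, Real.norm_eq_abs] at f3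
    linarith [one_le_co (p := p)]

end Vale.Agent.P042.S
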