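import Mathlib

/-! # P042 S/Defs: power saving for symmetric polynomials, definitions (FROZEN, owner helper37).
Overview: notes/P042S.md. -/

namespace Vale.Agent.P042.S

open Finset Polynomial

noncomputable section

def ee (x : ℝ) : ℂ := Complex.exp (2 * Real.pi * Complex.I * x)

/-- Mean over `0, …, L - 1`. -/
def av (L : ℕ) (f : ℤ → ℂ) : ℂ := (∑ n ∈ range L, f n) / L

/-- The phase `e(a h(n) / q)`. -/
def ph (h : ℤ[X]) (a : ℤ) (q : ℕ) (n : ℤ) : ℂ := ee (((a * h.eval n : ℤ) : ℝ) / q)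

/-- Nonnegative real number. -/
def NN (z : ℂ) : Prop := ∃ s : ℝ, 0 ≤ s ∧ z = s

/-- The `k`-th differences of `f` are those of `α n ^ k / k!`. -/
def PD : ℕ → ℝ → (ℤ → ℝ) → Prop
  | 0, α, f => ∀ n, f n = α
  | k + 1, α, f => ∀ t : ℤ, PD k (t * α) fun n => f (n + t) - f n

/-- Local weights: `D p i` is the `i`-th martingale difference of a weight at the prime `p`. -/
structure Loc (h : ℤ[X]) (C c : ℝ) (D : ℕ → ℕ → ℤ → ℝ) : Prop where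
  zero : ∀ p n, D p 0 n = 1
  per : ∀ p i, Function.Periodic (D p i) ((p ^ i : ℕ) : ℤ)
  mart : ∀ p : ℕ, p.Prime → ∀ i n, ∑ t ∈ range p, D p (i + 1) (n + ((p ^ i : ℕ) : ℤ) * t) = 0
  bd : ∀ p : ℕ, p.Prime → ∀ i n, |D p i n| ≤ (p ^ i : ℕ)
  pos : ∀ p : ℕ, p.Prime → ∀ (j : ℕ) (a : ℤ), IsCoprime a p →
    NN (∑ i ∈ range (j + 1), av (p ^ j) fun n => D p i n * ph h a (p ^ j) n)
  dec : ∀ p : ℕ, p.Prime → ∀ (j : ℕ) (a : ℤ), IsCoprime a p →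
    ∑ i ∈ range (j + 1), ‖av (p ^ j) fun n => D p i n * ph h a (p ^ j) n‖ ≤
      C * ((p ^ j : ℕ) : ℝ) ^ (-c)

/-- Global weights. -/
structure Glob (h : ℤ[X]) (C c : ℝ) (w : ℕ → ℤ → ℝ) : Prop where
  one : ∀ n, w 1 n = 1
  per : ∀ d, Function.Periodic (w d) (d : ℤ)
  bd : ∀ d, 0 < d → ∀ n, |w d n| ≤ d
  van : ∀ d q : ℕ, 0 < d → 0 < q → ¬ d ∣ q → ∀ a : ℤ,
    (av (d * q) fun n => w d n * ph h a q n) = 0
  pos : ∀ q : ℕ, 0 < q → ∀ a : ℤ, IsCoprime a q →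
    NN (∑ d ∈ q.divisors, av q fun n => w d n * ph h a q n)
  dec : ∀ q : ℕ, 0 < q → ∀ a : ℤ, IsCoprime a q →
    ∑ d ∈ q.divisors, ‖av q fun n => w d n * ph h a q n‖ ≤ C * (q : ℝ) ^ (-c)

/-- Growth, monotonicity and convexity of `H` from `n₀` on. -/
structure Gro (H : ℕ → ℤ) (k n₀ : ℕ) (B : ℝ) : Prop where
  one : 1 ≤ B
  npos : 0 < n₀
  pos : ∀ n, n₀ ≤ n → 0 < H n
  inc : ∀ n, n₀ ≤ n → H n < H (n + 1)
  conv : ∀ n, n₀ ≤ n → H (n + 1) - H n ≤ H (n + 2) - H (n + 1)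
  step : ∀ n, n₀ ≤ n → ((H (n + 1) - H n : ℤ) : ℝ) ≤ B * (n : ℝ) ^ (k - 1)
  low : ∀ n, n₀ ≤ n → (n : ℝ) ^ k ≤ B * H n
  up : ∀ n, n₀ ≤ n → (H n : ℝ) ≤ B * (n : ℝ) ^ k

/-- The archimedean weight. -/
def Wt (H : ℕ → ℤ) (M n : ℕ) : ℝ := ((H (n + 1) - H n : ℤ) : ℝ) * (1 - (H n : ℝ) / H M)

/-- The weight times a slowly varying phase. -/
def Fw (H : ℕ → ℤ) (M : ℕ) (β : ℝ) (n : ℕ) : ℂ := Wt H M n * ee (β * H n)

/-- The values of `h` on the natural numbers. -/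
def val (h : ℤ[X]) (n : ℕ) : ℤ := h.eval (n : ℤ)

/-- The kernel. -/
def Tk (h : ℤ[X]) (w : ℕ → ℤ → ℝ) (n₀ M R : ℕ) (θ : ℝ) : ℂ :=
  ∑ n ∈ Ico n₀ M, ((Wt (val h) M n * ∑ d ∈ Icc 1 R, w d n : ℝ) : ℂ) * ee (θ * val h n)

/-- Power saving for sets without differences `h(n)`, `n ≥ n₁`. -/
def Sav (h : ℤ[X]) (n₁ : ℕ) : Prop := ∃ c : ℝ, 0 < c ∧ ∃ C : ℝ, ∀ (N : ℕ) (A : Finset ℕ),
  A ⊆ Icc 1 N → (∀ a ∈ A, ∀ b ∈ A, ∀ n : ℕ, n₁ ≤ n → (a : ℤ) - b = h.eval (n : ℤ) → a = b) →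
    (A.card : ℝ) ≤ C * (N : ℝ) ^ (1 - c)

end

end Vale.Agent.P042.S
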