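import Vale.Agent.P042.S.Defs

/-! # P042 S/Ee: the exponential. -/

namespace Vale.Agent.P042.S

open Finset Polynomial

theorem norm_ee (x : ℝ) : ‖ee x‖ = 1 := by
  have : (2 * Real.pi * Complex.I * x : ℂ) = ((2 * Real.pi * x : ℝ) : ℂ) * Complex.I := by
    push_cast; ring
  rw [ee, this, Complex.norm_exp_ofReal_mul_I]

theorem ee_add (x y : ℝ) : ee (x + y) = ee x * ee y := by
  rw [ee, ee, ee, ← Complex.exp_add]; congr 1; push_cast; ring

theorem ee_zero : ee 0 = 1 := by simp [ee]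

theorem ee_int (a : ℤ) : ee a = 1 := by
  rw [ee, ← Complex.exp_int_mul_two_pi_mul_I a]
  congr 1; push_cast; ring

theorem ee_add_int (x : ℝ) (a : ℤ) : ee (x + a) = ee x := by rw [ee_add, ee_int, mul_one]

theorem ee_neg (x : ℝ) : ee (-x) = (starRingEnd ℂ) (ee x) := by
  rw [ee, ee, ← Complex.exp_conj]
  congr 1
  simp only [map_mul, Complex.conj_ofReal, Complex.conj_I, map_ofNat]
  push_cast; ring

theorem ee_nat_mul (n : ℕ) (x : ℝ) : ee (n * x) = ee x ^ n := by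
  rw [ee, ee, ← Complex.exp_nat_mul]; congr 1; push_cast; ring

theorem ee_sub_one (β : ℝ) : 4 * |β - round β| ≤ ‖ee β - 1‖ := by
  set δ := β - round β with hδ
  have e1 : ee β = Complex.exp (Complex.I * (2 * Real.pi * δ : ℝ)) := by
    rw [show β = δ + (round β : ℤ) by rw [hδ]; ring, ee_add_int, ee]
    congr 1; push_cast; ring
  have e2 : |δ| ≤ 1 / 2 := abs_sub_round β
  have e3 := Real.mul_abs_le_abs_sin (x := Real.pi * δ) (by
    rw [abs_mul, abs_of_pos Real.pi_pos]; nlinarith [Real.pi_pos])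
  rw [abs_mul, abs_of_pos Real.pi_pos, ← mul_assoc, div_mul_cancel₀ _ Real.pi_pos.ne'] at e3
  rw [e1, Complex.norm_exp_I_mul_ofReal_sub_one, Real.norm_eq_abs, abs_mul,
    show 2 * Real.pi * δ / 2 = Real.pi * δ by ring, abs_two]
  linarith

theorem ee_lip (x y : ℝ) : ‖ee x - ee y‖ ≤ 7 * |x - y| := by
  have h1 : ee x - ee y = ee y * (Complex.exp (Complex.I * (2 * Real.pi * (x - y) : ℝ)) - 1) := by
    have : ee x = ee y * ee (x - y) := by rw [← ee_add, add_sub_cancel]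
    rw [this, mul_sub, mul_one, ee, ee]
    congr 3; push_cast; ring
  rw [h1, norm_mul, norm_ee, one_mul]
  refine (Real.norm_exp_I_mul_ofReal_sub_one_le).trans ?_
  rw [Real.norm_eq_abs, abs_mul, abs_of_pos (by positivity : 0 < 2 * Real.pi)]
  exact mul_le_mul_of_nonneg_right (by linarith [Real.pi_lt_d2]) (abs_nonneg _)

theorem ee_tele (β : ℝ) (A : ℤ) (n : ℕ) :
    (ee β - 1) * ∑ s ∈ Ico A (A + n), ee (β * s) = ee (β * (A + n)) - ee (β * A) := by
  induction n with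
  | zero => simp
  | succ n ih =>
    have e : Ico A (A + ((n + 1 : ℕ) : ℤ)) = insert (A + n) (Ico A (A + n)) := by
      ext s; simp only [mem_Ico, mem_insert]; push_cast; omega
    rw [e, sum_insert (by simp), mul_add, ih]
    push_cast
    rw [show β * (A + (n + 1)) = β + β * (A + n) by ring, ee_add]
    ring

/-- Geometric sums. -/
theorem geom_ee (φ : ℝ) (x y : ℤ) : ‖∑ s ∈ Ico x y, ee (φ * s)‖ * |φ - round φ| ≤ 1 / 2 := by
  rcases le_or_gt y x with h | h
  · simp [Ico_eq_empty_of_le h]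
  obtain ⟨n, rfl⟩ : ∃ n : ℕ, y = x + n := ⟨(y - x).toNat, by omega⟩
  have h2 : ‖ee φ - 1‖ * ‖∑ s ∈ Ico x (x + n), ee (φ * s)‖ ≤ 2 := by
    rw [← norm_mul, ee_tele]
    refine (norm_sub_le _ _).trans ?_
    rw [norm_ee, norm_ee]; norm_num
  have h1 := ee_sub_one φ
  nlinarith [norm_nonneg (∑ s ∈ Ico x (x + n), ee (φ * s))]

/-- Orthogonality. -/
theorem sum_ee {q : ℕ} (hq : 0 < q) (a : ℤ) :
    ∑ t ∈ range q, ee ((t : ℝ) * (a / q)) = if (q : ℤ) ∣ a then (q : ℂ) else 0 := by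
  have h0 : (q : ℝ) ≠ 0 := by positivity
  simp only [ee_nat_mul]
  split_ifs with h
  · obtain ⟨b, rfl⟩ := h
    rw [show ((q * b : ℤ) : ℝ) / q = (b : ℤ) by push_cast; field_simp, ee_int]
    simp
  · have h1 : ee (a / q) ≠ 1 := fun h1 => h (by
      have h2 := ee_sub_one ((a : ℝ) / q)
      rw [h1, sub_self, norm_zero] at h2
      have h3 : (a : ℝ) / q = round ((a : ℝ) / q) :=
        sub_eq_zero.1 (abs_nonpos_iff.1 (by linarith))
      refine ⟨round ((a : ℝ) / q), ?_⟩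
      rw [div_eq_iff h0] at h3
      exact_mod_cast h3.trans (mul_comm _ _))
    rw [geom_sum_eq h1, ← ee_nat_mul, mul_div_cancel₀ _ h0, ee_int, sub_self, zero_div]

theorem norm_ph (h : ℤ[X]) (a : ℤ) (q : ℕ) (n : ℤ) : ‖ph h a q n‖ = 1 := norm_ee _

theorem NN.mul {z z' : ℂ} (h : NN z) (h' : NN z') : NN (z * z') := by
  obtain ⟨s, h1, rfl⟩ := h
  obtain ⟨s', h2, rfl⟩ := h'
  exact ⟨s * s', mul_nonneg h1 h2, by push_cast; ring⟩

end Vale.Agent.P042.S
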