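import Vale.Agent.P042.S.Av

/-! # P042 S/GlobA (TASK; helper names end with _ga; the plan also covers a sibling file): from local to global weights.
`gw D d n = ∏ p ∈ d.primeFactors, D p (d.factorization p) n` (a `Finsupp.prod`: `d.factorization.prod fun p i => D p i n`), multiplicative in `d` (`Nat.factorization_mul_of_coprime`, `Finsupp.prod_add_index_of_disjoint`).
`gw_van`: there is a prime `p` with `v_p(q) < v_p(d) = i + 1` (`Nat.factorization_le_iff_dvd`, `Nat.factorization_prime_le_iff_dvd`); `d = p ^ (i + 1) d'`, `q = p ^ j q'`, `j ≤ i`; `av_kill` with `m = p ^ i d' q'`: the other factors are `m`-periodic,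
and `t ↦ D p (i + 1) (n + p ^ i t)` is `p`-periodic, so `sum_perm` (with `d' q'` coprime to `p`) and `mart` apply.
`gw_mul`: divisors of a coprime product (`Nat.Coprime.sum_divisors_mul`-like: `Nat.divisors_mul`, `Nat.Coprime.mul_injOn_divisors`, or `Nat.Coprime.sum_divisors_mul_of_...`), `ph_split`, `av_crt`.
`Loc.glob`: induction `Nat.recOnPosPrimePosCoprime` (`Nat.sum_divisors_prime_pow`) gives positivity and the bound `∏ p ∈ q.primeFactors, max C 1` times `q ^ (-c)`; `prod_const_le` absorbs the product. -/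

namespace Vale.Agent.P042.S

open Finset Polynomial

/-- The global weight. -/
noncomputable def gw (D : ℕ → ℕ → ℤ → ℝ) (d : ℕ) (n : ℤ) : ℝ := d.factorization.prod fun p i => D p i n

variable {h : ℤ[X]} {C c : ℝ} {D : ℕ → ℕ → ℤ → ℝ}

theorem gw_coprime {d₁ d₂ : ℕ} (hd : d₁.Coprime d₂) (n : ℤ) :
    gw D (d₁ * d₂) n = gw D d₁ n * gw D d₂ n := by
  unfold gw
  rw [Nat.factorization_mul_of_coprime hd, Finsupp.prod_add_index_of_disjoint]
  exact hd.disjoint_primeFactors

theorem gw_pow (hL : Loc h C c D) {p : ℕ} (hp : p.Prime) (i : ℕ) (n : ℤ) :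
    gw D (p ^ i) n = D p i n := by
  unfold gw
  rw [hp.factorization_pow, Finsupp.prod_single_index (hL.zero p n)]

theorem per_dvd_ga {β : Type} {f : ℤ → β} {a b : ℤ} (hf : Function.Periodic f a) (hab : a ∣ b) :
    Function.Periodic f b := by
  obtain ⟨k, rfl⟩ := hab
  have := hf.int_mul k
  rwa [Int.cast_id, mul_comm] at this

theorem gw_per (hL : Loc h C c D) (d : ℕ) : Function.Periodic (gw D d) (d : ℤ) := by
  intro n
  unfold gw Finsupp.prod
  refine prod_congr rfl fun p _ => ?_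
  exact per_dvd_ga (hL.per p _) (Int.natCast_dvd_natCast.2 (Nat.ordProj_dvd d p)) n

theorem gw_bd (hL : Loc h C c D) {d : ℕ} (hd : 0 < d) (n : ℤ) : |gw D d n| ≤ d := by
  have h1 : (d : ℝ) = ∏ p ∈ d.factorization.support, ((p ^ d.factorization p : ℕ) : ℝ) := by
    rw [← Nat.cast_prod]
    exact congrArg _ (Nat.prod_factorization_pow_eq_self hd.ne').symm
  rw [h1]
  unfold gw Finsupp.prod
  rw [abs_prod]
  exact prod_le_prod (fun _ _ => abs_nonneg _) fun p hp =>
    hL.bd p (Nat.prime_of_mem_primeFactors hp) _ n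

theorem gw_van (hL : Loc h C c D) {d q : ℕ} (hd : 0 < d) (hq : 0 < q) (hdq : ¬ d ∣ q) (a : ℤ) :
    (av (d * q) fun n => gw D d n * ph h a q n) = 0 := by
  rw [← Nat.factorization_prime_le_iff_dvd hd.ne' hq.ne'] at hdq
  push Not at hdq
  obtain ⟨p, hp, hlt⟩ := hdq
  obtain ⟨i, hi⟩ : ∃ i, d.factorization p = i + 1 := ⟨d.factorization p - 1, by omega⟩
  obtain ⟨d', hd', hcd⟩ : ∃ d', d = p ^ (i + 1) * d' ∧ p.Coprime d' :=
    ⟨ordCompl[p] d, by rw [← hi]; exact (Nat.ordProj_mul_ordCompl_eq_self d p).symm,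
      Nat.coprime_ordCompl hp hd.ne'⟩
  obtain ⟨j, q', hj, hq', hcq⟩ : ∃ j q', j ≤ i ∧ q = p ^ j * q' ∧ p.Coprime q' :=
    ⟨q.factorization p, ordCompl[p] q, by omega, (Nat.ordProj_mul_ordCompl_eq_self q p).symm,
      Nat.coprime_ordCompl hp hq.ne'⟩
  have hF : Function.Periodic (fun n => (gw D d n : ℂ) * ph h a q n) ((d * q : ℕ) : ℤ) := by
    intro n
    have h1 := per_dvd_ga (gw_per hL d) (Int.natCast_dvd_natCast.2 (dvd_mul_right d q)) n
    have h2 := per_dvd_ga (ph_per h a q) (Int.natCast_dvd_natCast.2 (dvd_mul_left q d)) n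
    simp only [h1, h2]
  refine av_kill hF hp.pos ((p ^ i * (d' * q') : ℕ) : ℤ) fun n => ?_
  have hqm : q ∣ p ^ i * (d' * q') := by
    rw [hq']
    exact mul_dvd_mul (pow_dvd_pow p hj) (dvd_mul_left q' d')
  have hdm : d' ∣ p ^ i * (d' * q') := (dvd_mul_right d' q').mul_left _
  have hg : Function.Periodic (fun t : ℤ => (D p (i + 1) (n + ((p ^ i : ℕ) : ℤ) * t) : ℂ))
      (p : ℤ) := by
    intro t
    have := hL.per p (i + 1) (n + ((p ^ i : ℕ) : ℤ) * t)
    have e : n + ((p ^ i : ℕ) : ℤ) * (t + p) =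
        n + ((p ^ i : ℕ) : ℤ) * t + ((p ^ (i + 1) : ℕ) : ℤ) := by
      push_cast
      ring
    simp only [e, this]
  have hco : IsCoprime ((d' * q' : ℕ) : ℤ) (p : ℤ) :=
    Nat.isCoprime_iff_coprime.2 (Nat.Coprime.mul_right hcd hcq).symm
  have hs := sum_perm hg hco 0
  have hm : ∑ t ∈ range p, (D p (i + 1) (n + ((p ^ i : ℕ) : ℤ) * t) : ℂ) = 0 := by
    rw [← Complex.ofReal_sum, hL.mart p hp i n, Complex.ofReal_zero]
  have ht : ∀ t : ℕ, (gw D d (n + ((p ^ i * (d' * q') : ℕ) : ℤ) * t) : ℂ) *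
      ph h a q (n + ((p ^ i * (d' * q') : ℕ) : ℤ) * t) =
      (D p (i + 1) (n + ((p ^ i : ℕ) : ℤ) * (0 + ((d' * q' : ℕ) : ℤ) * t)) : ℂ) *
        (gw D d' n * ph h a q n) := fun t => by
    have h1 := per_dvd_ga (gw_per hL d') ((Int.natCast_dvd_natCast.2 hdm).mul_right (t : ℤ)) n
    have h2 := per_dvd_ga (ph_per h a q) ((Int.natCast_dvd_natCast.2 hqm).mul_right (t : ℤ)) n
    have e : n + ((p ^ i : ℕ) : ℤ) * (0 + ((d' * q' : ℕ) : ℤ) * t) =
        n + ((p ^ i * (d' * q') : ℕ) : ℤ) * t := by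
      push_cast
      ring
    rw [h2, e]
    conv_lhs => rw [hd', gw_coprime (hcd.pow_left _), gw_pow hL hp, h1]
    push_cast
    ring
  simp only [ht]
  rw [← sum_mul, hs, hm, zero_mul]

end Vale.Agent.P042.S
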