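import Vale.Agent.P042.S.Weyl
import Vale.Agent.P042.S.Av

/-! # P042 S/HuaA (TASK; helper names end with _ha; the plan also covers a sibling file): complete sums.
`hua_top`: apply `weyl k` and `pd_poly` to `p = C (1 / q) * P.map (Int.castRingHom ℝ)` on `Ico 0 (q m)`, `M = q m` (`av_mul`, `ph_per`) with `m > D ^ C`; the distance of `q₁ (k+1)! c / q` to `ℤ` is less than `1 / q`, so
`q ∣ q₁ (k+1)! c`; `(k+1)! ≤ 2 ^ (k+1)! ≤ D ^ (k+1)!`.
`hua_inv`: induction on `k`; with `s₁` from `hua_top`, `av_prog` gives `r` with `1 ≤ D * ‖av q fun n => ph P 1 q (r + s₁ n)‖`; `P' = (taylor r P).comp (C s₁ * X)` minus its monomial of degree `k + 1`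
(coefficient divisible by `q`, `ph_congr`; `comp_C_mul_X_coeff`) has degree at most `k`; so `q ∣ s₂ s₁ ^ (k+1) (taylor r P).coeff l` for `l ≥ 1`; go back with `taylor (-r)`
(`C q ∣ C s * T - C c`, `C_dvd_iff_dvd_coeff`, `taylor_taylor`, `taylor_C`; `taylor` is an algebra map `taylorAlgHom`).
`hua`: take `D = max 2 ‖av‖⁻¹`, `c = 1 / (C + 1)`. `hua_lead`: `ph h a q = ph (C a * h) 1 q`, `q ∣ s a lead` gives `q ≤ s |lead|`; `t = max 1 (q / |lead|)`. -/

namespace Vale.Agent.P042.S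

open Finset Polynomial

theorem sum_ha (g : ℤ → ℂ) (M : ℕ) : ∑ n ∈ Ico (0 : ℤ) M, g n = ∑ n ∈ range M, g n := by
  refine (sum_bij (fun (n : ℕ) _ => (n : ℤ)) (fun n hn => ?_) (fun a _ b _ h => ?_)
    (fun b hb => ?_) fun _ _ => rfl).symm
  · exact mem_Ico.2 ⟨Int.natCast_nonneg n, Int.ofNat_lt.2 (mem_range.1 hn)⟩
  · exact Int.natCast_inj.1 h
  · obtain ⟨h1, h2⟩ := mem_Ico.1 hb
    exact ⟨b.toNat, mem_range.2 (by omega), Int.toNat_of_nonneg h1⟩

theorem dvd_ha {q : ℕ} (hq : 0 < q) (N r : ℤ) (h : |(N : ℝ) / q - r| < 1 / q) : (q : ℤ) ∣ N := by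
  have h0 : (0 : ℝ) < q := Nat.cast_pos.2 hq
  rw [show (N : ℝ) / q - r = ((N - q * r : ℤ) : ℝ) / q by push_cast; field_simp, abs_div,
    abs_of_pos h0, div_lt_div_iff_of_pos_right h0, ← Int.cast_abs, ← Int.cast_one, Int.cast_lt,
    Int.abs_lt_one_iff, sub_eq_zero] at h
  exact ⟨r, h⟩

theorem top_ha {P : ℤ[X]} {k : ℕ} (hP : P.natDegree ≤ k) (r : ℤ) :
    (taylor r P).coeff k = P.coeff k := by
  rcases hP.lt_or_eq with h | h
  · rw [coeff_eq_zero_of_natDegree_lt h,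
      coeff_eq_zero_of_natDegree_lt (by rwa [natDegree_taylor])]
  · rw [← h, coeff_taylor_natDegree, coeff_natDegree]

theorem back_ha {P : ℤ[X]} {q s r : ℤ} (h : ∀ l, 1 ≤ l → q ∣ s * (taylor r P).coeff l) (l : ℕ)
    (hl : 1 ≤ l) : q ∣ s * P.coeff l := by
  have h1 : C q ∣ C s * taylor r P - C (s * (taylor r P).coeff 0) := by
    refine (C_dvd_iff_dvd_coeff _ _).2 fun i => ?_
    rw [coeff_sub, coeff_C_mul, coeff_C]
    split_ifs with hi
    · rw [hi, sub_self]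
      exact dvd_zero _
    · rw [sub_zero]
      exact h i (Nat.one_le_iff_ne_zero.2 hi)
  obtain ⟨W, hW⟩ := h1
  have h2 := congrArg (fun T => (taylor (-r) T).coeff l) hW
  simp only [map_sub, taylor_mul, taylor_C, taylor_taylor, neg_add_cancel, taylor_zero, coeff_sub,
    coeff_C_mul, coeff_C, if_neg (Nat.one_le_iff_ne_zero.1 hl), sub_zero] at h2
  exact ⟨_, h2⟩

theorem prog_ha {f : ℤ → ℂ} {q s : ℕ} (hf : Function.Periodic f (q : ℤ)) (hs : 0 < s) :
    ∃ r : ℤ, ‖av q f‖ ≤ ‖av q fun n => f (r + s * n)‖ := by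
  obtain ⟨r, -, hr⟩ := exists_max_image (range s) (fun r : ℕ => ‖av q fun n => f (r + s * n)‖)
    (nonempty_range_iff.2 hs.ne')
  refine ⟨r, ?_⟩
  rw [av_prog hf hs, norm_div, Complex.norm_natCast, div_le_iff₀ (Nat.cast_pos.2 hs)]
  refine (norm_sum_le _ _).trans ((sum_le_card_nsmul _ _ _ hr).trans (le_of_eq ?_))
  rw [card_range, nsmul_eq_mul, mul_comm]

theorem hua_top (k : ℕ) : ∃ C : ℕ, ∀ P : ℤ[X], P.natDegree ≤ k + 1 → ∀ q : ℕ, 0 < q → ∀ D : ℝ,
    2 ≤ D → 1 ≤ D * ‖av q (ph P 1 q)‖ →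
      ∃ s : ℕ, 0 < s ∧ (s : ℝ) ≤ D ^ C ∧ (q : ℤ) ∣ s * P.coeff (k + 1) := by
  obtain ⟨c, hc⟩ := weyl k
  refine ⟨c + (k + 1).factorial, fun P hP q hq D hD h => ?_⟩
  have hq0 : (0 : ℝ) < q := Nat.cast_pos.2 hq
  have hD0 : 0 < D := by linarith
  obtain ⟨m, hm⟩ := exists_nat_gt (D ^ c)
  have hm0 : (0 : ℝ) < m := lt_trans (by positivity) hm
  have hm1 : 0 < m := Nat.cast_pos.1 hm0
  have hM : 0 < q * m := Nat.mul_pos hq hm1
  have hM0 : (0 : ℝ) < (q * m : ℕ) := Nat.cast_pos.2 hM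
  have hd : (C (1 / (q : ℝ)) * P.map (Int.castRingHom ℝ)).natDegree ≤ k + 1 :=
    (natDegree_C_mul_le _ _).trans (natDegree_map_le.trans hP)
  have e : ∀ n : ℤ, ee ((C (1 / (q : ℝ)) * P.map (Int.castRingHom ℝ)).eval (n : ℝ)) =
      ph P 1 q n := fun n => by
    rw [ph, eval_mul, eval_C, eval_intCast_map, one_mul, one_div, div_eq_inv_mul]
    simp
  obtain ⟨q1, h1, h2, h3⟩ := hc _ _ (pd_poly (k + 1) _ hd) (q * m) 0 (q * m : ℕ) D hM
    (by rw [sub_zero]) hD (by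
      simp only [e]
      have a1 := av_mul (ph_per P 1 q) hm1
      rw [← a1, av, norm_div, Complex.norm_natCast, ← mul_div_assoc, le_div_iff₀ hM0, one_mul] at h
      rwa [sum_ha])
  refine ⟨q1 * (k + 1).factorial, Nat.mul_pos h1 (Nat.factorial_pos _), ?_, ?_⟩
  · rw [Nat.cast_mul, pow_add]
    refine mul_le_mul h2 (le_trans ?_ (pow_le_pow_left₀ zero_le_two hD _)) (Nat.cast_nonneg _)
      (by positivity)
    exact_mod_cast (Nat.lt_two_pow_self).le
  · have e2 : (q1 : ℝ) * ((k + 1).factorial *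
        (C (1 / (q : ℝ)) * P.map (Int.castRingHom ℝ)).coeff (k + 1)) =
        (((q1 * (k + 1).factorial : ℕ) * P.coeff (k + 1) : ℤ) : ℝ) / q := by
      rw [coeff_C_mul, coeff_map, eq_intCast]
      push_cast
      ring
    rw [e2] at h3
    refine dvd_ha hq _ _ (h3.trans_lt ?_)
    have a2 : ((q * m : ℕ) : ℝ) ≤ ((q * m : ℕ) : ℝ) ^ (k + 1) :=
      le_self_pow₀ (Nat.one_le_cast.2 hM) (Nat.succ_ne_zero k)
    refine (div_le_div_of_nonneg_left (by positivity) hM0 a2).trans_lt ?_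
    rw [div_lt_div_iff₀ hM0 hq0, Nat.cast_mul, one_mul, mul_comm]
    exact mul_lt_mul_of_pos_left hm hq0

theorem hua_inv (k : ℕ) : ∃ C : ℕ, ∀ P : ℤ[X], P.natDegree ≤ k → ∀ q : ℕ, 0 < q → ∀ D : ℝ,
    2 ≤ D → 1 ≤ D * ‖av q (ph P 1 q)‖ →
      ∃ s : ℕ, 0 < s ∧ (s : ℝ) ≤ D ^ C ∧ ∀ l, 1 ≤ l → (q : ℤ) ∣ s * P.coeff l := by
  induction k with
  | zero =>
    refine ⟨0, fun P hP q _ D _ _ => ⟨1, one_pos, by simp, fun l hl => ?_⟩⟩
    rw [coeff_eq_zero_of_natDegree_lt (by omega), mul_zero]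
    exact dvd_zero _
  | succ k ih =>
    obtain ⟨c1, h1⟩ := hua_top k
    obtain ⟨c2, h2⟩ := ih
    refine ⟨c2 + c1 * (k + 1), fun P hP q hq D hD h => ?_⟩
    have hD0 : 0 < D := by linarith
    obtain ⟨s1, a1, a2, a3⟩ := h1 P hP q hq D hD h
    obtain ⟨r, hr⟩ := prog_ha (ph_per P 1 q) a1
    have hT : (taylor r P).natDegree ≤ k + 1 := by rwa [natDegree_taylor]
    have a4 : (q : ℤ) ∣ (taylor r P).coeff (k + 1) * (s1 : ℤ) ^ (k + 1) := by
      rw [top_ha hP, pow_succ', ← mul_assoc, mul_comm (P.coeff _)]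
      exact a3.mul_right _
    have hc : ∀ l, l ≠ k + 1 → ((taylor r P).comp (C (s1 : ℤ) * X) - monomial (k + 1)
        ((taylor r P).coeff (k + 1) * (s1 : ℤ) ^ (k + 1))).coeff l =
        (taylor r P).coeff l * (s1 : ℤ) ^ l := fun l hl => by
      rw [coeff_sub, comp_C_mul_X_coeff, coeff_monomial, if_neg hl.symm, sub_zero]
    obtain ⟨s2, b1, b2, b3⟩ := h2 ((taylor r P).comp (C (s1 : ℤ) * X) - monomial (k + 1)
      ((taylor r P).coeff (k + 1) * (s1 : ℤ) ^ (k + 1)))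
      (natDegree_le_iff_coeff_eq_zero.2 fun l hl => by
        by_cases e : l = k + 1
        · rw [e, coeff_sub, comp_C_mul_X_coeff, coeff_monomial, if_pos rfl, sub_self]
        · rw [hc l e, coeff_eq_zero_of_natDegree_lt (by omega), zero_mul]) q hq D hD
      (h.trans (mul_le_mul_of_nonneg_left (hr.trans (le_of_eq (congrArg _ (congrArg _
        (funext fun n => ph_congr (by
          rw [one_mul, one_mul, eval_sub, eval_comp, taylor_eval, eval_mul, eval_C, eval_X,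
            eval_monomial, add_comm r, sub_sub_cancel]
          exact a4.mul_right _)))))) hD0.le))
    refine ⟨s2 * s1 ^ (k + 1), by positivity, ?_, back_ha (r := r) fun l hl => ?_⟩
    · rw [Nat.cast_mul, Nat.cast_pow, pow_add D, pow_mul]
      exact mul_le_mul b2 (pow_le_pow_left₀ (Nat.cast_nonneg _) a2 _) (by positivity)
        (by positivity)
    · rw [Nat.cast_mul, Nat.cast_pow, mul_assoc]
      rcases lt_trichotomy l (k + 1) with e | e | e
      · have b4 := b3 l hl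
        rw [hc l e.ne] at b4
        obtain ⟨j, hj⟩ := Nat.exists_eq_add_of_le e.le
        refine (b4.mul_right ((s1 : ℤ) ^ j)).trans (dvd_of_eq ?_)
        rw [hj]
        ring
      · rw [e, mul_comm ((s1 : ℤ) ^ _)]
        exact a4.mul_left _
      · rw [coeff_eq_zero_of_natDegree_lt (hT.trans_lt e), mul_zero, mul_zero]
        exact dvd_zero _

end Vale.Agent.P042.S
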