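import Vale.Agent.P042.S.ArchA
import Vale.Agent.P042.S.Abel

/-! # P042 S/Minor (TASK; helper names end with _mi; the plan also covers a sibling file): major and minor arcs.
`tk_eq`: `Tk θ = ∑ d ∈ Icc 1 R, ∑ n ∈ Ico n₀ M, (w d n * ee (θ₀ H n)) * Fw β n` for `θ = θ₀ + β` (`ee_add`, `sum_comm`).
`major`: for each `d`, `g = w d * ph h a q` has period `d q` and norm at most `d`; `abel` for `g - av (d q) g` with `per_partial`; `∑ d ≤ R, 2 d d q ≤ 2 R ^ 3 q`.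
`sing`: terms with `¬ d ∣ q` vanish (`van`), for `d ∣ q` use `av_mul`; if `q ≤ R` the sum is the sum over all divisors (`pos`, `dec`, `q ^ (-c) ≤ 1`), else take `s = 0` and `dec`, `q ^ (-c) ≤ R ^ (-c)`; `0 ≤ C` from `dec` at `q = 1`.
`minor`: `w d n = ∑ r < d, w d r * (d⁻¹ ∑ b < d, ee (b (n - r) / d))` (`sum_ee`, periodicity), so the partial sums of `w d n * ee (θ H n)` are at most `d * d * X`; `abel` with `Fw 0`.
`dichot`: if some sum is large apply `weyl (k - 1)` and `pd_poly` to `C θ * h.map (Int.castRingHom ℝ) + C η * X` (coefficient `θ lead` at `k ≥ 2`; `Ico` of naturals versus integers: `Finset.sum_nbij'` or `Nat.cast` image);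
`q₀ = q₁ k! lead`, `a₀ = round (..)`, reduce the fraction (`Rat.num`, `Rat.den` of `a₀ / q₀`, `Rat.reduced`, `Rat.den_dvd`); `k! lead ≤ 2 ^ (k! lead) ≤ D ^ (k! lead)`. -/

namespace Vale.Agent.P042.S

open Finset Polynomial

variable {h : ℤ[X]} {C c B : ℝ} {w : ℕ → ℤ → ℝ} {k n₀ : ℕ}

theorem exp_mi (hw : Glob h C c w) {d : ℕ} (hd : 0 < d) (n : ℕ) (x : ℝ) :
    (w d n : ℂ) * ee x = ∑ r ∈ range d, ∑ b ∈ range d,
      (w d r : ℂ) / d * ee (-(b * r / d)) * ee (x + b / d * n) := by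
  have d0 : (d : ℂ) ≠ 0 := Nat.cast_ne_zero.2 hd.ne'
  have e : ∀ r : ℕ, ∑ b ∈ range d, (w d r : ℂ) / d * ee (-(b * r / d)) * ee (x + b / d * n) =
      (w d r : ℂ) / d * (if (d : ℤ) ∣ (n : ℤ) - r then (d : ℂ) else 0) * ee x := fun r => by
    rw [← sum_ee hd, mul_sum, sum_mul]
    refine sum_congr rfl fun b _ => ?_
    rw [mul_assoc, mul_assoc, ← ee_add, ← ee_add]
    congr 2
    push_cast
    ring
  rw [sum_congr rfl fun r _ => e r, sum_eq_single (n % d)]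
  · have p := (hw.per d).nat_mul (n / d) (n % d : ℕ)
    rw [← Nat.cast_mul, ← Nat.cast_add, Nat.mod_add_div'] at p
    rw [if_pos (Nat.modEq_iff_dvd.1 (Nat.mod_modEq n d)), div_mul_cancel₀ _ d0, p]
  · intro r hr hn
    rw [if_neg fun h => hn ?_, mul_zero, zero_mul]
    rw [← Nat.mod_eq_of_lt (mem_range.1 hr)]
    exact Nat.modEq_iff_dvd.2 h
  · exact fun h => absurd (mem_range.2 (Nat.mod_lt _ hd)) h

theorem minor (hw : Glob h C c w) (hG : Gro (val h) k n₀ B) {M R : ℕ} (hM : n₀ ≤ M) (θ : ℝ) {X : ℝ}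
    (hX : ∀ (η : ℝ) (m : ℕ), m ≤ M → ‖∑ n ∈ Ico n₀ m, ee (θ * val h n + η * n)‖ ≤ X) :
    ‖Tk h w n₀ M R θ‖ ≤ (R : ℝ) ^ 3 * X * (7 * B ^ 2 * (M : ℝ) ^ (k - 1)) := by
  have X0 : 0 ≤ X := (norm_nonneg _).trans (hX 0 0 (Nat.zero_le _))
  have e : Tk h w n₀ M R θ = ∑ d ∈ Icc 1 R, ∑ n ∈ Ico n₀ M,
      (w d n * ee (θ * val h n)) * Fw (val h) M 0 n := by
    rw [Tk, sum_comm]
    refine sum_congr rfl fun n _ => ?_
    rw [← sum_mul, ← sum_mul, Fw, zero_mul, ee_zero]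
    push_cast
    ring
  have v := fw_var hG hM 0
  rw [abs_zero, zero_mul, add_zero, mul_one] at v
  rw [e]
  refine (norm_sum_le _ _).trans ((sum_le_card_nsmul _ _
    ((R : ℝ) ^ 2 * X * (7 * B ^ 2 * (M : ℝ) ^ (k - 1))) fun d hd => ?_).trans_eq (by
      rw [Nat.card_Icc, nsmul_eq_mul, Nat.add_sub_cancel]; ring))
  obtain ⟨d1, dR⟩ := mem_Icc.1 hd
  have d0 : (0 : ℝ) < d := Nat.cast_pos.2 d1
  refine (abel (B := (R : ℝ) ^ 2 * X) _ _ hM fun m _ hm => ?_).trans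
    (mul_le_mul_of_nonneg_left v (by positivity))
  rw [sum_congr rfl fun n _ => exp_mi hw d1 n _, sum_comm]
  refine (norm_sum_le _ _).trans ((sum_le_card_nsmul _ _ ((d : ℝ) * X) fun r _ => ?_).trans ?_)
  · rw [sum_comm]
    refine (norm_sum_le _ _).trans ((sum_le_card_nsmul _ _ X fun b _ => ?_).trans_eq (by
      rw [card_range, nsmul_eq_mul]))
    rw [← mul_sum, norm_mul, norm_mul, norm_ee, mul_one, norm_div, Complex.norm_real,
      Complex.norm_natCast]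
    exact (mul_le_mul ((div_le_one d0).2 (hw.bd d d1 r)) (hX _ m hm) (norm_nonneg _)
      zero_le_one).trans_eq (one_mul _)
  · have : (d : ℝ) ≤ R := Nat.cast_le.2 dR
    rw [card_range, nsmul_eq_mul, ← mul_assoc, ← sq]
    gcongr

end Vale.Agent.P042.S
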