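import Vale.Agent.P042.S.Arcs
import Vale.Agent.P042.S.Minor
import Vale.Agent.P042.S.Dich
import Vale.Agent.P042.S.Arch

/-! # P042 S/Kern (TASK; helper names end with _ke; the plan also covers a sibling file): the transfer theorem.
`kernel`: `K₀` from `dichot`, `D = R ^ 4`, `K = 8 K₀ + 4`, `M = R ^ K ≥ R ≥ n₀`, `c' = min c 1`, `R ^ (-1) ≤ R ^ (-c')`.  Minor case: `minor` with `X = M / D` gives `7 B ^ 2 M ^ k / R`.  Major case: `major` has error at most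
`2 R ^ 3 R ^ (4 K₀) * 7 B ^ 2 M ^ (k - 1) * 2 R ^ (4 K₀) ≤ 28 B ^ 2 M ^ k / R`; `sing`, `fw_norm`, `fw_re` (`n₀ ^ k ≤ n₀ ^ k M ^ (k - 1)`, `M ^ (k - 1) R ^ (4 K₀ + 1) ≤ M ^ k`).  At `θ = 0`: `major` with `q = 1`, `a = 0`, `β = 0`, `sing_zero`, `fw_zero`.
`Glob.sav`: `gro_poly`, `kernel`; for `R ≥ R₀` (with `C' R ^ (-c') ≤ 1 / (4 B)`) and `B (R ^ K) ^ k ≤ N`, `delsarte` gives `|A| ≤ 8 B C' N R ^ (-c')`.  Take `R = ⌊(N / B) ^ (1 / (K k))⌋₊ ≥ (N / B) ^ (1 / (K k)) / 2`;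
for small `N` (that is `R < R₀`, `N < B (R₀ ^ K) ^ k`) use `|A| ≤ N`.  Exponent `min c' 1 / (K k)`. -/

namespace Vale.Agent.P042.S

open Finset Polynomial

variable {h : ℤ[X]} {C c B : ℝ} {w : ℕ → ℤ → ℝ} {n₀ : ℕ}

theorem kernel (hw : Glob h C c w) (hc : 0 < c) (hk : 2 ≤ h.natDegree) (hl : 0 < h.leadingCoeff)
    (hG : Gro (val h) h.natDegree n₀ B) : ∃ (K : ℕ) (C' c' : ℝ), 0 < K ∧ 0 < C' ∧ 0 < c' ∧ c' ≤ 1 ∧
      ∀ R : ℕ, 2 ≤ R → n₀ ≤ R →
        (∀ θ : ℝ, -(C' * (R : ℝ) ^ (-c') * ((R : ℝ) ^ K) ^ h.natDegree) ≤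
          (Tk h w n₀ (R ^ K) R θ).re) ∧
        (1 / (2 * B) - C' * (R : ℝ) ^ (-c')) * ((R : ℝ) ^ K) ^ h.natDegree ≤
          (Tk h w n₀ (R ^ K) R 0).re := by
  obtain ⟨K₀, hK⟩ := dichot hk hl
  have hC : 0 ≤ C := (sing hw hc one_pos one_pos (a := 0) (by simp [isCoprime_one_right])).1
  have hB := hG.one
  have hn : (0 : ℝ) ≤ B * (n₀ : ℝ) ^ h.natDegree := by positivity
  refine ⟨8 * K₀ + 4, C * B + (C + 1) * (14 * B ^ 2 + B * (n₀ : ℝ) ^ h.natDegree) + 28 * B ^ 2,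
    min c 1, by omega, by positivity, lt_min hc one_pos, min_le_right _ _, fun R hR hn₀ => ?_⟩
  have hR1 : (1 : ℝ) ≤ R := by exact_mod_cast (by omega : 1 ≤ R)
  have hR2 : (2 : ℝ) ≤ R := by exact_mod_cast hR
  have hR0 : (0 : ℝ) < R := by linarith
  have hM : n₀ ≤ R ^ (8 * K₀ + 4) := hn₀.trans (Nat.le_self_pow (by omega) R)
  have hM0 : 0 < R ^ (8 * K₀ + 4) := by positivity
  obtain ⟨ρ, hρ⟩ : ∃ ρ, ρ = (R : ℝ) ^ (-min c 1) := ⟨_, rfl⟩
  have hρ1 : (R : ℝ)⁻¹ ≤ ρ := by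
    rw [hρ, ← Real.rpow_neg_one]
    exact Real.rpow_le_rpow_of_exponent_le hR1 (neg_le_neg (min_le_right _ _))
  have hρ2 : (R : ℝ) ^ (-c) ≤ ρ := by
    rw [hρ]
    exact Real.rpow_le_rpow_of_exponent_le hR1 (neg_le_neg (min_le_left _ _))
  have hρ0 : 0 ≤ ρ := le_trans (by positivity) hρ1
  rw [← hρ, ← Nat.cast_pow R]
  obtain ⟨E, hE⟩ : ∃ E, E = ((R : ℝ) ^ 4) ^ K₀ := ⟨_, rfl⟩
  have hE1 : 1 ≤ E := hE ▸ one_le_pow₀ (one_le_pow₀ hR1)
  have hME : ((R ^ (8 * K₀ + 4) : ℕ) : ℝ) = E ^ 2 * R ^ 4 := by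
    rw [hE]; push_cast; ring
  generalize R ^ (8 * K₀ + 4) = M at hM hM0 hME ⊢
  have hM1 : (1 : ℝ) ≤ M := by exact_mod_cast hM0
  obtain ⟨Y, hY⟩ : ∃ Y, Y = (M : ℝ) ^ (h.natDegree - 1) := ⟨_, rfl⟩
  obtain ⟨Z, hZ⟩ : ∃ Z, Z = (M : ℝ) ^ h.natDegree := ⟨_, rfl⟩
  have hY1 : 1 ≤ Y := hY ▸ one_le_pow₀ hM1
  have hYZ : Z = Y * M := by
    rw [hY, hZ, ← pow_succ, Nat.sub_add_cancel (by omega)]
  have hZ0 : 0 ≤ Z := by rw [hZ]; positivity
  have h1 : Y * (E ^ 2 * R ^ 3) ≤ ρ * Z := by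
    refine le_trans (le_of_eq ?_) (mul_le_mul_of_nonneg_right hρ1 hZ0)
    rw [hYZ, hME]; field_simp
  have hR3 : (1 : ℝ) ≤ R ^ 3 := one_le_pow₀ hR1
  have h2 : Y * E ≤ ρ * Z := le_trans (mul_le_mul_of_nonneg_left
    ((le_self_pow₀ hE1 two_ne_zero).trans (le_mul_of_one_le_right (by positivity) hR3))
      (by positivity)) h1
  have h3 : Y * R ^ 3 ≤ ρ * Z := le_trans (mul_le_mul_of_nonneg_left
    (le_mul_of_one_le_left (by positivity) (one_le_pow₀ hE1)) (by positivity)) h1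
  have h4 : Y ≤ ρ * Z := (le_mul_of_one_le_right (by positivity) hE1).trans h2
  have h5 : B * (n₀ : ℝ) ^ h.natDegree ≤ B * (n₀ : ℝ) ^ h.natDegree * (ρ * Z) :=
    le_mul_of_one_le_right hn (hY1.trans h4)
  have hB2 : 0 ≤ B ^ 2 := by positivity
  have hρZ : 0 ≤ ρ * Z := by positivity
  rw [← hZ]
  refine ⟨fun θ => ?_, ?_⟩
  · rcases hK n₀ M ((R : ℝ) ^ 4) θ hM0 (hR2.trans (le_self_pow₀ hR1 (by norm_num))) with
      h6 | ⟨q, a, β, hq, ha, h6, h7, rfl⟩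
    · have h7 := minor hw hG (R := R) hM θ h6
      rw [← hY, show (R : ℝ) ^ 3 * (M / R ^ 4) * (7 * B ^ 2 * Y) = 7 * B ^ 2 * ((R : ℝ)⁻¹ * Z) by
        rw [hYZ]; field_simp] at h7
      have h8 := mul_le_mul_of_nonneg_left (mul_le_mul_of_nonneg_right hρ1 hZ0) hB2
      have h9 := (abs_le.1 ((Complex.abs_re_le_norm _).trans h7)).1
      have h10 : 0 ≤ (C * B + (C + 1) * (14 * B ^ 2 + B * (n₀ : ℝ) ^ h.natDegree)) * (ρ * Z) := by
        positivity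
      linarith [mul_nonneg hB2 hρZ]
    · rw [← hE] at h6 h7
      rw [← hZ] at h7
      have a1 := major hw hG (R := R) hM hq a β
      obtain ⟨-, s, s0, s1, a2⟩ := sing hw hc (by omega : 0 < R) hq ha
      have a3 := fw_norm hG hM β
      have a4 := fw_re hG hM β
      rw [← hY, ← hZ] at a1 a4
      rw [← hZ] at a3
      generalize Tk h w n₀ M R (a / q + β) = T at a1 ⊢
      generalize (∑ d ∈ Icc 1 R, av (d * q) fun n => w d n * ph h a q n) = S at a1 a2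
      generalize ∑ n ∈ Ico n₀ M, Fw (val h) M β n = I at a1 a3 a4
      have b0 : 1 + |β| * Z ≤ 2 * E := by linarith
      have b1 : 7 * B ^ 2 * Y * (1 + |β| * Z) ≤ 7 * B ^ 2 * Y * (2 * E) :=
        mul_le_mul_of_nonneg_left b0 (by positivity)
      have b2 : ‖T - S * I‖ ≤ 28 * B ^ 2 * (ρ * Z) := by
        refine a1.trans ((mul_le_mul (mul_le_mul_of_nonneg_left h6 (by positivity)) b1
          (by positivity) (by positivity)).trans ?_)
        refine le_trans (le_of_eq (by ring)) (mul_le_mul_of_nonneg_left h1 (by positivity))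
      have b3 : ‖(S - s) * I‖ ≤ C * B * (ρ * Z) := by
        rw [norm_mul]
        refine (mul_le_mul (a2.trans (mul_le_mul_of_nonneg_left hρ2 hC)) a3 (norm_nonneg _)
          (by positivity)).trans_eq (by ring)
      have b4 : -((14 * B ^ 2 + B * (n₀ : ℝ) ^ h.natDegree) * (ρ * Z)) ≤ I.re := by
        linarith [mul_le_mul_of_nonneg_left h2 hB2]
      have b5 : -(C * ((14 * B ^ 2 + B * (n₀ : ℝ) ^ h.natDegree) * (ρ * Z))) ≤ s * I.re := by
        have b6 : 0 ≤ (14 * B ^ 2 + B * (n₀ : ℝ) ^ h.natDegree) * (ρ * Z) := by positivity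
        linarith [mul_le_mul_of_nonneg_left b4 s0, mul_le_mul_of_nonneg_right s1 b6]
      have b7 : T.re = (T - S * I).re + ((S - s) * I).re + s * I.re := by
        rw [← Complex.re_ofReal_mul, ← Complex.add_re, ← Complex.add_re]
        congr 1
        ring
      have b8 := (abs_le.1 ((Complex.abs_re_le_norm _).trans b2)).1
      have b9 := (abs_le.1 ((Complex.abs_re_le_norm _).trans b3)).1
      have b10 : 0 ≤ (14 * B ^ 2 + B * (n₀ : ℝ) ^ h.natDegree) * (ρ * Z) := by positivity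
      rw [b7]
      linarith
  · have a1 := major hw hG (R := R) hM one_pos 0 0
    have a2 := fw_zero hG hM
    rw [sing_zero hw (by omega : 0 < R), one_mul, ← hY, Int.cast_zero, zero_div, add_zero, abs_zero,
      zero_mul, add_zero, mul_one, Nat.cast_one, mul_one] at a1
    rw [← hY, ← hZ] at a2
    have b1 := (abs_le.1 ((Complex.abs_re_le_norm _).trans a1)).1
    rw [Complex.sub_re] at b1
    have b2 : 0 ≤ (C * B + C * (14 * B ^ 2 + B * (n₀ : ℝ) ^ h.natDegree)) * (ρ * Z) := by positivity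
    have b3 : Z / (2 * B) = 1 / (2 * B) * Z := by ring
    linarith [mul_le_mul_of_nonneg_left h3 hB2, mul_le_mul_of_nonneg_left h4 hB2,
      mul_nonneg hB2 hρZ]

end Vale.Agent.P042.S
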