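import Vale.Agent.P042.S.Hua

/-! # P042 S/OddG (TASK; helper names end with _og; the plan also covers a sibling file): local weights for an odd polynomial.
`U p i n = if p ^ i ∣ n then p ^ i else 0`, `ε = p ^ (-c₀)`, `D p 0 = 1`, `D p (i + 1) = ε ^ (i + 1) * (U p (i + 1) - U p i)`.  `G i = av (p ^ j) fun n => ph h a (p ^ j) (p ^ i * n)` is the mean of `U p i * ph` for `i ≤ j` (`av_dvd`, `r = 0`).
`odd_G` collects what is needed about `G`: it is real (`av_neg`, `ee_neg`); `h.coeff 0 = 0`; `J = Nat.find` of `∀ l ≥ 1, p ^ j ∣ h.coeff l * p ^ (J l)` (true for `J = j`); for `i ≥ J` all phases are trivial;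
for `i < J` apply `hua` to `P = C a * h.comp (C (p ^ i) * X)`, `t = p ^ (J - i)`: if `p ^ j ∤ h.coeff l * p ^ ((J - 1) l)` and `p ^ j ∣ s a h.coeff l p ^ (i l)` then `p ^ (J - i) ∣ s` (valuations: `padicValInt`, `emultiplicity`, or write `s = p ^ v s'`).
`loc_odd`: `∑ i ≤ j` of the means is `ε ^ J + ∑ i < J, (1 - ε) ε ^ i G i` (induction; telescoping), `|G i| ε ^ i ≤ 2 ε ^ J ρ ^ (J - i)`, `ρ = p ^ (c₀ - c) ≤ p ^ (-c / 2) ≤ 2 ^ (-c / 2)`, `1 - ε ≤ c₀ log p ≤ (2 c₀ / c) p ^ (c / 2)`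
(`Real.add_one_le_exp`, `Real.log_le_rpow_div`); take `c₀ = c (1 - 2 ^ (-c / 2)) / 4`.  Decay: the terms vanish for `i > J`, the sum is at most `C ε ^ J`, and `p ^ j ≤ |lead| p ^ (J k)` gives `ε ^ J ≤ |lead| (p ^ j) ^ (-c₀ / k)`. -/

namespace Vale.Agent.P042.S

open Finset Polynomial

theorem real_og {h : ℤ[X]} (hodd : ∀ n : ℤ, h.eval (-n) = -h.eval n) (a m : ℤ) (q : ℕ) :
    (av q fun n => ph h a q (m * n)) = ((av q fun n => ph h a q (m * n)).re : ℂ) := by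
  have hper : Function.Periodic (fun n => ph h a q (m * n)) (q : ℤ) := fun n => by
    simp only [mul_add]
    exact (ph_per h a q).int_mul m (m * n)
  refine (Complex.conj_eq_iff_re.1 ?_).symm
  conv_rhs => rw [← av_neg hper]
  simp only [av, map_div₀, map_sum, map_natCast]
  refine congrArg (· / (q : ℂ)) (sum_congr rfl fun n _ => ?_)
  simp only [ph]
  rw [← ee_neg, mul_neg, hodd]
  push_cast
  ring_nf

theorem odd_G {h : ℤ[X]} (hodd : ∀ n : ℤ, h.eval (-n) = -h.eval n) (hk : 1 ≤ h.natDegree) :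
    ∃ c : ℝ, 0 < c ∧ c ≤ 1 ∧ ∀ p : ℕ, p.Prime → ∀ (j : ℕ) (a : ℤ), IsCoprime a p →
      ∃ (J : ℕ) (G : ℕ → ℝ), J ≤ j ∧
        ((p ^ j : ℕ) : ℝ) ≤ |(h.leadingCoeff : ℝ)| * ((p : ℝ) ^ J) ^ h.natDegree ∧
        (∀ i, (av (p ^ j) fun n => ph h a (p ^ j) (((p ^ i : ℕ) : ℤ) * n)) = G i) ∧
        (∀ i, J ≤ i → G i = 1) ∧ ∀ i, i ≤ J → |G i| ≤ 2 * ((p : ℝ) ^ (-c)) ^ (J - i) := by
  classical
  obtain ⟨c, hc0, hc1, H⟩ := hua h.natDegree
  refine ⟨c, hc0, hc1, fun p hp j a ha => ?_⟩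
  have hp0 : (0 : ℝ) < p := Nat.cast_pos.2 hp.pos
  have hp1 : (1 : ℝ) ≤ p := Nat.one_le_cast.2 hp.pos
  have hq : 0 < p ^ j := pow_pos hp.pos j
  have hj : ∀ l, 1 ≤ l → ((p ^ j : ℕ) : ℤ) ∣ h.coeff l * (p : ℤ) ^ (j * l) := fun l hl => by
    push_cast
    exact Dvd.dvd.mul_left (pow_dvd_pow _ (Nat.le_mul_of_pos_right j hl)) _
  have hex : ∃ J, ∀ l, 1 ≤ l → ((p ^ j : ℕ) : ℤ) ∣ h.coeff l * (p : ℤ) ^ (J * l) := ⟨j, hj⟩
  have hJ := Nat.find_spec hex
  have hmin := fun m => Nat.find_min hex (m := m)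
  have hle := Nat.find_min' hex hj
  generalize Nat.find hex = J at hJ hmin hle
  refine ⟨J, fun i => (av (p ^ j) fun n => ph h a (p ^ j) (((p ^ i : ℕ) : ℤ) * n)).re, hle, ?_,
    fun i => real_og hodd a _ _, fun i hi => ?_, fun i hi => ?_⟩
  · have h0 : h.leadingCoeff ≠ 0 := fun e => by
      rw [leadingCoeff_eq_zero] at e
      rw [e, natDegree_zero] at hk
      omega
    have h1 := Int.le_of_dvd (abs_pos.2 (mul_ne_zero h0
      (pow_ne_zero (J * h.natDegree) (Nat.cast_ne_zero.2 hp.ne_zero))))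
      ((dvd_abs _ _).2 (hJ _ hk))
    rw [abs_mul, abs_pow, Nat.abs_cast, pow_mul] at h1
    exact_mod_cast h1
  · have h0 : h.coeff 0 = 0 := by
      have := hodd 0
      rw [neg_zero, ← coeff_zero_eq_eval_zero] at this
      omega
    have h1 : ∀ n : ℤ, ph h a (p ^ j) (((p ^ i : ℕ) : ℤ) * n) = 1 := fun n => by
      rw [ph_congr (h' := 0) (a' := 0) (n' := 0)]
      · simp [ph, ee_zero]
      rw [zero_mul, sub_zero, eval_eq_sum_range]
      refine Dvd.dvd.mul_left (dvd_sum fun l _ => ?_) _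
      rcases Nat.eq_zero_or_pos l with rfl | hl
      · rw [h0, zero_mul]
        exact dvd_zero _
      · rw [mul_pow, ← mul_assoc, Nat.cast_pow p i, ← pow_mul]
        exact ((hJ l hl).trans (mul_dvd_mul_left _
          (pow_dvd_pow _ (Nat.mul_le_mul_right l hi)))).mul_right _
    simp only [h1, av_const hq, Complex.one_re]
  · have hco : ∀ l, (C a * h.comp (C ((p ^ i : ℕ) : ℤ) * X)).coeff l =
        a * (h.coeff l * (p : ℤ) ^ (i * l)) := fun l => by
      rw [coeff_C_mul, comp_C_mul_X_coeff, Nat.cast_pow, ← pow_mul]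
    have h1 := H (C a * h.comp (C ((p ^ i : ℕ) : ℤ) * X))
      (natDegree_le_iff_coeff_eq_zero.2 fun N hN => by
        rw [hco, coeff_eq_zero_of_natDegree_lt hN, zero_mul, mul_zero])
      (p ^ j) hq ((p : ℝ) ^ (J - i)) (one_le_pow₀ hp1) fun s hs hd => ?_
    · have h2 : ph (C a * h.comp (C ((p ^ i : ℕ) : ℤ) * X)) 1 (p ^ j) =
          fun n => ph h a (p ^ j) (((p ^ i : ℕ) : ℤ) * n) := funext fun n => by
        simp only [ph, eval_mul, eval_C, eval_comp, eval_X, one_mul]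
      rw [h2, ← Real.rpow_pow_comm hp0.le] at h1
      exact (Complex.abs_re_le_norm _).trans h1
    · by_contra hlt
      obtain ⟨v, s', hs', rfl⟩ := Nat.exists_eq_pow_mul_and_not_dvd hs.ne' p hp.ne_one
      have h3 : p ^ v * s' < p ^ (J - i) := by exact_mod_cast not_le.1 hlt
      have h4 : v < J - i := (Nat.pow_lt_pow_iff_right hp.one_lt).1
        ((Nat.le_mul_of_pos_right _ (Nat.pos_of_mul_pos_left hs)).trans_lt h3)
      refine hmin (v + i) (by omega) fun l hl => ?_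
      have h5 := hd l hl
      rw [hco] at h5
      have h6 : IsCoprime ((p ^ j : ℕ) : ℤ) ((s' : ℤ) * a) := by
        rw [Nat.cast_pow]
        exact (IsCoprime.mul_right (Nat.isCoprime_iff_coprime.2
          ((Nat.Prime.coprime_iff_not_dvd hp).2 hs')) ha.symm).pow_left
      have h7 : ((p ^ j : ℕ) : ℤ) ∣ h.coeff l * (p : ℤ) ^ (v + i * l) := by
        refine h6.dvd_of_dvd_mul_left ?_
        rwa [show (s' : ℤ) * a * (h.coeff l * (p : ℤ) ^ (v + i * l)) =
          ((p ^ v * s' : ℕ) : ℤ) * (a * (h.coeff l * (p : ℤ) ^ (i * l))) by push_cast; ring]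
      refine h7.trans (mul_dvd_mul_left _ (pow_dvd_pow _ ?_))
      rw [add_mul]
      exact Nat.add_le_add_right (Nat.le_mul_of_pos_right v hl) _

end Vale.Agent.P042.S
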