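import Vale.Agent.P042.S.Hua

/-! # P042 S/QLocA (TASK; helper names end with _qo; the plan also covers a sibling file): local weights for a quadratic polynomial.
`loc_of`: choose `ω p` for the primes of the second kind (`ω p = 1` otherwise); `D p 0 = 1`, `D p 1 = ω p - 1`, `D p (i + 2) = 0`; `mart` by `sum_perm` (real and complex casts) or directly; decay from `hua_lead 2`:
the sum is at most `2 ‖G‖ + κ`; exponent `min c (1 / 4)`.
`loc_quad`: `α, β, γ` the coefficients (`eval_eq_sum_range`), `Δ ≠ 0`; `m > 0` divisible by `α Δ` and by all numbers up to `65536` (a factorial, keep it abstract with `obtain`); `r ≥ 0` with `m ^ 4 ∣ h(r)` (`Int.emod`, `Polynomial.sub_dvd_eval_sub`), `Q = m ^ 2`,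
`g(n) = α m ^ 4 n ^ 2 + X m ^ 2 n + h(r)`, `X = 2 α r + β`, `X ^ 2 = 4 α h(r) + Δ`.  If `p ∣ m`, `v = v_p(m)`: `p ^ (v + 1) ∤ X` (else it divides `Δ ∣ m`), so `X m ^ 2 = p ^ u l` with `u + 1 ≤ 4 v`; `bad`.
If `p ∤ m`: the discriminant of `g` is `m ^ 4 Δ`, a root `ρ` solves `r + m ^ 2 ρ ≡ t` (`IsCoprime`), `good2`. -/

namespace Vale.Agent.P042.S

open Finset Polynomial

/-- The martingale differences of a weight with period `p`. -/
def Dw_qo (ω : ℤ → ℝ) : ℕ → ℤ → ℝ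
  | 0 => fun _ => 1
  | 1 => fun n => ω n - 1
  | _ + 2 => fun _ => 0

theorem two_qo {M : Type} [AddCommMonoid M] (F : ℕ → M) (h : ∀ i, F (i + 2) = 0) (j : ℕ) :
    ∑ i ∈ range (j + 1 + 1), F i = F 1 + F 0 := by
  rw [sum_range_succ', sum_range_succ']
  simp [h]

theorem av_zero_qo (q : ℕ) (f : ℤ → ℂ) : (av q fun n => ((0 : ℝ) : ℂ) * f n) = 0 := by
  simp [av]

theorem av_one_qo (q : ℕ) (f : ℤ → ℂ) : (av q fun n => ((1 : ℝ) : ℂ) * f n) = av q f := by
  simp [av]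

theorem av_sub_qo (q : ℕ) (ω : ℤ → ℝ) (f : ℤ → ℂ) :
    (av q fun n => ((ω n - 1 : ℝ) : ℂ) * f n) = (av q fun n => ω n * f n) - av q f := by
  simp only [av, Complex.ofReal_sub, Complex.ofReal_one, sub_mul, one_mul, sum_sub_distrib, sub_div]

theorem av_triv_qo (g : ℤ[X]) (a : ℤ) : av 1 (ph g a 1) = 1 := by
  simp only [av, ph, range_one, sum_singleton, Nat.cast_one, div_one]
  exact ee_int _

theorem loc_of {g : ℤ[X]} (h1 : 1 ≤ g.natDegree) (h2 : g.natDegree ≤ 2)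
    (H : ∀ p : ℕ, p.Prime →
      (∀ (j : ℕ) (a : ℤ), IsCoprime a p → NN (av (p ^ j) (ph g a (p ^ j)))) ∨
      ∃ ω : ℤ → ℝ, Function.Periodic ω (p : ℤ) ∧ ∑ t ∈ range p, ω t = p ∧
        (∀ n, 0 ≤ ω n ∧ ω n ≤ p) ∧ ∀ (j : ℕ) (a : ℤ), IsCoprime a p → ∃ κ : ℝ, 0 ≤ κ ∧
          κ ≤ 32 * ((p ^ (j + 1) : ℕ) : ℝ) ^ (-(1 / 4) : ℝ) ∧
          (av (p ^ (j + 1)) fun n => ω n * ph g a (p ^ (j + 1)) n) = κ) :
    ∃ C c D, 0 < c ∧ Loc g C c D := by
  have key : ∀ p : ℕ, ∃ ω : ℤ → ℝ, Function.Periodic ω (p : ℤ) ∧ (p.Prime →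
      ∑ t ∈ range p, ω t = p ∧ (∀ n, 0 ≤ ω n ∧ ω n ≤ p) ∧ ∀ (j : ℕ) (a : ℤ), IsCoprime a p →
        NN (av (p ^ (j + 1)) fun n => ω n * ph g a (p ^ (j + 1)) n) ∧
        ‖av (p ^ (j + 1)) fun n => ω n * ph g a (p ^ (j + 1)) n‖ ≤
          ‖av (p ^ (j + 1)) (ph g a (p ^ (j + 1)))‖ +
            32 * ((p ^ (j + 1) : ℕ) : ℝ) ^ (-(1 / 4) : ℝ)) := by
    intro p
    by_cases hp : p.Prime
    · rcases H p hp with h | ⟨ω, h3, h4, h5, h6⟩
      · refine ⟨fun _ => 1, fun _ => rfl, fun _ => ⟨by simp, fun _ => ⟨zero_le_one, ?_⟩,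
          fun j a ha => ?_⟩⟩
        · exact Nat.one_le_cast.2 hp.one_le
        · rw [av_one_qo]
          exact ⟨h (j + 1) a ha, le_add_of_nonneg_right (by positivity)⟩
      · refine ⟨ω, h3, fun _ => ⟨h4, h5, fun j a ha => ?_⟩⟩
        obtain ⟨κ, k0, k1, k2⟩ := h6 j a ha
        rw [k2]
        refine ⟨⟨κ, k0, rfl⟩, ?_⟩
        rw [Complex.norm_real, Real.norm_eq_abs, abs_of_nonneg k0]
        exact k1.trans (le_add_of_nonneg_left (norm_nonneg _))
    · exact ⟨fun _ => 1, fun _ => rfl, fun h => absurd h hp⟩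
  choose ω hper hω using key
  obtain ⟨c, hc, -, hua⟩ := hua_lead 2
  refine ⟨6 * |(g.leadingCoeff : ℝ)| + 32, min c (1 / 4), fun p => Dw_qo (ω p),
    lt_min hc (by norm_num), fun _ _ => rfl, ?_, ?_, ?_, ?_, ?_⟩
  · intro p i
    match i with
    | 0 => exact fun _ => rfl
    | 1 =>
      intro n
      simp only [Dw_qo, pow_one, hper p n]
    | _ + 2 => exact fun _ => rfl
  · intro p hp i n
    match i with
    | 0 =>
      have h3 := sum_perm (f := fun n => ((ω p n : ℝ) : ℂ)) (q := p)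
        (fun n => by simp only [hper p n]) (m := 1) isCoprime_one_left n
      have h4 : ∑ t ∈ range p, ω p (n + 1 * t) = ∑ t ∈ range p, ω p t := by exact_mod_cast h3
      simp only [Dw_qo, pow_zero, Nat.cast_one, sum_sub_distrib, h4, (hω p hp).1]
      simp
    | i + 1 => simp [Dw_qo]
  · intro p hp i n
    have h3 : (1 : ℝ) ≤ p := by exact_mod_cast hp.one_le
    match i with
    | 0 => simp [Dw_qo]
    | 1 =>
      have h4 := (hω p hp).2.1 n
      simp only [Dw_qo, pow_one]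
      rw [abs_le]
      constructor <;> linarith [h4.1, h4.2]
    | _ + 2 =>
      simp only [Dw_qo, abs_zero]
      positivity
  · intro p hp j a ha
    match j with
    | 0 =>
      simp only [zero_add, range_one, sum_singleton, pow_zero, Dw_qo]
      rw [av_one_qo, av_triv_qo]
      exact ⟨1, zero_le_one, by simp⟩
    | j + 1 =>
      rw [two_qo _ fun i => av_zero_qo _ _]
      simp only [Dw_qo]
      rw [av_one_qo, av_sub_qo, sub_add_cancel]
      exact ((hω p hp).2.2 j a ha).1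
  · intro p hp j a ha
    match j with
    | 0 =>
      simp only [zero_add, range_one, sum_singleton, pow_zero, Dw_qo]
      rw [av_one_qo, av_triv_qo]
      simp only [norm_one, Nat.cast_one, Real.one_rpow, mul_one]
      linarith [abs_nonneg (g.leadingCoeff : ℝ)]
    | j + 1 =>
      rw [two_qo _ fun i => by simp only [Dw_qo]; rw [av_zero_qo, norm_zero]]
      simp only [Dw_qo]
      rw [av_one_qo, av_sub_qo]
      have hq : 0 < p ^ (j + 1) := pow_pos hp.pos _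
      have hq1 : (1 : ℝ) ≤ ((p ^ (j + 1) : ℕ) : ℝ) := by exact_mod_cast hq
      have h3 := ((hω p hp).2.2 j a ha).2
      have h4 := hua g h1 h2 (p ^ (j + 1)) hq a (by push_cast; exact ha.pow_right)
      have h5 := norm_sub_le (av (p ^ (j + 1)) fun n => ω p n * ph g a (p ^ (j + 1)) n)
        (av (p ^ (j + 1)) (ph g a (p ^ (j + 1))))
      have h6 : ((p ^ (j + 1) : ℕ) : ℝ) ^ (-c) ≤ ((p ^ (j + 1) : ℕ) : ℝ) ^ (-min c (1 / 4)) :=
        Real.rpow_le_rpow_of_exponent_le hq1 (neg_le_neg (min_le_left _ _))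
      have h7 : ((p ^ (j + 1) : ℕ) : ℝ) ^ (-(1 / 4) : ℝ) ≤
          ((p ^ (j + 1) : ℕ) : ℝ) ^ (-min c (1 / 4)) :=
        Real.rpow_le_rpow_of_exponent_le hq1 (neg_le_neg (min_le_right _ _))
      have h8 := mul_le_mul_of_nonneg_left h6 (abs_nonneg (g.leadingCoeff : ℝ))
      nlinarith

end Vale.Agent.P042.S
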