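import Vale.Agent.P042.S.Ee

/-! # P042 S/Vino (TASK; helper names end with _vi): a lemma of Vinogradov type.
Step 1: blocks of length `⌈4 E⌉` (map `t ↦ (t + M) / ℓ₁`, `Finset.exists_ne_map_eq_of_card_lt_of_maps_to`) give `t < t'` in `T` with `q = t' - t ≤ 4 E`; `γ = q β - round (q β)`, `|γ| ≤ 2 ε` (`round_le`).
Step 2 (a lemma for every natural `ℓ ≥ 6 E` with `q ℓ ≤ M` and `ℓ |γ| ≤ 1 / 2`): classes `(t % q, (t + M) / (q ℓ))`, at most `q (2 M / (q ℓ) + 1) ≤ 3 M / ℓ` of them, so one class has at least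
`ℓ / (3 E)` elements (`Finset.exists_le_card_fiber_of_mul_le_card_of_maps_to`-like); its extreme points differ by `q s` with `ℓ / (3 E) - 1 ≤ s < ℓ`; `s γ` is within `2 ε` of an integer
and `|s γ| ≤ 1 / 2`, so `|s γ| ≤ 2 ε` (`round_le`, or the integer is `0` or `|s γ| ≥ 1 - 2 ε`), and `|γ| ≤ 12 E ε / ℓ`.
If `ℓ₀ |γ| ≤ 1 / 2` for `ℓ₀ = ⌊M / (4 E)⌋₊` we are done. Else `ℓ = ⌊1 / (2 |γ|)⌋₊ ≥ 1 / (4 |γ|)` gives `1 ≤ 48 E ε`, a contradiction. -/

namespace Vale.Agent.P042.S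

open Finset Polynomial

theorem pig_vi (T : Finset ℤ) {M q l n : ℕ} (hq : 0 < q) (hl : 0 < l) (hT : ∀ t ∈ T, |t| < M)
    (hn : (2 * M / l + q : ℝ) * n < T.card) :
    ∃ t ∈ T, ∃ t' ∈ T, ∃ s : ℕ, n ≤ s ∧ s < l ∧ t' - t = q * s := by
  have hq' : (0 : ℤ) < q := by exact_mod_cast hq
  have hl' : (0 : ℤ) < l := by exact_mod_cast hl
  have hB : q * (2 * M / q / l + 1) * n < T.card := by
    have h1 : ((q * (2 * M / q / l) : ℕ) : ℝ) ≤ 2 * M / l := by
      rw [le_div_iff₀ (by exact_mod_cast hl)]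
      have h2 : q * (2 * M / q / l) * l ≤ 2 * M := by
        calc q * (2 * M / q / l) * l = q * (2 * M / q / l * l) := mul_assoc _ _ _
          _ ≤ q * (2 * M / q) := Nat.mul_le_mul_left _ (Nat.div_mul_le_self _ _)
          _ ≤ 2 * M := Nat.mul_div_le _ _
      exact_mod_cast h2
    have h3 : ((q * (2 * M / q / l + 1) * n : ℕ) : ℝ) < T.card := by
      refine lt_of_le_of_lt ?_ hn
      rw [mul_add, mul_one, Nat.cast_mul, Nat.cast_add]
      exact mul_le_mul_of_nonneg_right (add_le_add h1 le_rfl) (Nat.cast_nonneg n)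
    exact_mod_cast h3
  obtain ⟨y, -, hy⟩ := exists_lt_card_fiber_of_mul_lt_card_of_maps_to (s := T)
    (t := Ico (0 : ℤ) q ×ˢ Ico (0 : ℤ) ((2 * M / q / l + 1 : ℕ) : ℤ))
    (f := fun u => ((u + M) % q, (u + M) / q / l)) (n := n) (fun u hu => by
      have h1 := abs_lt.1 (hT u hu)
      rw [mem_product, mem_Ico, mem_Ico]
      refine ⟨⟨Int.emod_nonneg _ hq'.ne', Int.emod_lt_of_pos _ hq'⟩,
        Int.ediv_nonneg (Int.ediv_nonneg (by omega) hq'.le) hl'.le, ?_⟩
      push_cast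
      exact Int.lt_add_one_of_le (Int.ediv_le_ediv hl' (Int.ediv_le_ediv hq' (by omega))))
    (by simpa only [card_product, Int.card_Ico, sub_zero, Int.toNat_natCast] using hB)
  set U := T.filter fun u : ℤ => ((u + M) % q, (u + M) / q / l) = y with hU
  have hm : ∀ u ∈ U, u ∈ T ∧ u + M = q * ((u + M) / q) + y.1 ∧ (u + M) / q / l = y.2 :=
    fun u hu => by
      obtain ⟨h1, h2⟩ := mem_filter.1 hu
      rw [← h2]
      exact ⟨h1, (Int.mul_ediv_add_emod _ _).symm, rfl⟩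
  have hne : U.Nonempty := card_pos.1 (by omega)
  obtain ⟨a, ha, ha'⟩ := exists_min_image U (fun u : ℤ => (u + M) / q) hne
  obtain ⟨b, hb, hb'⟩ := exists_max_image U (fun u : ℤ => (u + M) / q) hne
  have hc : U.card ≤ (Icc ((a + M) / q) ((b + M) / q)).card :=
    card_le_card_of_injOn (fun u : ℤ => (u + M) / q)
      (fun u hu => mem_coe.2 (mem_Icc.2 ⟨ha' u hu, hb' u hu⟩)) fun u hu v hv e => by
        have h1 := (hm u hu).2.1
        have h2 := (hm v hv).2.1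
        beta_reduce at e
        rw [e] at h1
        omega
  rw [Int.card_Icc] at hc
  have h1 := hm a ha
  have h2 := hm b hb
  have h3 := ha' b hb
  beta_reduce at h3
  have h4 := Int.mul_ediv_add_emod ((a + M) / q) l
  have h5 := Int.mul_ediv_add_emod ((b + M) / q) l
  have h6 := Int.emod_nonneg ((a + M) / q) hl'.ne'
  have h7 := Int.emod_lt_of_pos ((b + M) / q) hl'
  rw [h1.2.2] at h4
  rw [h2.2.2] at h5
  refine ⟨a, h1.1, b, h2.1, ((b + M) / q - (a + M) / q).toNat, by omega, by omega, ?_⟩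
  rw [Int.toNat_of_nonneg (by omega), mul_sub]
  omega

theorem near_vi {β ε : ℝ} {t t' : ℤ} (h : |t * β - round (t * β)| ≤ ε)
    (h' : |t' * β - round (t' * β)| ≤ ε) :
    |((t' - t : ℤ) : ℝ) * β - ((round (t' * β) - round (t * β) : ℤ) : ℝ)| ≤ 2 * ε := by
  have h1 := abs_le.1 h
  have h2 := abs_le.1 h'
  push_cast
  rw [abs_le]
  constructor <;> linarith [h1.1, h1.2, h2.1, h2.2]

theorem two_vi {β ε E : ℝ} {M q l : ℕ} (T : Finset ℤ) (hE : 2 ≤ E) (hq : 0 < q)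
    (hT : ∀ t ∈ T, |t| < M ∧ |t * β - round (t * β)| ≤ ε) (hc : (M : ℝ) ≤ E * T.card)
    (hε : ε ≤ 1 / 200) (hl : 6 * E ≤ l) (hM : (q : ℝ) * l ≤ M)
    (hγ : l * |q * β - round (q * β)| ≤ 1 / 2) : l * |q * β - round (q * β)| ≤ 12 * E * ε := by
  have hl0 : (0 : ℝ) < l := by linarith
  have hq0 : (0 : ℝ) < q := by exact_mod_cast hq
  have hE0 : 0 < E := by linarith
  have hM0 : (0 : ℝ) < M := lt_of_lt_of_le (mul_pos hq0 hl0) hM
  have h1 : (⌈l / (6 * E)⌉₊ : ℝ) < l / (3 * E) := by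
    have h2 : 1 ≤ l / (6 * E) := (one_le_div (by linarith)).2 hl
    have h3 : l / (3 * E) = l / (6 * E) + l / (6 * E) := by
      field_simp
      norm_num
    linarith [Nat.ceil_lt_add_one (zero_le_one.trans h2)]
  obtain ⟨t, ht, t', ht', s, hs, hs', e⟩ := pig_vi T (M := M) (n := ⌈l / (6 * E)⌉₊) hq
    (by exact_mod_cast hl0 : 0 < l) (fun t ht => (hT t ht).1) (by
      have h2 : (2 * M / l + q : ℝ) ≤ 3 * M / l := by
        have : (q : ℝ) ≤ M / l := (le_div_iff₀ hl0).2 hM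
        have h3 : (3 * M / l : ℝ) = 2 * M / l + M / l := by ring
        linarith
      calc _ ≤ (3 * M / l : ℝ) * ⌈l / (6 * E)⌉₊ :=
            mul_le_mul_of_nonneg_right h2 (Nat.cast_nonneg _)
        _ < 3 * M / l * (l / (3 * E)) := mul_lt_mul_of_pos_left h1 (by positivity)
        _ = M / E := by field_simp
        _ ≤ T.card := by rw [div_le_iff₀' hE0]; exact hc)
  set γ := q * β - round (q * β) with hγ'
  have h2 := near_vi (hT t ht).2 (hT t' ht').2
  set z : ℤ := round (t' * β) - round (t * β) - s * round (q * β) with hz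
  have h3 : |s * γ - z| ≤ 2 * ε := by
    refine le_of_eq_of_le ?_ h2
    rw [e, hz, hγ']
    push_cast
    ring_nf
  have hs1 : (s : ℝ) ≤ l := by exact_mod_cast hs'.le
  have hs2 : l / (6 * E) ≤ s := (Nat.le_ceil _).trans (by exact_mod_cast hs)
  have h4 : |s * γ| ≤ 1 / 2 := by
    rw [abs_mul, Nat.abs_cast]
    exact (mul_le_mul_of_nonneg_right hs1 (abs_nonneg _)).trans hγ
  have h5 : z = 0 := by
    have h6 := abs_le.1 h3
    have h7 := abs_le.1 h4
    have h8 : (z : ℝ) < 1 := by linarith [h6.1, h7.2]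
    have h9 : (-1 : ℝ) < z := by linarith [h6.2, h7.1]
    have h10 : z < 1 := by exact_mod_cast h8
    have h11 : -1 < z := by exact_mod_cast h9
    omega
  rw [h5, Int.cast_zero, sub_zero, abs_mul, Nat.abs_cast] at h3
  rw [div_le_iff₀ (by linarith)] at hs2
  calc l * |γ| ≤ s * (6 * E) * |γ| := mul_le_mul_of_nonneg_right hs2 (abs_nonneg _)
    _ = 6 * E * (s * |γ|) := by ring
    _ ≤ 6 * E * (2 * ε) := mul_le_mul_of_nonneg_left h3 (by linarith)
    _ = _ := by ring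

theorem vino {β ε E : ℝ} {M : ℕ} (T : Finset ℤ) (hE : 2 ≤ E)
    (hT : ∀ t ∈ T, |t| < M ∧ |t * β - round (t * β)| ≤ ε) (hc : (M : ℝ) ≤ E * T.card)
    (hM : 32 * E ^ 2 ≤ M) (hε : ε ≤ 1 / (100 * E)) :
    ∃ q : ℕ, 0 < q ∧ (q : ℝ) ≤ 4 * E ∧ |q * β - round (q * β)| ≤ 100 * E ^ 2 * ε / M := by
  have hE0 : 0 < E := by linarith
  have hM0 : (0 : ℝ) < M := lt_of_lt_of_le (by positivity) hM
  have hME : 32 * E ≤ M / E := by
    rw [le_div_iff₀ hE0]
    linarith
  have hε1 : 100 * E * ε ≤ 1 := by rwa [le_div_iff₀' (by linarith)] at hε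
  have hl1 : (0 : ℝ) < ⌈4 * E⌉₊ := lt_of_lt_of_le (by linarith) (Nat.le_ceil _)
  obtain ⟨t, ht, t', ht', q, hq, hq', e⟩ := pig_vi T (M := M) (q := 1) (l := ⌈4 * E⌉₊) (n := 1)
    one_pos (by exact_mod_cast hl1) (fun t ht => (hT t ht).1) (by
      have h1 : (2 * M / ⌈4 * E⌉₊ : ℝ) ≤ 2 * M / (4 * E) :=
        div_le_div_of_nonneg_left (by positivity) (by linarith) (Nat.le_ceil _)
      have h2 : (2 * M / (4 * E) : ℝ) = M / E / 2 := by
        field_simp
        norm_num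
      have h3 : M / E ≤ T.card := by rw [div_le_iff₀' hE0]; exact hc
      rw [Nat.cast_one, mul_one]
      linarith)
  have hq1 : (q : ℝ) ≤ 4 * E := (Nat.lt_ceil.1 hq').le
  have hε0 : 0 ≤ ε := (abs_nonneg _).trans (hT t ht).2
  have hε2 : ε ≤ 1 / 200 := by nlinarith
  refine ⟨q, hq, hq1, ?_⟩
  have hγ : |q * β - round (q * β)| ≤ 2 * ε := by
    have h1 := near_vi (hT t ht).2 (hT t' ht').2
    rw [e, Nat.cast_one, one_mul, Int.cast_natCast] at h1
    exact (round_le _ _).trans h1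
  have key := fun l : ℕ => two_vi (l := l) T hE hq hT hc hε2
  set γ := |q * β - round (q * β)| with hγ'
  have hγ0 : 0 ≤ γ := abs_nonneg _
  have h4 : M / (4 * E) = M / E / 4 := by field_simp
  have h5 : (⌊M / (4 * E)⌋₊ : ℝ) ≤ M / (4 * E) := Nat.floor_le (by positivity)
  have h6 := Nat.lt_floor_add_one (M / (4 * E))
  have h7 : ∀ l : ℝ, 0 ≤ l → l ≤ M / (4 * E) → q * l ≤ M := fun l h0 h1 => by
    calc q * l ≤ 4 * E * (M / (4 * E)) := mul_le_mul hq1 h1 h0 (by linarith)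
      _ = M := by field_simp
  by_cases h8 : ⌊M / (4 * E)⌋₊ * γ ≤ 1 / 2
  · have h9 := key _ (by linarith) (h7 _ (Nat.cast_nonneg _) h5) h8
    have h10 : M / E / 8 * γ ≤ 12 * E * ε :=
      (mul_le_mul_of_nonneg_right (by linarith) hγ0).trans h9
    rw [le_div_iff₀ hM0]
    have h11 : γ * M = 8 * E * (M / E / 8 * γ) := by field_simp
    have h12 := mul_le_mul_of_nonneg_left h10 (by linarith : 0 ≤ 8 * E)
    have h13 : 0 ≤ E ^ 2 * ε := by positivity
    nlinarith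
  · exfalso
    push Not at h8
    have hγ1 : 0 < γ := by
      refine lt_of_le_of_ne hγ0 fun e => ?_
      rw [← e, mul_zero] at h8
      linarith
    have g1 : (⌊1 / (2 * γ)⌋₊ : ℝ) ≤ 1 / (2 * γ) := Nat.floor_le (by positivity)
    have g2 := Nat.lt_floor_add_one (1 / (2 * γ))
    have g3 : 1 / (2 * γ) ≤ ⌊M / (4 * E)⌋₊ := by
      rw [div_le_iff₀ (by positivity)]
      linarith
    set l : ℕ := ⌊1 / (2 * γ)⌋₊ with hl
    have g4 := h7 l (Nat.cast_nonneg _) (g1.trans (g3.trans h5))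
    rw [le_div_iff₀ (by positivity)] at g1
    rw [div_lt_iff₀ (by positivity)] at g2
    have g5 : 6 * E ≤ l := by
      by_contra hn
      push Not at hn
      have g6 : ((l : ℝ) + 1) * (2 * γ) ≤ 7 * E * (4 * ε) :=
        mul_le_mul (by linarith) (by linarith) (by positivity) (by linarith)
      nlinarith
    have g7 := key l g5 g4 (by linarith)
    nlinarith

end Vale.Agent.P042.S
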