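import Vale.Agent.P042.S.WeylA
import Vale.Agent.P042.S.Vino

/-! # P042 S/Weyl (TASK; helper names end with _we; the plan also covers a sibling file): the inverse form of the Weyl inequality.
`pd_poly`: induction on `k`; `taylor t p - p` has degree at most `k` and coefficient `(k + 1) t c` at `k` (`Polynomial.taylor_coeff`, `hasseDeriv_coeff`, `natDegree_le_iff_coeff_eq_zero`, `eval_eq_sum_range'`; `taylor_eval`).
`vdc`: `‖S‖ ^ 2 = S * conj S = ∑ n, ∑ m, ee (f m - f n)`; put `m = n + t` (`Finset.sum_nbij'` or `sum_sigma'`), `t ∈ Ioo (-M) M`, `n ∈ Ico (max x (x - t)) (min y (y - t))`.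
`weyl`: induction on `k`. Base: `f n = f 0 + n α`, `geom_ee`, `q = 1`. Step: if `M ≤ D ^ C'` take `q = 1` (`abs_sub_round`). Else: by `vdc` at least `M / (2 D ^ 2)` values of `t` have inner sum
at least `M / (4 D ^ 2)` (each inner sum is at most `M`, fewer than `2 M` values of `t`); induction hypothesis with `D' = 4 D ^ 2 ≤ D ^ 4`; pigeonhole on `q t ≤ D ^ (4 C)`; `vino` for `β = q α`,
`E = D ^ (4 C + 3)`, `ε = D ^ (4 C) / M ^ (k + 1)`; the new denominator is `q' q`. -/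

namespace Vale.Agent.P042.S

open Finset Polynomial

theorem base_we {α : ℝ} {f : ℤ → ℝ} (hf : PD 1 α f) {M : ℕ} {x y : ℤ} {D : ℝ} (hM : 0 < M)
    (hD : 2 ≤ D) (h : (M : ℝ) ≤ D * ‖∑ n ∈ Ico x y, ee (f n)‖) : |α - round α| ≤ D / M := by
  have h1 : ∀ n : ℤ, ee (f n) = ee (f 0) * ee (α * n) := by
    intro n
    have h2 : f (0 + n) - f 0 = n * α := hf n 0
    rw [zero_add] at h2
    rw [← ee_add]
    congr 1
    linarith
  rw [sum_congr rfl fun n _ => h1 n, ← mul_sum, norm_mul, norm_ee, one_mul] at h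
  have h3 := geom_ee α x y
  have h4 : (0 : ℝ) < M := by exact_mod_cast hM
  rw [le_div_iff₀ h4]
  have h5 := abs_nonneg (α - round α)
  have h6 := mul_le_mul_of_nonneg_left h h5
  have h7 := mul_le_mul_of_nonneg_left h3 (by linarith : (0 : ℝ) ≤ D)
  nlinarith

theorem norm_we (g : ℤ → ℝ) {M : ℕ} {a b : ℤ} (h : b - a ≤ M) :
    ‖∑ n ∈ Ico a b, ee (g n)‖ ≤ M := by
  refine (norm_sum_le _ _).trans ?_
  simp only [norm_ee, sum_const, nsmul_eq_mul, mul_one, Int.card_Ico]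
  have : (b - a).toNat ≤ M := by omega
  exact_mod_cast this

/-- Many differences have a large sum. -/
theorem many_we (I : ℤ → ℝ) {M : ℕ} {D S : ℝ} (hM : 0 < M) (hD : 2 ≤ D) (hI : ∀ t, I t ≤ M)
    (h : (M : ℝ) ≤ D * S) (hS : S ^ 2 ≤ ∑ t ∈ Ioo (-(M : ℤ)) M, I t) :
    (M : ℝ) ≤ 2 * D ^ 2 * ((Ioo (-(M : ℤ)) M).filter fun t => (M : ℝ) ≤ D ^ 4 * I t).card := by
  have h4 : (0 : ℝ) < M := by exact_mod_cast hM
  have hD2 : (4 : ℝ) ≤ D ^ 2 := by nlinarith
  set G := (Ioo (-(M : ℤ)) M).filter fun t => (M : ℝ) ≤ D ^ 4 * I t with hG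
  have h1 : ∀ t ∈ Ioo (-(M : ℤ)) M,
      4 * D ^ 2 * I t ≤ (if (M : ℝ) ≤ D ^ 4 * I t then 4 * D ^ 2 * M else 0) + M := by
    intro t _
    split_ifs with h2
    · have := mul_le_mul_of_nonneg_left (hI t) (by positivity : (0 : ℝ) ≤ 4 * D ^ 2)
      linarith
    · rw [zero_add]
      rcases le_or_gt (I t) 0 with h3 | h3
      · have := mul_nonpos_of_nonneg_of_nonpos (by positivity : (0 : ℝ) ≤ 4 * D ^ 2) h3
        linarith
      · have h5 : 4 * D ^ 2 ≤ D ^ 4 := by nlinarith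
        have := mul_le_mul_of_nonneg_right h5 h3.le
        linarith [not_le.1 h2]
  have h2 := sum_le_sum h1
  rw [← mul_sum, sum_add_distrib, ← sum_filter, ← hG, sum_const, sum_const, nsmul_eq_mul,
    nsmul_eq_mul, Int.card_Ioo] at h2
  have h3 : (((M : ℤ) - -(M : ℤ) - 1).toNat : ℝ) ≤ 2 * M := by
    have : ((M : ℤ) - -(M : ℤ) - 1).toNat ≤ 2 * M := by omega
    exact_mod_cast this
  have h5 : (M : ℝ) ^ 2 ≤ (D * S) ^ 2 := pow_le_pow_left₀ h4.le h 2
  have h6 := mul_le_mul_of_nonneg_left hS (by positivity : (0 : ℝ) ≤ 4 * D ^ 2)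
  have h7 := mul_le_mul_of_nonneg_right h3 h4.le
  have h8 : (M : ℝ) * M ≤ (2 * D ^ 2 * G.card) * M := by nlinarith
  exact le_of_mul_le_mul_right h8 h4

theorem weyl (k : ℕ) : ∃ C : ℕ, ∀ (α : ℝ) (f : ℤ → ℝ), PD (k + 1) α f →
    ∀ (M : ℕ) (x y : ℤ) (D : ℝ), 0 < M → y - x ≤ M → 2 ≤ D →
      (M : ℝ) ≤ D * ‖∑ n ∈ Ico x y, ee (f n)‖ →
        ∃ q : ℕ, 0 < q ∧ (q : ℝ) ≤ D ^ C ∧ |q * α - round (q * α)| ≤ D ^ C / (M : ℝ) ^ (k + 1) := by
  induction k with
  | zero =>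
    refine ⟨1, fun α f hf M x y D hM _ hD h => ⟨1, one_pos, by simp; linarith, ?_⟩⟩
    simpa using base_we hf hM hD h
  | succ k ih =>
    obtain ⟨C, ih⟩ := ih
    refine ⟨(12 * C + 13) * (k + 1 + 1), fun α f hf M x y D hM hxy hD h => ?_⟩
    have h4 : (0 : ℝ) < M := by exact_mod_cast hM
    have hM1 : (1 : ℝ) ≤ M := by exact_mod_cast hM
    have hD1 : (1 : ℝ) ≤ D := by linarith
    have hD0 : (0 : ℝ) < D := by linarith
    have mono : ∀ a b : ℕ, a ≤ b → D ^ a ≤ D ^ b := fun a b hab => pow_le_pow_right₀ hD1 hab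
    have two : ∀ a : ℕ, (2 : ℝ) ^ a ≤ D ^ a := fun a => pow_le_pow_left₀ (by norm_num) hD a
    rcases le_or_gt (M : ℝ) (D ^ (12 * C + 13)) with hs | hs
    · refine ⟨1, one_pos, by simpa using one_le_pow₀ hD1, ?_⟩
      rw [le_div_iff₀ (by positivity), pow_mul]
      have h1 := pow_le_pow_left₀ h4.le hs (k + 1 + 1)
      have h2 := abs_sub_round (((1 : ℕ) : ℝ) * α)
      exact (mul_le_of_le_one_left (by positivity) (h2.trans (by norm_num))).trans h1
    have hlen : ∀ t : ℤ, min y (y - t) - max x (x - t) ≤ M := fun t => by omega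
    have hG := many_we
      (fun t => ‖∑ n ∈ Ico (max x (x - t)) (min y (y - t)), ee (f (n + t) - f n)‖) hM hD
      (fun t => norm_we _ (hlen t)) h (vdc f hxy)
    set G := (Ioo (-(M : ℤ)) M).filter fun t => (M : ℝ) ≤
      D ^ 4 * ‖∑ n ∈ Ico (max x (x - t)) (min y (y - t)), ee (f (n + t) - f n)‖ with hGd
    set ε : ℝ := D ^ (4 * C) / (M : ℝ) ^ (k + 1) with hε
    set T : ℕ → Finset ℤ := fun q => (Ioo (-(M : ℤ)) M).filter fun t =>
      |t * (q * α) - round (t * (q * α))| ≤ ε with hT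
    have hsub : G ⊆ (Icc 1 ⌊D ^ (4 * C)⌋₊).biUnion T := by
      intro t ht
      rw [hGd, mem_filter] at ht
      obtain ⟨q, hq, hq1, hq2⟩ := ih (t * α) _ (hf t) M _ _ (D ^ 4) hM (hlen t)
        (le_trans (by norm_num) (two 4)) ht.2
      rw [← pow_mul] at hq1 hq2
      refine mem_biUnion.2 ⟨q, mem_Icc.2 ⟨hq, Nat.le_floor hq1⟩, mem_filter.2 ⟨ht.1, ?_⟩⟩
      rw [show (t : ℝ) * (q * α) = q * (t * α) by ring]
      exact hq2
    have hne : (Icc 1 ⌊D ^ (4 * C)⌋₊).Nonempty :=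
      ⟨1, mem_Icc.2 ⟨le_rfl, Nat.le_floor (by simpa using one_le_pow₀ hD1)⟩⟩
    obtain ⟨q, hq, hmax⟩ := exists_max_image _ (fun q => (T q).card) hne
    have hq' := mem_Icc.1 hq
    have hfl : (⌊D ^ (4 * C)⌋₊ : ℝ) ≤ D ^ (4 * C) := Nat.floor_le (by positivity)
    have hqD : (q : ℝ) ≤ D ^ (4 * C) := le_trans (by exact_mod_cast hq'.2) hfl
    have hc1 : G.card ≤ ⌊D ^ (4 * C)⌋₊ * (T q).card := by
      have h1 := (card_le_card hsub).trans (card_biUnion_le_card_mul _ _ _ hmax)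
      simpa using h1
    have hc2 : (G.card : ℝ) ≤ D ^ (4 * C) * (T q).card :=
      le_trans (by exact_mod_cast hc1) (mul_le_mul_of_nonneg_right hfl (by positivity))
    have hc3 : (M : ℝ) ≤ D ^ (4 * C + 3) * (T q).card := by
      have h1 := mul_le_mul_of_nonneg_left hc2 (by positivity : (0 : ℝ) ≤ 2 * D ^ 2)
      have h2 : 2 * D ^ 2 * (D ^ (4 * C) * (T q).card) ≤ D * D ^ 2 * (D ^ (4 * C) * (T q).card) := by
        gcongr
      have h3 : D * D ^ 2 * (D ^ (4 * C) * (T q).card) = D ^ (4 * C + 3) * (T q).card := by ring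
      linarith
    have hE : 2 ≤ D ^ (4 * C + 3) := hD.trans (by simpa using mono 1 _ (by omega))
    have h100 : (100 : ℝ) ≤ D ^ 7 := le_trans (by norm_num) (two 7)
    have hM2 : 32 * (D ^ (4 * C + 3)) ^ 2 ≤ M := by
      have h1 : 32 * (D ^ (4 * C + 3)) ^ 2 ≤ D ^ 7 * (D ^ (4 * C + 3)) ^ 2 := by
        gcongr; linarith
      have h2 : D ^ 7 * (D ^ (4 * C + 3)) ^ 2 = D ^ (8 * C + 13) := by ring
      linarith [mono (8 * C + 13) (12 * C + 13) (by omega)]
    have hε2 : ε ≤ 1 / (100 * D ^ (4 * C + 3)) := by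
      rw [hε, div_le_div_iff₀ (by positivity) (by positivity), one_mul]
      have h1 : D ^ (4 * C) * (100 * D ^ (4 * C + 3)) ≤ D ^ (4 * C) * (D ^ 7 * D ^ (4 * C + 3)) := by
        gcongr
      have h2 : D ^ (4 * C) * (D ^ 7 * D ^ (4 * C + 3)) = D ^ (8 * C + 10) := by ring
      have h3 : (M : ℝ) ≤ (M : ℝ) ^ (k + 1) := le_self_pow₀ hM1 (by omega)
      linarith [mono (8 * C + 10) (12 * C + 13) (by omega)]
    obtain ⟨r, hr, hr1, hr2⟩ := vino (β := q * α) (T q) hE (fun t ht => by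
      have h1 := mem_filter.1 ht
      have h2 := mem_Ioo.1 h1.1
      exact ⟨abs_lt.2 h2, h1.2⟩) hc3 hM2 hε2
    have hbig := mono (12 * C + 13) ((12 * C + 13) * (k + 1 + 1)) (Nat.le_mul_of_pos_right _ (by omega))
    refine ⟨r * q, Nat.mul_pos hr hq'.1, ?_, ?_⟩
    · have h1 : (r : ℝ) * q ≤ (D ^ 7 * D ^ (4 * C + 3)) * D ^ (4 * C) := by
        refine mul_le_mul (hr1.trans ?_) hqD (by positivity) (by positivity)
        gcongr; linarith
      have h2 : (D ^ 7 * D ^ (4 * C + 3)) * D ^ (4 * C) = D ^ (8 * C + 10) := by ring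
      push_cast
      linarith [mono (8 * C + 10) (12 * C + 13) (by omega)]
    · push_cast
      rw [mul_assoc]
      refine hr2.trans ?_
      have h1 : 100 * (D ^ (4 * C + 3)) ^ 2 * ε / M =
          100 * D ^ (12 * C + 6) / (M : ℝ) ^ (k + 1 + 1) := by
        rw [hε]; field_simp; ring
      rw [h1]
      refine div_le_div_of_nonneg_right (le_trans ?_ hbig) (by positivity)
      have h2 : 100 * D ^ (12 * C + 6) ≤ D ^ 7 * D ^ (12 * C + 6) := by gcongr
      have h3 : D ^ 7 * D ^ (12 * C + 6) = D ^ (12 * C + 13) := by ring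
      linarith

end Vale.Agent.P042.S
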