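import Vale.Agent.P042.S.Ee

/-! # P042 S/WeylA (TASK; helper names end with _wa; the plan also covers a sibling file): the inverse form of the Weyl inequality.
`pd_poly`: induction on `k`; `taylor t p - p` has degree at most `k` and coefficient `(k + 1) t c` at `k` (`Polynomial.taylor_coeff`, `hasseDeriv_coeff`, `natDegree_le_iff_coeff_eq_zero`, `eval_eq_sum_range'`; `taylor_eval`).
`vdc`: `‖S‖ ^ 2 = S * conj S = ∑ n, ∑ m, ee (f m - f n)`; put `m = n + t` (`Finset.sum_nbij'` or `sum_sigma'`), `t ∈ Ioo (-M) M`, `n ∈ Ico (max x (x - t)) (min y (y - t))`.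
`weyl`: induction on `k`. Base: `f n = f 0 + n α`, `geom_ee`, `q = 1`. Step: if `M ≤ D ^ C'` take `q = 1` (`abs_sub_round`). Else: by `vdc` at least `M / (2 D ^ 2)` values of `t` have inner sum
at least `M / (4 D ^ 2)` (each inner sum is at most `M`, fewer than `2 M` values of `t`); induction hypothesis with `D' = 4 D ^ 2 ≤ D ^ 4`; pigeonhole on `q t ≤ D ^ (4 C)`; `vino` for `β = q α`,
`E = D ^ (4 C + 3)`, `ε = D ^ (4 C) / M ^ (k + 1)`; the new denominator is `q' q`. -/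

namespace Vale.Agent.P042.S

open Finset Polynomial

theorem tay_wa (p : ℝ[X]) (t : ℝ) (N : ℕ) (hp : p.natDegree ≤ N + 1) :
    (taylor t p).coeff N = p.coeff N + (N + 1) * p.coeff (N + 1) * t := by
  rw [taylor_coeff, eval_eq_sum_range' (n := 2)
    (lt_of_le_of_lt (natDegree_hasseDeriv_le p N) (by omega))]
  simp [sum_range_succ, hasseDeriv_coeff, add_comm 1 N]

theorem pd_poly (k : ℕ) (p : ℝ[X]) (hp : p.natDegree ≤ k) :
    PD k (k.factorial * p.coeff k) fun n => p.eval (n : ℝ) := by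
  induction k generalizing p with
  | zero =>
    intro n
    show p.eval _ = _
    rw [eq_C_of_natDegree_le_zero hp]
    simp
  | succ k ih =>
    intro t
    have h := ih (taylor (t : ℝ) p - p) (natDegree_le_iff_coeff_eq_zero.2 fun N hN => by
      rw [coeff_sub, tay_wa p t N (by omega), coeff_eq_zero_of_natDegree_lt (n := N + 1) (by omega)]
      ring)
    have e : (k.factorial : ℝ) * (taylor (t : ℝ) p - p).coeff k =
        t * (((k + 1).factorial : ℕ) * p.coeff (k + 1)) := by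
      rw [coeff_sub, tay_wa p t k hp, Nat.factorial_succ]
      push_cast
      ring
    rw [e] at h
    simpa only [eval_sub, taylor_eval, Int.cast_add] using h

theorem vdc (f : ℤ → ℝ) {M : ℕ} {x y : ℤ} (h : y - x ≤ M) :
    ‖∑ n ∈ Ico x y, ee (f n)‖ ^ 2 ≤ ∑ t ∈ Ioo (-(M : ℤ)) M,
      ‖∑ n ∈ Ico (max x (x - t)) (min y (y - t)), ee (f (n + t) - f n)‖ := by
  have e : ((‖∑ n ∈ Ico x y, ee (f n)‖ ^ 2 : ℝ) : ℂ) = ∑ t ∈ Ioo (-(M : ℤ)) M,
      ∑ n ∈ Ico (max x (x - t)) (min y (y - t)), ee (f (n + t) - f n) := by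
    rw [Complex.ofReal_pow, ← Complex.conj_mul', map_sum, sum_mul_sum, sum_sigma', sum_sigma']
    refine sum_nbij' (fun p => ⟨p.2 - p.1, p.1⟩) (fun p => ⟨p.2, p.2 + p.1⟩) ?_ ?_ ?_ ?_ ?_
    · rintro ⟨a, b⟩ hp
      simp only [mem_sigma, mem_Ico, mem_Ioo] at hp ⊢
      omega
    · rintro ⟨a, b⟩ hp
      simp only [mem_sigma, mem_Ico, mem_Ioo] at hp ⊢
      omega
    · rintro ⟨a, b⟩ _
      simp
    · rintro ⟨a, b⟩ _
      simp
    · rintro ⟨a, b⟩ _
      simp only [add_sub_cancel]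
      rw [← ee_neg, ← ee_add, neg_add_eq_sub]
  calc _ ≤ ‖((‖∑ n ∈ Ico x y, ee (f n)‖ ^ 2 : ℝ) : ℂ)‖ := by
        rw [Complex.norm_real]; exact le_abs_self _
    _ ≤ _ := by rw [e]; exact norm_sum_le _ _

end Vale.Agent.P042.S
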